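import Vale.Agent.P019.MathlibFull
import Vale.Agent.P019.MathlibUsed

/-! Carved out of `Vale.Agent.P019.Bd4` (function fields of one variable); generated file. -/

set_option linter.all false

attribute [local instance] O19.fr O19.tf O19.pj O19.fl

section

section

/-!
# Divisors and their degree
-/

namespace Vale.Agent.P019P

/-- the degree of a divisor. -/
noncomputable def dg {P : Type*} : (P →₀ ℤ) →+ ℤ :=
  Finsupp.liftAddHom fun _ => AddMonoidHom.id ℤ

end Vale.Agent.P019P
end
end

section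

section

/-!
# Function fields of one variable: definitions
-/

namespace Vale.Agent.P019P

open Polynomial IntermediateField

section defs

variable (k F : Type*) [Field k] [Field F] [Algebra k F]

/-- function fields of one variable over an algebraically closed field. -/
class CFF : Prop where
  ac : IsAlgClosed k
  ex : ∃ x : F, Transcendental k x ∧ FiniteDimensional k⟮x⟯ F

/-- the places of `F` over `k`. -/
def Plk : Type _ :=
  {O : ValuationSubring F // (∀ a : k, algebraMap k F a ∈ O) ∧ O ≠ ⊤}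

end defs

/-- `f` is the normalised additive valuation of `O` (with `f 0 = 0`). -/
structure IsOrd {F : Type*} [Field F] (O : ValuationSubring F) (f : F → ℤ) : Prop where
  zero : f 0 = 0
  mul : ∀ x y, x ≠ 0 → y ≠ 0 → f (x * y) = f x + f y
  add : ∀ x y, x ≠ 0 → y ≠ 0 → x + y ≠ 0 → min (f x) (f y) ≤ f (x + y)
  mem : ∀ x, x ∈ O ↔ x = 0 ∨ 0 ≤ f x
  one : ∃ π, f π = 1

end Vale.Agent.P019P
end
end

section

section

/-!
# Function fields of one variable: field theory
-/

namespace Vale.Agent.P019P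

open Polynomial IntermediateField

section

variable {k F : Type*} [Field k] [Field F] [Algebra k F]

theorem adjoin_inv_eq (x : F) : k⟮x⁻¹⟯ = k⟮x⟯ := by
  refine le_antisymm ?_ ?_
  · exact adjoin_simple_le_iff.2 (inv_mem (mem_adjoin_simple_self k x))
  · refine adjoin_simple_le_iff.2 ?_
    have h := inv_mem (mem_adjoin_simple_self k x⁻¹)
    rwa [inv_inv] at h

theorem adjoin_sub_eq (x : F) (c : k) : k⟮x - algebraMap k F c⟯ = k⟮x⟯ := by
  refine le_antisymm ?_ ?_
  · exact adjoin_simple_le_iff.2 (sub_mem (mem_adjoin_simple_self k x)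
      (IntermediateField.algebraMap_mem _ c))
  · refine adjoin_simple_le_iff.2 ?_
    have h := add_mem (mem_adjoin_simple_self k (x - algebraMap k F c))
      (IntermediateField.algebraMap_mem k⟮x - algebraMap k F c⟯ c)
    rwa [sub_add_cancel] at h

theorem nc_inv {x : F} (hx : ∀ a : k, x ≠ algebraMap k F a) (a : k) : x⁻¹ ≠ algebraMap k F a := by
  intro h
  apply hx a⁻¹
  rw [map_inv₀, ← h, inv_inv]

theorem nc_sub {x : F} (hx : ∀ a : k, x ≠ algebraMap k F a) (c a : k) :
    x - algebraMap k F c ≠ algebraMap k F a := by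
  intro h
  apply hx (a + c)
  rw [map_add, ← h, sub_add_cancel]

theorem CFld_essFin {t : F} (h : FiniteDimensional k⟮t⟯ F) : Algebra.EssFiniteType k F := by
  have h1 : Algebra.EssFiniteType k k⟮t⟯ :=
    essFiniteType_iff.2 ⟨{t}, by simp⟩
  have h2 : Algebra.EssFiniteType k⟮t⟯ F := inferInstance
  exact Algebra.EssFiniteType.comp k k⟮t⟯ F

theorem CFld_basis {t : F} (ht : Transcendental k t) (h : FiniteDimensional k⟮t⟯ F) :
    IsTranscendenceBasis k (fun _ : Unit => t) := by
  have hai : AlgebraicIndependent k (fun _ : Unit => t) := algebraicIndependent_unique_type_iff.2 ht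
  rw [isTranscendenceBasis_iff_algebraicIndependent_isAlgebraic]
  refine ⟨hai, ?_⟩
  have h3 : Algebra.IsAlgebraic k⟮t⟯ F := inferInstance
  have h4 : Set.range (fun _ : Unit => t) = {t} := by ext; simp [eq_comm]
  rw [h4]
  exact (IntermediateField.isAlgebraic_adjoin_iff_top).1 h3

end

theorem CFld_finite {k F : Type*} [Field k] [Field F] [Algebra k F] [CFF k F] {x : F}
    (hx : Transcendental k x) : FiniteDimensional k⟮x⟯ F := by
  obtain ⟨t, ht, hfd⟩ := CFF.ex (k := k) (F := F)
  have hb := CFld_basis ht hfd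
  have htr : Cardinal.lift (Cardinal.mk Unit) = Cardinal.lift (Algebra.trdeg k F) :=
    hb.lift_cardinalMk_eq_trdeg
  have hai : AlgebraicIndependent k (fun _ : Unit => x) := algebraicIndependent_unique_type_iff.2 hx
  have hbx : IsTranscendenceBasis k (fun _ : Unit => x) :=
    hai.isTranscendenceBasis_of_lift_trdeg_le_of_finite htr.ge
  have h4 : Set.range (fun _ : Unit => x) = {x} := by ext; simp [eq_comm]
  have h5 := hbx.isAlgebraic_field
  rw [h4] at h5
  have h6 : Algebra.EssFiniteType k F := CFld_essFin hfd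
  have h7 : Algebra.EssFiniteType k⟮x⟯ F := Algebra.EssFiniteType.of_comp k k⟮x⟯ F
  exact Algebra.finite_of_essFiniteType_of_isAlgebraic

/-- existence of separating elements. -/
theorem exists_sep (k F : Type*) [Field k] [Field F] [Algebra k F] [CFF k F] :
    ∃ x : F, Transcendental k x ∧ FiniteDimensional k⟮x⟯ F ∧ Algebra.IsSeparable k⟮x⟯ F := by
  obtain ⟨t, ht, hfd⟩ := CFF.ex (k := k) (F := F)
  have : Algebra.EssFiniteType k F := CFld_essFin hfd
  have : IsAlgClosed k := CFF.ac (k := k) (F := F)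
  obtain ⟨s, hs, hsep⟩ := exists_isTranscendenceBasis_and_isSeparable_of_perfectField k F
  have hb := CFld_basis ht hfd
  have hcard : Cardinal.lift (Cardinal.mk Unit) = Cardinal.lift (Cardinal.mk s) :=
    hb.lift_cardinalMk_eq hs
  have h1 : s.card = 1 := by
    simpa using hcard.symm
  obtain ⟨x, rfl⟩ := Finset.card_eq_one.1 h1
  have hx : Transcendental k x := hs.1.transcendental ⟨x, by simp⟩
  refine ⟨x, hx, CFld_finite hx, ?_⟩
  rw [Finset.coe_singleton] at hsep
  exact hsep

/-- every non-constant element is transcendental with finite degree. -/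
theorem finite_of_notMem {k F : Type*} [Field k] [Field F] [Algebra k F] [CFF k F] {x : F}
    (hx : ∀ a : k, x ≠ algebraMap k F a) :
    Transcendental k x ∧ FiniteDimensional k⟮x⟯ F := by
  have : IsAlgClosed k := CFF.ac (k := k) (F := F)
  have htr : Transcendental k x := by
    intro halg
    have hint : IsIntegral k x := halg.isIntegral
    obtain ⟨a, ha⟩ := minpoly.mem_range_of_degree_eq_one k x
      (IsAlgClosed.degree_eq_one_of_irreducible k (minpoly.irreducible hint))
    exact hx a ha.symm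
  exact ⟨htr, CFld_finite htr⟩

end Vale.Agent.P019P
end
end

section

section

/-!
# Linear independence over `k(x)` and polynomial relations
-/

namespace Vale.Agent.P019P

open Polynomial IntermediateField

section

variable {k F : Type*} [Field k] [Field F] [Algebra k F]

private theorem exists_frac {x c : F} (hc : c ∈ k⟮x⟯) :
    ∃ f g : k[X], aeval x g ≠ 0 ∧ c * aeval x g = aeval x f := by
  obtain ⟨f, g, h⟩ := (mem_adjoin_simple_iff k c).1 hc
  by_cases hg : aeval x g = 0
  · refine ⟨0, 1, by simp, ?_⟩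
    rw [h, hg]
    simp
  · exact ⟨f, g, hg, by rw [h, div_mul_cancel₀ _ hg]⟩

private theorem exists_rel' {x : F} {ι : Type*} [Fintype ι] {y : ι → F}
    (h : ¬ LinearIndependent k⟮x⟯ y) :
    ∃ φ : ι → k[X], (∃ i, φ i ≠ 0) ∧ ∑ i, aeval x (φ i) * y i = 0 := by
  classical
  obtain ⟨c, hc, i0, hi0⟩ := Fintype.not_linearIndependent_iff.1 h
  choose f g hg hfg using fun i => exists_frac (k := k) (x := x) (c i).2
  have key : ∀ i, aeval x (f i * ∏ j ∈ Finset.univ.erase i, g j)
      = (c i : F) * ∏ j, aeval x (g j) := by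
    intro i
    rw [map_mul, ← hfg i, map_prod, mul_assoc,
      Finset.mul_prod_erase Finset.univ (fun j => aeval x (g j)) (Finset.mem_univ i)]
  refine ⟨fun i => f i * ∏ j ∈ Finset.univ.erase i, g j, ⟨i0, fun h0 => ?_⟩, ?_⟩
  · have h1 := key i0
    simp only at h0
    rw [h0, map_zero] at h1
    rcases mul_eq_zero.1 h1.symm with h2 | h2
    · exact hi0 (Subtype.ext h2)
    · exact Finset.prod_ne_zero_iff.2 (fun j _ => hg j) h2
  · have h1 : ∀ i, aeval x (f i * ∏ j ∈ Finset.univ.erase i, g j) * y i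
        = (∏ j, aeval x (g j)) * (c i • y i) := by
      intro i
      rw [key i]
      change _ = _ * ((c i : F) * y i)
      ring
    simp only [h1]
    rw [← Finset.mul_sum, hc, mul_zero]

/-- a linear relation over `k(x)` can be normalised. -/
theorem exists_rel {x : F} (hx : Transcendental k x) {ι : Type*} [Fintype ι] {y : ι → F}
    (h : ¬ LinearIndependent k⟮x⟯ y) :
    ∃ φ : ι → k[X], (∃ i, (φ i).coeff 0 ≠ 0) ∧ ∑ i, aeval x (φ i) * y i = 0 := by
  classical
  have hx0 : x ≠ 0 := fun h0 => by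
    rw [h0] at hx
    exact hx (isAlgebraic_zero)
  have hex : ∃ n, ∃ φ : ι → k[X], (∃ i, φ i ≠ 0) ∧ ∑ i, aeval x (φ i) * y i = 0 ∧
      ∑ i, (φ i).natDegree = n := by
    obtain ⟨φ, h1, h2⟩ := exists_rel' h
    exact ⟨_, φ, h1, h2, rfl⟩
  obtain ⟨φ, ⟨i0, hi0⟩, h2, h3⟩ := Nat.find_spec hex
  refine ⟨φ, ?_, h2⟩
  by_contra hcon
  push Not at hcon
  have e : ∀ i, φ i = (φ i).divX * X := fun i => by
    conv_lhs => rw [← divX_mul_X_add (φ i), hcon i, C_0, add_zero]
  have hne : (φ i0).divX ≠ 0 := fun h0 => hi0 (by rw [e i0, h0, zero_mul])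
  have hdeg : (φ i0).natDegree = (φ i0).divX.natDegree + 1 := by
    conv_lhs => rw [e i0]
    exact natDegree_mul_X hne
  have hlt : ∑ i, (φ i).divX.natDegree < Nat.find hex := by
    rw [← h3]
    refine Finset.sum_lt_sum (fun i _ => natDegree_divX_le) ⟨i0, Finset.mem_univ _, ?_⟩
    omega
  refine Nat.find_min hex hlt ⟨fun i => (φ i).divX, ⟨i0, hne⟩, ?_, rfl⟩
  have h4 : x * ∑ i, aeval x ((φ i).divX) * y i = 0 := by
    rw [← h2, Finset.mul_sum]
    refine Finset.sum_congr rfl fun i _ => ?_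
    conv_rhs => rw [e i, map_mul, aeval_X]
    ring
  exact (mul_eq_zero.1 h4).resolve_left hx0

/-- a family independent over `k(x)` gives a family independent over `k`. -/
theorem indep_pow_mul {x : F} (hx : Transcendental k x) {ι : Type*} {y : ι → F}
    (h : LinearIndependent k⟮x⟯ y) :
    LinearIndependent k (fun p : ι × ℕ => x ^ p.2 * y p.1) := by
  have h1 : LinearIndependent k (fun j : ℕ => (AdjoinSimple.gen k x) ^ j) := by
    have h2 := (Polynomial.basisMonomials k).linearIndependent.map'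
      (aeval (AdjoinSimple.gen k x)).toLinearMap (by
        rw [LinearMap.ker_eq_bot]
        intro p q hpq
        have h3 : aeval x p = aeval x q := by
          have h4 := congrArg (algebraMap k⟮x⟯ F) hpq
          simpa only [AlgHom.toLinearMap_apply, ← aeval_algebraMap_apply,
            AdjoinSimple.algebraMap_gen] using h4
        exact transcendental_iff_injective.1 hx h3)
    have h5 : (fun j : ℕ => (AdjoinSimple.gen k x) ^ j)
        = ⇑(aeval (AdjoinSimple.gen k x)).toLinearMap ∘ ⇑(basisMonomials k) := by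
      funext j
      simp [coe_basisMonomials]
    rw [h5]
    exact h2
  have h5 := linearIndependent_smul h1 h
  have h6 := h5.comp Prod.swap Prod.swap_injective
  exact h6

/-- conversely, polynomial independence gives independence over `k(x)`. -/
theorem indep_of_poly {x : F} (hx : Transcendental k x) {ι : Type*} [Fintype ι] {y : ι → F}
    (h : ∀ φ : ι → k[X], ∑ i, aeval x (φ i) * y i = 0 → ∀ i, φ i = 0) :
    LinearIndependent k⟮x⟯ y := by
  by_contra hn
  obtain ⟨φ, ⟨i, hi⟩, h0⟩ := exists_rel hx hn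
  exact hi (by rw [h φ h0 i, coeff_zero])

end

end Vale.Agent.P019P
end
end

section

section

/-!
# The places of a function field are discrete, with residue field `k`
-/

namespace Vale.Agent.P019P

set_option linter.unusedSectionVars false

open Polynomial IntermediateField

namespace AuxCVal

section

variable {K : Type*} [Field K] {O : ValuationSubring K} {f : K → ℤ}

theorem ord_one (hf : IsOrd O f) : f 1 = 0 := by
  have h := hf.mul 1 1 one_ne_zero one_ne_zero
  rw [mul_one] at h
  omega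

theorem ord_inv (hf : IsOrd O f) {x : K} (hx : x ≠ 0) : f x⁻¹ = - f x := by
  have h := hf.mul x x⁻¹ hx (inv_ne_zero hx)
  rw [mul_inv_cancel₀ hx, ord_one hf] at h
  omega

theorem ord_pow (hf : IsOrd O f) {x : K} (hx : x ≠ 0) (n : ℕ) : f (x ^ n) = n * f x := by
  induction n with
  | zero => rw [pow_zero, ord_one hf]; simp
  | succ n ih =>
    rw [pow_succ, hf.mul _ _ (pow_ne_zero _ hx) hx, ih]
    push_cast
    ring

theorem ord_zpow (hf : IsOrd O f) {x : K} (hx : x ≠ 0) (n : ℤ) : f (x ^ n) = n * f x := by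
  cases n with
  | ofNat n =>
    rw [Int.ofNat_eq_natCast, zpow_natCast]; exact ord_pow hf hx n
  | negSucc n =>
    rw [zpow_negSucc, ord_inv hf (pow_ne_zero _ hx), ord_pow hf hx, Int.negSucc_eq]
    push_cast
    ring

end

section

variable {k F : Type*} [Field k] [Field F] [Algebra k F] [CFF k F]

theorem v_cst (P : Plk k F) {c : k} (hc : c ≠ 0) : P.1.valuation (algebraMap k F c) = 1 := by
  have h1 := (P.1.valuation_le_one_iff _).2 (P.2.1 c)
  have h2 := (P.1.valuation_le_one_iff _).2 (P.2.1 c⁻¹)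
  have hc' : algebraMap k F c ≠ 0 := by rwa [Ne, map_eq_zero]
  have hpos : 0 < P.1.valuation (algebraMap k F c) := by
    rw [zero_lt_iff]; exact (Valuation.ne_zero_iff _).2 hc'
  rw [map_inv₀, map_inv₀, inv_le_one₀ hpos] at h2
  exact le_antisymm h1 h2

theorem nc_of_lt (P : Plk k F) {x : F} (hx0 : x ≠ 0) (hx : P.1.valuation x < 1) (a : k) :
    x ≠ algebraMap k F a := by
  rintro rfl
  have ha : a ≠ 0 := by
    rintro rfl
    exact hx0 (map_zero _)
  rw [v_cst P ha] at hx
  exact lt_irrefl _ hx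

theorem v_aeval_le (P : Plk k F) {x : F} (hx : P.1.valuation x ≤ 1) (φ : k[X]) :
    P.1.valuation (aeval x φ) ≤ 1 := by
  have hxm : x ∈ P.1 := (P.1.valuation_le_one_iff _).1 hx
  rw [P.1.valuation_le_one_iff]
  induction φ using Polynomial.induction_on' with
  | add p q hp hq => rw [map_add]; exact add_mem hp hq
  | monomial n a =>
    rw [aeval_monomial]
    exact mul_mem (P.2.1 a) (pow_mem hxm n)

theorem aeval_eq (x : F) (φ : k[X]) :
    aeval x φ = aeval x φ.divX * x + algebraMap k F (φ.coeff 0) := by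
  conv_lhs => rw [← divX_mul_X_add φ]
  rw [map_add, map_mul, aeval_X, aeval_C]

theorem v_aeval_zero (P : Plk k F) {x : F} (hx : P.1.valuation x ≤ 1) {φ : k[X]}
    (h : φ.coeff 0 = 0) : P.1.valuation (aeval x φ) ≤ P.1.valuation x := by
  rw [aeval_eq, h, map_zero, add_zero, map_mul]
  exact mul_le_of_le_one_left' (v_aeval_le P hx _)

theorem v_aeval_one (P : Plk k F) {x : F} (hx : P.1.valuation x < 1) {φ : k[X]}
    (h : φ.coeff 0 ≠ 0) : P.1.valuation (aeval x φ) = 1 := by
  rw [aeval_eq]
  have h1 : P.1.valuation (aeval x φ.divX * x) < 1 := by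
    rw [map_mul]
    exact (mul_le_of_le_one_left' (v_aeval_le P hx.le _)).trans_lt hx
  have h2 := v_cst P h
  rw [Valuation.map_add_eq_of_lt_right _ (by rw [h2]; exact h1), h2]

/-- the valuation ring is not everything. -/
theorem exists_small (P : Plk k F) : ∃ x : F, x ≠ 0 ∧ P.1.valuation x < 1 := by
  have h1 : ∃ w : F, w ∉ P.1 := by
    by_contra hcon
    push Not at hcon
    exact P.2.2 (eq_top_iff.2 fun w _ => hcon w)
  obtain ⟨w, hw⟩ := h1
  have hw0 : w ≠ 0 := by
    rintro rfl
    exact hw (zero_mem _)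
  refine ⟨w⁻¹, inv_ne_zero hw0, ?_⟩
  rw [← P.1.valuation_le_one_iff, not_le] at hw
  rw [map_inv₀]
  exact inv_lt_one_of_one_lt₀ hw

end

end AuxCVal

open AuxCVal

theorem IsOrd.unique {F : Type*} [Field F] {O : ValuationSubring F} {f g : F → ℤ}
    (hf : IsOrd O f) (hg : IsOrd O g) : f = g := by
  have h0 : ∀ w : F, w ≠ 0 → (0 ≤ f w ↔ 0 ≤ g w) := by
    intro w hw
    have h1 := hf.mem w
    have h2 := hg.mem w
    constructor
    · intro h
      exact (h2.1 (h1.2 (Or.inr h))).resolve_left hw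
    · intro h
      exact (h1.1 (h2.2 (Or.inr h))).resolve_left hw
  have h1 : ∀ w : F, w ≠ 0 → f w = 0 → g w = 0 := by
    intro w hw h
    have h2 := (h0 w hw).1 h.ge
    have h3 := (h0 w⁻¹ (inv_ne_zero hw)).1 (by rw [ord_inv hf hw]; omega)
    rw [ord_inv hg hw] at h3
    omega
  obtain ⟨π, hπ⟩ := hf.one
  obtain ⟨π', hπ'⟩ := hg.one
  have hπ0 : π ≠ 0 := by rintro rfl; rw [hf.zero] at hπ; exact zero_ne_one hπ
  have hπ0' : π' ≠ 0 := by rintro rfl; rw [hg.zero] at hπ'; exact zero_ne_one hπ'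
  have h2 : ∀ z : F, z ≠ 0 → g z = f z * g π := by
    intro z hz
    have hp : π ^ f z ≠ 0 := zpow_ne_zero _ hπ0
    have h3 := h1 (z * (π ^ f z)⁻¹) (mul_ne_zero hz (inv_ne_zero hp)) (by
      rw [hf.mul _ _ hz (inv_ne_zero hp), ord_inv hf hp, ord_zpow hf hπ0, hπ]
      ring)
    rw [hg.mul _ _ hz (inv_ne_zero hp), ord_inv hg hp, ord_zpow hg hπ0] at h3
    linarith
  have h4 : 0 ≤ g π := (h0 π hπ0).1 (by rw [hπ]; exact zero_le_one)
  have h5 := h2 π' hπ0'
  rw [hπ'] at h5
  have h6 : g π = 1 := by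
    rcases Int.eq_one_or_neg_one_of_mul_eq_one' h5.symm with h | h
    · exact h.2
    · omega
  funext z
  by_cases hz : z = 0
  · rw [hz, hf.zero, hg.zero]
  · rw [h2 z hz, h6, mul_one]

section

variable {k F : Type*} [Field k] [Field F] [Algebra k F] [CFF k F]

/-- elements whose values are close to each other are independent over `k(x)`. -/
theorem indep_of_val (P : Plk k F) {x : F} (hx0 : x ≠ 0) (hx : P.1.valuation x < 1)
    {ι : Type*} [Fintype ι] {y : ι → F} (hy : ∀ i, y i ≠ 0)
    (hd : ∀ i j, i ≠ j → P.1.valuation (y i) ≠ P.1.valuation (y j))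
    (hlt : ∀ i j, P.1.valuation x * P.1.valuation (y i) < P.1.valuation (y j)) :
    LinearIndependent k⟮x⟯ y := by
  classical
  by_contra hdep
  obtain ⟨htr, -⟩ := finite_of_notMem (nc_of_lt P hx0 hx)
  obtain ⟨φ, ⟨i0, hi0⟩, hsum⟩ := exists_rel htr hdep
  obtain ⟨j, hj, hmax⟩ := Finset.exists_max_image
    (Finset.univ.filter fun i => (φ i).coeff 0 ≠ 0) (fun i => P.1.valuation (y i))
    ⟨i0, by simpa using hi0⟩
  have hj' : (φ j).coeff 0 ≠ 0 := by simpa using hj
  have hyj : P.1.valuation (y j) ≠ 0 := (Valuation.ne_zero_iff _).2 (hy j)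
  have hvj : P.1.valuation (aeval x (φ j) * y j) = P.1.valuation (y j) := by
    rw [map_mul, v_aeval_one P hx hj', one_mul]
  have hrest : P.1.valuation (∑ i ∈ Finset.univ.erase j, aeval x (φ i) * y i) <
      P.1.valuation (y j) := by
    apply Valuation.map_sum_lt _ hyj
    intro i hi
    have hij : i ≠ j := Finset.ne_of_mem_erase hi
    rw [map_mul]
    by_cases h : (φ i).coeff 0 = 0
    · exact (mul_le_mul_left (v_aeval_zero P hx.le h) _).trans_lt (hlt i j)
    · rw [v_aeval_one P hx h, one_mul]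
      exact lt_of_le_of_ne (hmax i (by simpa using h)) (hd i j hij)
  rw [← Finset.add_sum_erase _ _ (Finset.mem_univ j)] at hsum
  rw [eq_neg_of_add_eq_zero_left hsum, Valuation.map_neg] at hvj
  rw [hvj] at hrest
  exact lt_irrefl _ hrest

theorem AuxCVal.exists_cst_of_poly (P : Plk k F) {z : F} (hz : z ∈ P.1) (n : ℕ) :
    ∀ f : k[X], f.natDegree ≤ n → f ≠ 0 → P.1.valuation (aeval z f) < 1 →
      ∃ c : k, P.1.valuation (z - algebraMap k F c) < 1 := by
  have : IsAlgClosed k := CFF.ac F
  induction n with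
  | zero =>
    intro f hd hf hv
    exfalso
    rw [eq_C_of_natDegree_le_zero hd, aeval_C] at hv
    have h0 : f.coeff 0 ≠ 0 := by
      intro h
      apply hf
      rw [eq_C_of_natDegree_le_zero hd, h, C_0]
    rw [v_cst P h0] at hv
    exact lt_irrefl _ hv
  | succ n ih =>
    intro f hd hf hv
    by_cases h0 : f.natDegree = 0
    · exact ih f (by omega) hf hv
    obtain ⟨c, hc⟩ := IsAlgClosed.exists_root f (by
      intro h
      exact h0 (natDegree_eq_of_degree_eq_some h))
    obtain ⟨g, hg⟩ := dvd_iff_isRoot.2 hc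
    have hg0 : g ≠ 0 := by
      rintro rfl
      exact hf (by rw [hg, mul_zero])
    have hdg : f.natDegree = 1 + g.natDegree := by
      rw [hg, natDegree_mul (X_sub_C_ne_zero c) hg0, natDegree_X_sub_C]
    rw [hg, map_mul, map_sub, aeval_X, aeval_C, map_mul] at hv
    have h1 : P.1.valuation (z - algebraMap k F c) ≤ 1 :=
      (P.1.valuation_le_one_iff _).2 (sub_mem hz (P.2.1 c))
    rcases h1.lt_or_eq with h2 | h2
    · exact ⟨c, h2⟩
    · rw [h2, one_mul] at hv
      exact ih g (by omega) hg0 hv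

theorem exists_cst' (P : Plk k F) {z : F} (hz : z ∈ P.1) :
    ∃ c : k, P.1.valuation (z - algebraMap k F c) < 1 := by
  classical
  obtain ⟨x, hx0, hx⟩ := exists_small P
  obtain ⟨htr, hfd⟩ := finite_of_notMem (nc_of_lt P hx0 hx)
  have hdep : ¬ LinearIndependent k⟮x⟯
      (fun i : Fin (Module.finrank k⟮x⟯ F + 1) => z ^ (i : ℕ)) := by
    intro h
    have h1 := h.fintype_card_le_finrank
    rw [Fintype.card_fin] at h1
    omega
  obtain ⟨φ, ⟨i0, hi0⟩, hsum⟩ := exists_rel htr hdep
  have hz1 : P.1.valuation z ≤ 1 := (P.1.valuation_le_one_iff _).2 hz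
  apply exists_cst_of_poly P hz _ (∑ i, C ((φ i).coeff 0) * X ^ (i : ℕ)) le_rfl
  · intro h
    have h1 := congrArg (fun p : k[X] => p.coeff (i0 : ℕ)) h
    simp only [finsetSum_coeff, coeff_C_mul, coeff_X_pow, coeff_zero] at h1
    rw [Finset.sum_eq_single i0] at h1
    · rw [if_pos rfl, mul_one] at h1
      exact hi0 h1
    · intro j _ hj
      rw [if_neg (fun h' => hj (Fin.ext h'.symm)), mul_zero]
    · intro h'
      exact absurd (Finset.mem_univ _) h'
  · have h1 : aeval z (∑ i, C ((φ i).coeff 0) * X ^ (i : ℕ)) =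
        -∑ i, aeval x (φ i).divX * x * z ^ (i : ℕ) := by
      rw [eq_neg_iff_add_eq_zero, map_sum, ← Finset.sum_add_distrib, ← hsum]
      refine Finset.sum_congr rfl fun i _ => ?_
      rw [map_mul, map_pow, aeval_X, aeval_C, aeval_eq x (φ i)]
      ring
    rw [h1, Valuation.map_neg]
    apply Valuation.map_sum_lt _ one_ne_zero
    intro i _
    rw [map_mul, map_mul, map_pow]
    calc P.1.valuation (aeval x (φ i).divX) * P.1.valuation x * P.1.valuation z ^ (i : ℕ)
        ≤ 1 * P.1.valuation x * 1 :=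
          mul_le_mul' (mul_le_mul' (v_aeval_le P hx.le _) le_rfl) (pow_le_one' hz1 _)
      _ = P.1.valuation x := by rw [one_mul, mul_one]
      _ < 1 := hx

theorem AuxCVal.exists_unif (P : Plk k F) : ∃ t : F, t ≠ 0 ∧ P.1.valuation t < 1 ∧
    ∀ z, P.1.valuation z < 1 → P.1.valuation z ≤ P.1.valuation t := by
  obtain ⟨x, hx0, hx⟩ := exists_small P
  obtain ⟨htr, hfd⟩ := finite_of_notMem (nc_of_lt P hx0 hx)
  by_contra hcon
  push Not at hcon
  have hstep : ∀ t : {t : F // t ≠ 0 ∧ P.1.valuation t < 1},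
      ∃ s : {t : F // t ≠ 0 ∧ P.1.valuation t < 1}, P.1.valuation t.1 < P.1.valuation s.1 := by
    rintro ⟨t, ht0, ht⟩
    obtain ⟨z, hz, hz'⟩ := hcon t ht0 ht
    have hz0 : z ≠ 0 := by
      rintro rfl
      rw [map_zero] at hz'
      exact not_lt_zero hz'
    exact ⟨⟨z, hz0, hz⟩, hz'⟩
  choose nx hnx using hstep
  let y : ℕ → {t : F // t ≠ 0 ∧ P.1.valuation t < 1} := fun n => nx^[n] ⟨x, hx0, hx⟩
  have hy : StrictMono fun n => P.1.valuation (y n).1 := by
    apply strictMono_nat_of_lt_succ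
    intro n
    have h1 : y (n + 1) = nx (y n) := Function.iterate_succ_apply' nx n _
    change P.1.valuation (y n).1 < P.1.valuation (y (n + 1)).1
    rw [h1]
    exact hnx _
  have hvx : 0 < P.1.valuation x := by
    rw [zero_lt_iff]; exact (Valuation.ne_zero_iff _).2 hx0
  have h2 := (indep_of_val P hx0 hx (y := fun i : Fin (Module.finrank k⟮x⟯ F + 1) => (y i).1)
    (fun i => (y i).2.1) (fun i j hij h => hij (Fin.ext (hy.injective h)))
    (fun i j => by
      have h3 : P.1.valuation x ≤ P.1.valuation (y j).1 := hy.monotone (Nat.zero_le _)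
      exact (mul_lt_of_lt_one_right hvx (y i).2.2).trans_le h3)).fintype_card_le_finrank
  rw [Fintype.card_fin] at h2
  omega

theorem AuxCVal.exists_pow (P : Plk k F) {t : F} (ht0 : t ≠ 0) (ht : P.1.valuation t < 1)
    (hmax : ∀ z, P.1.valuation z < 1 → P.1.valuation z ≤ P.1.valuation t) {z : F} (hz0 : z ≠ 0)
    (hz : P.1.valuation z ≤ 1) : ∃ m : ℕ, P.1.valuation z = P.1.valuation t ^ m := by
  classical
  rcases hz.lt_or_eq with hz1 | hz1
  swap
  · exact ⟨0, by rw [hz1, pow_zero]⟩
  have hvt : 0 < P.1.valuation t := by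
    rw [zero_lt_iff]; exact (Valuation.ne_zero_iff _).2 ht0
  have hvz : 0 < P.1.valuation z := by
    rw [zero_lt_iff]; exact (Valuation.ne_zero_iff _).2 hz0
  obtain ⟨htr, hfd⟩ := finite_of_notMem (nc_of_lt P hz0 hz1)
  have hanti : StrictAnti fun n : ℕ => P.1.valuation t ^ n := pow_right_strictAnti₀ hvt ht
  have hex : ∃ M : ℕ, ¬ P.1.valuation z ≤ P.1.valuation t ^ M := by
    refine ⟨Module.finrank k⟮z⟯ F + 1, fun hcon => ?_⟩
    have h2 := (indep_of_val P hz0 hz1
      (y := fun i : Fin (Module.finrank k⟮z⟯ F + 1) => t ^ ((i : ℕ) + 1))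
      (fun i => pow_ne_zero _ ht0)
      (fun i j hij h => hij (by
        rw [map_pow, map_pow] at h
        have h3 := hanti.injective h
        exact Fin.ext (by omega)))
      (fun i j => by
        rw [map_pow, map_pow]
        have h3 : P.1.valuation t ^ ((i : ℕ) + 1) < 1 := by
          have := hanti (Nat.succ_pos (i : ℕ))
          simpa using this
        refine (mul_lt_of_lt_one_right hvz h3).trans_le (hcon.trans ?_)
        have h4 : (j : ℕ) + 1 ≤ Module.finrank k⟮z⟯ F + 1 := j.2
        exact hanti.antitone h4)).fintype_card_le_finrank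
    rw [Fintype.card_fin] at h2
    omega
  have hM := Nat.find_spec hex
  have hM0 : Nat.find hex ≠ 0 := by
    intro h
    rw [h, pow_zero] at hM
    exact hM hz
  obtain ⟨m, hm⟩ := Nat.exists_eq_succ_of_ne_zero hM0
  have hPm : P.1.valuation z ≤ P.1.valuation t ^ m := by
    have := Nat.find_min hex (m := m) (by omega)
    exact not_not.1 this
  rw [hm] at hM
  refine ⟨m, le_antisymm hPm (not_lt.1 fun hlt => hM ?_)⟩
  have h5 : P.1.valuation (z * (t ^ m)⁻¹) < 1 := by
    rw [map_mul, map_inv₀, map_pow, ← div_eq_mul_inv]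
    exact (div_lt_one₀ (pow_pos hvt m)).2 hlt
  have h6 := hmax _ h5
  rw [map_mul, map_inv₀, map_pow, ← div_eq_mul_inv, div_le_iff₀ (pow_pos hvt m)] at h6
  rw [Nat.succ_eq_add_one, pow_succ']
  exact h6

theorem exists_isOrd (P : Plk k F) : ∃ f : F → ℤ, IsOrd P.1 f := by
  classical
  obtain ⟨t, ht0, ht, hmax⟩ := exists_unif P
  have hvt : 0 < P.1.valuation t := by
    rw [zero_lt_iff]; exact (Valuation.ne_zero_iff _).2 ht0
  have hex : ∀ z : F, z ≠ 0 → ∃ n : ℤ, P.1.valuation z = P.1.valuation t ^ n := by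
    intro z hz0
    rcases le_total (P.1.valuation z) 1 with h | h
    · obtain ⟨m, hm⟩ := exists_pow P ht0 ht hmax hz0 h
      exact ⟨m, by rw [hm, zpow_natCast]⟩
    · obtain ⟨m, hm⟩ := exists_pow P ht0 ht hmax (inv_ne_zero hz0) (by
        rw [map_inv₀]
        exact inv_le_one_of_one_le₀ h)
      refine ⟨-m, ?_⟩
      rw [map_inv₀] at hm
      rw [zpow_neg, zpow_natCast, ← hm, inv_inv]
  have hanti : StrictAnti fun n : ℤ => P.1.valuation t ^ n := zpow_right_strictAnti₀ hvt ht
  choose g hg using hex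
  let f : F → ℤ := fun z => if h : z = 0 then 0 else g z h
  have hf0 : f 0 = 0 := dif_pos rfl
  have hf : ∀ z : F, z ≠ 0 → P.1.valuation z = P.1.valuation t ^ f z := by
    intro z hz
    have : f z = g z hz := dif_neg hz
    rw [this]
    exact hg z hz
  have huniq : ∀ z : F, z ≠ 0 → ∀ n : ℤ, P.1.valuation z = P.1.valuation t ^ n → f z = n := by
    intro z hz n hn
    rw [hf z hz] at hn
    exact hanti.injective hn
  refine ⟨f, ⟨hf0, ?_, ?_, ?_, ?_⟩⟩
  · intro x y hx hy
    apply huniq _ (mul_ne_zero hx hy)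
    rw [map_mul, hf x hx, hf y hy, zpow_add₀ hvt.ne']
  · intro x y hx hy hxy
    have h1 := P.1.valuation.map_add x y
    rw [hf x hx, hf y hy, hf _ hxy] at h1
    rcases le_max_iff.1 h1 with h | h
    · exact (min_le_left _ _).trans (hanti.le_iff_ge.1 h)
    · exact (min_le_right _ _).trans (hanti.le_iff_ge.1 h)
  · intro x
    by_cases hx : x = 0
    · rw [hx]
      exact ⟨fun _ => Or.inl rfl, fun _ => zero_mem _⟩
    · have h1 : P.1.valuation x ≤ 1 ↔ 0 ≤ f x := by
        rw [hf x hx, ← zpow_zero (P.1.valuation t)]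
        exact hanti.le_iff_ge
      rw [← P.1.valuation_le_one_iff, h1]
      exact ⟨fun h => Or.inr h, fun h => h.resolve_left hx⟩
  · exact ⟨t, huniq t ht0 1 (by rw [zpow_one])⟩

/-- the order at a place. -/
noncomputable def ord (P : Plk k F) : F → ℤ := (exists_isOrd P).choose

theorem ord_spec (P : Plk k F) : IsOrd P.1 (ord P) := (exists_isOrd P).choose_spec

/-- places are determined by their orders; the residue field is `k`. -/
theorem exists_cst (P : Plk k F) {z : F} (hz : z ∈ P.1) :
    ∃ c : k, z = algebraMap k F c ∨ 0 < ord P (z - algebraMap k F c) := by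
  obtain ⟨c, hc⟩ := exists_cst' P hz
  refine ⟨c, ?_⟩
  by_cases h : z = algebraMap k F c
  · exact Or.inl h
  right
  have hw : z - algebraMap k F c ≠ 0 := sub_ne_zero.2 h
  have hO := ord_spec P
  have h1 : 0 ≤ ord P (z - algebraMap k F c) :=
    ((hO.mem _).1 (sub_mem hz (P.2.1 c))).resolve_left hw
  by_contra hcon
  have h2 : ord P (z - algebraMap k F c) = 0 := by omega
  have h3 : (z - algebraMap k F c)⁻¹ ∈ P.1 :=
    (hO.mem _).2 (Or.inr (by rw [ord_inv hO hw, h2, neg_zero]))
  rw [← P.1.valuation_le_one_iff, map_inv₀, inv_le_one₀ (by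
    rw [zero_lt_iff]; exact (Valuation.ne_zero_iff _).2 hw)] at h3
  exact absurd hc (not_lt.2 h3)

end

end Vale.Agent.P019P
end
end

section

section

/-!
# Rules for the order at a place
-/

namespace Vale.Agent.P019P

open Polynomial IntermediateField

section

variable {k F : Type*} [Field k] [Field F] [Algebra k F] [CFF k F]

theorem ord_zero (P : Plk k F) : ord P 0 = 0 := (ord_spec P).zero

theorem ord_mul (P : Plk k F) {x y : F} (hx : x ≠ 0) (hy : y ≠ 0) :
    ord P (x * y) = ord P x + ord P y := (ord_spec P).mul x y hx hy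

theorem ord_one (P : Plk k F) : ord P 1 = 0 := by
  have h := ord_mul P (one_ne_zero (α := F)) (one_ne_zero (α := F))
  rw [one_mul] at h
  omega

theorem ord_inv (P : Plk k F) (x : F) : ord P x⁻¹ = -ord P x := by
  by_cases hx : x = 0
  · rw [hx, inv_zero, ord_zero, neg_zero]
  have h := ord_mul P hx (inv_ne_zero hx)
  rw [mul_inv_cancel₀ hx, ord_one] at h
  omega

theorem ord_neg (P : Plk k F) (x : F) : ord P (-x) = ord P x := by
  have h0 : (-1 : F) ≠ 0 := neg_ne_zero.2 one_ne_zero
  have h1 : ord P (-1) = 0 := by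
    have h := ord_mul P h0 h0
    rw [neg_mul_neg, one_mul, ord_one] at h
    omega
  by_cases hx : x = 0
  · rw [hx, neg_zero]
  have h := ord_mul P h0 hx
  rw [neg_one_mul, h1, zero_add] at h
  exact h

theorem ord_pow (P : Plk k F) (x : F) (n : ℕ) : ord P (x ^ n) = n * ord P x := by
  by_cases hx : x = 0
  · rw [hx, ord_zero, mul_zero]
    rcases Nat.eq_zero_or_pos n with rfl | hn
    · rw [pow_zero, ord_one]
    · rw [zero_pow hn.ne', ord_zero]
  induction n with
  | zero => rw [pow_zero, ord_one, Nat.cast_zero, zero_mul]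
  | succ n ih => rw [pow_succ, ord_mul P (pow_ne_zero n hx) hx, ih, Nat.cast_succ, add_mul, one_mul]

theorem ord_zpow (P : Plk k F) (x : F) (n : ℤ) : ord P (x ^ n) = n * ord P x := by
  cases n with
  | ofNat n => rw [Int.ofNat_eq_natCast, zpow_natCast, ord_pow]
  | negSucc n =>
    rw [zpow_negSucc, ord_inv, ord_pow, Int.negSucc_eq, ← neg_mul]
    push_cast
    rfl

theorem ord_const (P : Plk k F) (a : k) : ord P (algebraMap k F a) = 0 := by
  by_cases ha : a = 0
  · rw [ha, map_zero, ord_zero]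
  have h1 : algebraMap k F a ≠ 0 := by rwa [Ne, map_eq_zero]
  have h2 := (((ord_spec P).mem _).1 (P.2.1 a)).resolve_left h1
  have h3 := (((ord_spec P).mem _).1 (P.2.1 a⁻¹)).resolve_left
    (by rw [map_inv₀]; exact inv_ne_zero h1)
  rw [map_inv₀, ord_inv] at h3
  omega

theorem ord_le_add (P : Plk k F) {x y : F} (hx : x ≠ 0) (hy : y ≠ 0) (h : x + y ≠ 0) :
    min (ord P x) (ord P y) ≤ ord P (x + y) := (ord_spec P).add x y hx hy h

theorem mem_iff_ord (P : Plk k F) (x : F) : x ∈ P.1 ↔ x = 0 ∨ 0 ≤ ord P x :=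
  (ord_spec P).mem x

theorem exists_unif (P : Plk k F) : ∃ π : F, π ≠ 0 ∧ ord P π = 1 := by
  obtain ⟨π, h⟩ := (ord_spec P).one
  refine ⟨π, ?_, h⟩
  rintro rfl
  rw [ord_zero] at h
  exact zero_ne_one h

/-- two places one of which contains the other are equal. -/
theorem Plk.eq_of_le {P Q : Plk k F} (h : ∀ z, z ∈ P.1 → z ∈ Q.1) : P = Q := by
  obtain ⟨π, hπ0, hπ⟩ := exists_unif P
  have key : ∀ u : F, u ≠ 0 → ord P u = 0 → ord Q u = 0 := by
    intro u hu hu0
    have h1 : u ∈ Q.1 := h u ((mem_iff_ord P u).2 (Or.inr hu0.ge))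
    have h2 : u⁻¹ ∈ Q.1 := h _ ((mem_iff_ord P _).2 (Or.inr (by rw [ord_inv, hu0, neg_zero])))
    have h3 := ((mem_iff_ord Q u).1 h1).resolve_left hu
    have h4 := ((mem_iff_ord Q _).1 h2).resolve_left (inv_ne_zero hu)
    rw [ord_inv] at h4
    omega
  have key2 : ∀ z : F, z ≠ 0 → ord Q z = ord P z * ord Q π := by
    intro z hz
    have h1 : π ^ (-ord P z) ≠ 0 := zpow_ne_zero _ hπ0
    have h2 := key (z * π ^ (-ord P z)) (mul_ne_zero hz h1)
      (by rw [ord_mul P hz h1, ord_zpow, hπ, mul_one, add_neg_cancel])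
    rw [ord_mul Q hz h1, ord_zpow, neg_mul] at h2
    omega
  obtain ⟨w, hw⟩ : ∃ w, w ∉ Q.1 := by
    by_contra hcon
    push Not at hcon
    exact Q.2.2 (ValuationSubring.ext _ _ fun z => ⟨fun _ => ValuationSubring.mem_top z,
      fun _ => hcon z⟩)
  have hw0 : w ≠ 0 := by
    rintro rfl
    exact hw (zero_mem _)
  have hwP : ord P w < 0 := by
    by_contra hcon
    exact hw (h w ((mem_iff_ord P w).2 (Or.inr (not_lt.1 hcon))))
  have hwQ : ord Q w < 0 := by
    by_contra hcon
    exact hw ((mem_iff_ord Q w).2 (Or.inr (not_lt.1 hcon)))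
  have hπQ : 0 < ord Q π := by
    rw [key2 w hw0] at hwQ
    by_contra hcon
    exact absurd (mul_nonneg_of_nonpos_of_nonpos hwP.le (not_lt.1 hcon)) (not_le.2 hwQ)
  refine Subtype.ext (ValuationSubring.ext _ _ fun z => ⟨h z, fun hz => ?_⟩)
  by_cases hz0 : z = 0
  · rw [hz0]; exact zero_mem _
  have h1 := ((mem_iff_ord Q z).1 hz).resolve_left hz0
  rw [key2 z hz0] at h1
  exact (mem_iff_ord P z).2 (Or.inr (nonneg_of_mul_nonneg_left h1 hπQ))

/-- the elements of order at least `n` at `P`. -/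
def Mge (P : Plk k F) (n : ℤ) : Submodule k F where
  carrier := {z | z = 0 ∨ n ≤ ord P z}
  zero_mem' := Or.inl rfl
  add_mem' := by
    rintro z w hz hw
    by_cases h1 : z = 0
    · rw [h1, zero_add]; exact hw
    by_cases h2 : w = 0
    · rw [h2, add_zero]; exact hz
    by_cases h3 : z + w = 0
    · exact Or.inl h3
    · exact Or.inr ((le_min (hz.resolve_left h1) (hw.resolve_left h2)).trans
        (ord_le_add P h1 h2 h3))
  smul_mem' := by
    rintro a z hz
    by_cases h1 : z = 0
    · left; rw [h1, smul_zero]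
    by_cases h2 : a = 0
    · left; rw [h2, zero_smul]
    right
    have h3 : algebraMap k F a ≠ 0 := by rwa [Ne, map_eq_zero]
    rw [Algebra.smul_def, ord_mul P h3 h1, ord_const, zero_add]
    exact hz.resolve_left h1

theorem mem_Mge {P : Plk k F} {n : ℤ} {z : F} : z ∈ Mge P n ↔ z = 0 ∨ n ≤ ord P z := Iff.rfl

theorem Mge_mono (P : Plk k F) {m n : ℤ} (h : m ≤ n) : Mge P n ≤ Mge P m := by
  intro z hz
  rcases hz with h0 | h1
  · exact Or.inl h0
  · exact Or.inr (h.trans h1)

theorem mul_mem_Mge {P : Plk k F} {m n : ℤ} {z w : F} (hz : z ∈ Mge P m) (hw : w ∈ Mge P n) :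
    z * w ∈ Mge P (m + n) := by
  by_cases h1 : z = 0
  · left; rw [h1, zero_mul]
  by_cases h2 : w = 0
  · left; rw [h2, mul_zero]
  right
  rw [ord_mul P h1 h2]
  exact add_le_add (hz.resolve_left h1) (hw.resolve_left h2)

/-- multiplication by a nonzero element shifts the orders. -/
theorem mul_mem_Mge_iff {P : Plk k F} {n : ℤ} {z w : F} (hz : z ≠ 0) :
    z * w ∈ Mge P n ↔ w ∈ Mge P (n - ord P z) := by
  by_cases h2 : w = 0
  · rw [h2, mul_zero]
    exact ⟨fun _ => Or.inl rfl, fun _ => Or.inl rfl⟩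
  rw [mem_Mge, mem_Mge, ord_mul P hz h2, mul_eq_zero, or_iff_right hz, sub_le_iff_le_add']

theorem ord_add_of_lt {P : Plk k F} {z w : F} (hz : z ≠ 0) (hw : w ∈ Mge P (ord P z + 1)) :
    z + w ≠ 0 ∧ ord P (z + w) = ord P z := by
  by_cases h1 : w = 0
  · rw [h1, add_zero]; exact ⟨hz, rfl⟩
  have h2 := hw.resolve_left h1
  have h3 : z + w ≠ 0 := by
    intro h
    rw [eq_neg_of_add_eq_zero_right h, ord_neg] at h2
    omega
  refine ⟨h3, ?_⟩
  have h4 := ord_le_add P hz h1 h3
  have h5 := ord_le_add P h3 (neg_ne_zero.2 h1) (by rw [add_neg_cancel_right]; exact hz)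
  rw [add_neg_cancel_right, ord_neg] at h5
  omega

/-- a sum with one dominating term. -/
theorem ord_sum_of_lt {P : Plk k F} {ι : Type*} {s : Finset ι} {f : ι → F} {i : ι} (hi : i ∈ s)
    (h0 : f i ≠ 0) (h : ∀ j ∈ s, j ≠ i → f j ∈ Mge P (ord P (f i) + 1)) :
    ∑ j ∈ s, f j ≠ 0 ∧ ord P (∑ j ∈ s, f j) = ord P (f i) := by
  classical
  rw [← Finset.add_sum_erase s f hi]
  exact ord_add_of_lt h0 (Submodule.sum_mem _ fun j hj =>
    h j (Finset.mem_of_mem_erase hj) (Finset.ne_of_mem_erase hj))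

/-- polynomials in an element of nonnegative order. -/
theorem COrd_aeval_mem {P : Plk k F} {x : F} (hx : 0 ≤ ord P x) (φ : k[X]) :
    aeval x φ ∈ Mge P 0 := by
  rw [Polynomial.aeval_eq_sum_range]
  refine Submodule.sum_mem _ fun i _ => Submodule.smul_mem _ _ (Or.inr ?_)
  rw [ord_pow]
  exact mul_nonneg (Int.natCast_nonneg i) hx

theorem COrd_aeval_divX {P : Plk k F} {x : F} (hx : 0 < ord P x) (φ : k[X]) :
    aeval x φ.divX * x ∈ Mge P (ord P x) := by
  have h := mul_mem_Mge (COrd_aeval_mem hx.le φ.divX) (show x ∈ Mge P (ord P x) from Or.inr le_rfl)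
  rwa [zero_add] at h

omit [CFF k F] in
theorem COrd_aeval_eq (x : F) (φ : k[X]) :
    aeval x φ = algebraMap k F (φ.coeff 0) + aeval x φ.divX * x := by
  conv_lhs => rw [← Polynomial.divX_mul_X_add φ]
  rw [map_add, map_mul, aeval_X, aeval_C, add_comm]

/-- the values of a polynomial at an element of positive order. -/
theorem ord_aeval_of_coeff_ne {P : Plk k F} {x : F} (hx : 0 < ord P x) {φ : k[X]}
    (h : φ.coeff 0 ≠ 0) : aeval x φ ≠ 0 ∧ ord P (aeval x φ) = 0 := by
  rw [COrd_aeval_eq]
  have h1 : algebraMap k F (φ.coeff 0) ≠ 0 := by rwa [Ne, map_eq_zero]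
  have h2 := ord_add_of_lt h1 (P := P) (w := aeval x φ.divX * x)
    (Mge_mono P (by rw [ord_const, zero_add]; exact hx) (COrd_aeval_divX hx φ))
  rw [ord_const] at h2
  exact h2

theorem aeval_mem_of_coeff_eq {P : Plk k F} {x : F} (hx : 0 < ord P x) {φ : k[X]}
    (h : φ.coeff 0 = 0) : aeval x φ ∈ Mge P (ord P x) := by
  rw [COrd_aeval_eq, h, map_zero, zero_add]
  exact COrd_aeval_divX hx φ

theorem aeval_mem_zero {P : Plk k F} {x : F} (hx : 0 ≤ ord P x) (φ : k[X]) :
    aeval x φ ∈ Mge P 0 := by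
  exact COrd_aeval_mem hx φ

/-- `Mge P n / Mge P (n + 1)` is at most one-dimensional. -/
theorem exists_sub_mem {P : Plk k F} {n : ℤ} {z w : F} (hz : z ≠ 0) (hz1 : ord P z = n)
    (hw : w ∈ Mge P n) : ∃ a : k, w - a • z ∈ Mge P (n + 1) := by
  have h1 : z⁻¹ ∈ Mge P (-n) := Or.inr (by rw [ord_inv, hz1])
  have h2 : w * z⁻¹ ∈ Mge P 0 := by
    have h := mul_mem_Mge hw h1
    rwa [add_neg_cancel] at h
  obtain ⟨c, hc⟩ := exists_cst P ((mem_iff_ord P _).2 h2)
  refine ⟨c, ?_⟩
  have h3 : w - c • z = z * (w * z⁻¹ - algebraMap k F c) := by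
    rw [Algebra.smul_def, mul_sub, mul_comm z (w * z⁻¹), mul_assoc, inv_mul_cancel₀ hz, mul_one,
      mul_comm z]
  rw [h3]
  refine mul_mem_Mge (Or.inr hz1.ge) ?_
  rcases hc with hc | hc
  · left; rw [hc, sub_self]
  · right; exact hc

end

end Vale.Agent.P019P
end
end

section

section

/-!
# Divisors: degree, induction along points
-/

namespace Vale.Agent.P019P

variable {P : Type*}

theorem dg_apply (D : P →₀ ℤ) : dg D = D.sum fun _ n => n := by
  unfold dg
  rw [Finsupp.liftAddHom_apply]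
  rfl

theorem dg_sgl (p : P) (n : ℤ) : dg (Finsupp.single p n) = n := by
  rw [dg_apply, Finsupp.sum_single_index rfl]

private theorem dg_nonneg {D : P →₀ ℤ} (h : 0 ≤ D) : 0 ≤ dg D := by
  rw [dg_apply]
  exact Finset.sum_nonneg fun p _ => h p

theorem dg_mono {D E : P →₀ ℤ} (h : D ≤ E) : dg D ≤ dg E := by
  have h1 : 0 ≤ dg (E - D) := dg_nonneg (sub_nonneg.2 h)
  rw [map_sub] at h1
  linarith

theorem eq_of_le_of_dg_le {D E : P →₀ ℤ} (h : D ≤ E) (h1 : dg E ≤ dg D) : D = E := by
  have h2 : dg (E - D) ≤ 0 := by rw [map_sub]; linarith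
  rw [dg_apply] at h2
  have hn : ∀ p ∈ (E - D).support, 0 ≤ (E - D) p := fun p _ => by
    rw [Finsupp.sub_apply]
    exact sub_nonneg.2 (h p)
  have h3 : (E - D).sum (fun _ n => n) = 0 := le_antisymm h2 (Finset.sum_nonneg hn)
  have h4 := (Finset.sum_eq_zero_iff_of_nonneg hn).1 h3
  ext p
  by_cases hp : p ∈ (E - D).support
  · have := h4 p hp
    rw [Finsupp.sub_apply] at this
    linarith
  · rw [Finsupp.notMem_support_iff, Finsupp.sub_apply] at hp
    linarith

theorem dg_eq_sum {D : P →₀ ℤ} {S : Finset P} (h : ∀ p, p ∉ S → D p = 0) :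
    dg D = ∑ p ∈ S, D p := by
  rw [dg_apply]
  refine Finsupp.sum_of_support_subset D ?_ _ fun _ _ => rfl
  intro p hp
  by_contra hps
  exact Finsupp.mem_support_iff.1 hp (h p hps)

/-- induction upwards from a divisor, adding one point at a time. -/
theorem dv_induct {motive : (P →₀ ℤ) → Prop} {D : P →₀ ℤ} (h0 : motive D)
    (hs : ∀ (E : P →₀ ℤ) (p : P), D ≤ E → motive E → motive (E + Finsupp.single p 1))
    {E : P →₀ ℤ} (hE : D ≤ E) : motive E := by
  obtain ⟨n, hn⟩ : ∃ n : ℕ, n = (dg (E - D)).toNat := ⟨_, rfl⟩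
  induction n generalizing E with
  | zero =>
    have h1 : dg E ≤ dg D := by
      have : dg (E - D) ≤ 0 := by
        by_contra hc
        push Not at hc
        have := Int.toNat_of_nonneg hc.le
        omega
      rw [map_sub] at this
      linarith
    rw [← eq_of_le_of_dg_le hE h1]
    exact h0
  | succ n ih =>
    have hne : E ≠ D := by
      rintro rfl
      rw [sub_self, map_zero] at hn
      simp at hn
    obtain ⟨p, hp⟩ : ∃ p, E p ≠ D p := by
      by_contra hc
      push Not at hc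
      exact hne (Finsupp.ext hc)
    have hp1 : D p < E p := lt_of_le_of_ne (hE p) (Ne.symm hp)
    have hE' : D ≤ E - Finsupp.single p 1 := by
      intro q
      rw [Finsupp.sub_apply]
      by_cases hq : q = p
      · subst hq
        rw [Finsupp.single_eq_same]
        omega
      · rw [Finsupp.single_eq_of_ne hq, sub_zero]
        exact hE q
    have h2 : n = (dg (E - Finsupp.single p 1 - D)).toNat := by
      have : dg (E - Finsupp.single p 1 - D) = dg (E - D) - 1 := by
        rw [map_sub, map_sub, map_sub, dg_sgl]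
        ring
      rw [this]
      omega
    have h3 := hs _ p hE' (ih hE' h2)
    rwa [sub_add_cancel] at h3

end Vale.Agent.P019P
end
end

section

section

/-!
# Linear algebra: witnesses
-/

namespace Vale.Agent.P019P

variable {K : Type*} [Field K] {ι J : Type*} [Fintype ι] [DecidableEq ι] [Fintype J]
  {v : ι → J → K}

omit [Fintype ι] [DecidableEq ι] in
/-- a linear form on `J → K` in coordinates. -/
theorem h4Lin_form [DecidableEq J] (f : (J → K) →ₗ[K] K) (a : J → K) :
    f a = ∑ j, f (Pi.single j 1) * a j := by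
  have h : a = ∑ j, a j • (Pi.single j (1 : K) : J → K) := by
    funext i
    rw [Finset.sum_apply, Finset.sum_eq_single i]
    · simp
    · intro j _ hj
      simp [Pi.single_eq_of_ne hj.symm]
    · intro hi
      exact absurd (Finset.mem_univ i) hi
  conv_lhs => rw [h]
  rw [map_sum]
  refine Finset.sum_congr rfl fun j _ => ?_
  rw [map_smul, smul_eq_mul, mul_comm]

theorem h4_leftinv (h : LinearIndependent K v) :
    ∃ n : ι → J → K, ∀ c c', ∑ j, n c j * v c' j = if c = c' then 1 else 0 := by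
  classical
  have hinj : LinearMap.ker (Fintype.linearCombination K v) = ⊥ := by
    rw [LinearMap.ker_eq_bot']
    intro x hx
    rw [Fintype.linearIndependent_iff] at h
    funext i
    exact h x (by simpa [Fintype.linearCombination_apply] using hx) i
  obtain ⟨G, hG⟩ := LinearMap.exists_leftInverse_of_injective _ hinj
  refine ⟨fun c j => G (Pi.single j 1) c, fun c c' => ?_⟩
  have h1 : G (v c') c = ∑ j, G (Pi.single j 1) c * v c' j :=
    h4Lin_form ((LinearMap.proj c) ∘ₗ G) (v c')
  have h2 : G (v c') = Pi.single c' 1 := by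
    have h3 := DFunLike.congr_fun hG (Pi.single c' (1 : K))
    rw [LinearMap.comp_apply, Fintype.linearCombination_apply_single, one_smul,
      LinearMap.id_apply] at h3
    exact h3
  rw [← h1, h2, Pi.single_apply]

theorem h4_eq_zero {n : ι → J → K}
    (h : ∀ c c', ∑ j, n c j * v c' j = if c = c' then 1 else 0) {x : ι → K}
    (hx : ∀ j, ∑ c, x c * v c j = 0) (c : ι) : x c = 0 := by
  have h1 : x c = ∑ c', x c' * ∑ j, n c j * v c' j := by
    simp [h]
  rw [h1]
  simp only [Finset.mul_sum]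
  rw [Finset.sum_comm]
  refine Finset.sum_eq_zero fun j _ => ?_
  have h2 := congrArg (fun z => n c j * z) (hx j)
  simp only [mul_zero, Finset.mul_sum] at h2
  rw [← h2]
  exact Finset.sum_congr rfl fun c' _ => by ring

omit [DecidableEq ι] [Fintype ι] in
theorem h4_sep' {a : J → K} (h : a ∉ Submodule.span K (Set.range v)) :
    ∃ u : J → K, (∀ i, ∑ j, u j * v i j = 0) ∧ ∑ j, u j * a j = 1 := by
  classical
  obtain ⟨f, hfa, hf⟩ := Submodule.exists_le_ker_of_notMem h
  refine ⟨fun j => f (Pi.single j 1) / f a, fun i => ?_, ?_⟩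
  · have h1 : f (v i) = 0 := hf (Submodule.subset_span ⟨i, rfl⟩)
    have h2 := h4Lin_form f (v i)
    rw [h1] at h2
    simp only [div_mul_eq_mul_div]
    rw [← Finset.sum_div, ← h2, zero_div]
  · have h2 := h4Lin_form f a
    simp only [div_mul_eq_mul_div]
    rw [← Finset.sum_div, ← h2, div_self hfa]

omit [DecidableEq ι] in
theorem h4_sep {a : J → K} (h : a ∉ Submodule.span K (Set.range v)) :
    ∃ u : J → K, (∀ i, ∑ j, u j * v i j = 0) ∧ ∑ j, u j * a j = 1 :=
  h4_sep' h

end Vale.Agent.P019P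
end
end

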