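import Vale.Agent.P025.R2.H816.J01

/-! Carved out of `Vale.Agent.P019.Bd4` (function fields of one variable); generated file. -/

set_option linter.all false

attribute [local instance] O19.fr O19.tf O19.pj O19.fl

section

section

/-!
# Weak approximation
-/

namespace Vale.Agent.P019P

section

variable {k F : Type*} [Field k] [Field F] [Algebra k F] [CFF k F]

theorem CAppr_add {P : Plk k F} {x y : F} (hx : x ≠ 0) (hy : y ≠ 0) (h : ord P x ≠ ord P y) :
    x + y ≠ 0 ∧ ord P (x + y) = min (ord P x) (ord P y) := by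
  rcases lt_or_gt_of_ne h with h | h
  · have h1 := ord_add_of_lt (P := P) (w := y) hx (mem_Mge.2 (Or.inr (by omega)))
    rw [min_eq_left h.le]
    exact h1
  · have h1 := ord_add_of_lt (P := P) (w := x) hy (mem_Mge.2 (Or.inr (by omega)))
    rw [min_eq_right h.le, add_comm]
    exact h1

theorem CAppr_pair {P Q : Plk k F} (h : P ≠ Q) :
    ∃ u : F, u ≠ 0 ∧ 0 < ord P u ∧ ord Q u < 0 := by
  have key : ∀ P Q : Plk k F, P ≠ Q → ∃ y : F, y ≠ 0 ∧ 0 ≤ ord P y ∧ ord Q y < 0 := by
    intro P Q h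
    by_contra hc
    push Not at hc
    refine h (Plk.eq_of_le fun z hz => ?_)
    rw [mem_iff_ord] at hz ⊢
    by_cases hz0 : z = 0
    · exact Or.inl hz0
    · exact Or.inr (hc z hz0 (hz.resolve_left hz0))
  obtain ⟨y, hy0, hy1, hy2⟩ := key P Q h
  obtain ⟨z, hz0, hz1, hz2⟩ := key Q P h.symm
  refine ⟨y * z⁻¹, mul_ne_zero hy0 (inv_ne_zero hz0), ?_, ?_⟩
  · rw [ord_mul P hy0 (inv_ne_zero hz0), ord_inv]
    omega
  · rw [ord_mul Q hy0 (inv_ne_zero hz0), ord_inv]
    omega

theorem CAppr_sep (P : Plk k F) (S : Finset (Plk k F)) (hP : P ∉ S) :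
    ∃ u : F, u ≠ 0 ∧ 0 < ord P u ∧ ∀ Q ∈ S, ord Q u < 0 := by
  classical
  induction S using Finset.induction_on with
  | empty =>
    obtain ⟨u, hu0, hu1⟩ := exists_unif P
    exact ⟨u, hu0, by omega, fun Q hQ => absurd hQ (Finset.notMem_empty Q)⟩
  | insert Q S hQ ih =>
    rw [Finset.mem_insert, not_or] at hP
    obtain ⟨y, hy0, hy1, hy2⟩ := ih hP.2
    by_cases hQy : ord Q y < 0
    · refine ⟨y, hy0, hy1, fun R hR => ?_⟩
      rcases Finset.mem_insert.1 hR with rfl | hR
      · exact hQy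
      · exact hy2 R hR
    · obtain ⟨z, hz0, hz1, hz2⟩ := CAppr_pair hP.1
      set r : ℕ := 1 + ∑ R ∈ S, (ord R y).natAbs with hr
      have hr1 : 1 ≤ r := Nat.le_add_right _ _
      have hrS : ∀ R ∈ S, (ord R y).natAbs < r := by
        intro R hR
        have := Finset.single_le_sum (f := fun R => (ord R y).natAbs)
          (fun _ _ => Nat.zero_le _) hR
        omega
      have hzr : z ^ r ≠ 0 := pow_ne_zero r hz0
      have hQ1 : ord Q (z ^ r) < 0 := by
        rw [ord_pow]
        have : (0 : ℤ) < r := by exact_mod_cast hr1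
        exact mul_neg_of_pos_of_neg this hz2
      have hQ2 := CAppr_add (P := Q) hy0 hzr (by omega)
      refine ⟨y + z ^ r, hQ2.1, ?_, fun R hR => ?_⟩
      · have h1 := ord_le_add P hy0 hzr hQ2.1
        have h2 : 0 < ord P (z ^ r) := by
          rw [ord_pow]
          have : (0 : ℤ) < r := by exact_mod_cast hr1
          exact mul_pos this hz1
        exact (lt_min hy1 h2).trans_le h1
      · rcases Finset.mem_insert.1 hR with rfl | hR
        · rw [hQ2.2]
          exact (min_le_right _ _).trans_lt hQ1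
        · have h1 : ord R y ≠ ord R (z ^ r) := by
            rw [ord_pow]
            intro h
            have h2 := hrS R hR
            have h3 := hy2 R hR
            rw [h, Int.natAbs_mul, Int.natAbs_natCast] at h2
            have h4 : (ord R z).natAbs = 0 := by
              by_contra h5
              have : r * 1 ≤ r * (ord R z).natAbs := Nat.mul_le_mul_left r (by omega)
              omega
            rw [Int.natAbs_eq_zero] at h4
            rw [h4, mul_zero] at h
            omega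
          rw [(CAppr_add hy0 hzr h1).2]
          exact (min_le_left _ _).trans_lt (hy2 R hR)

theorem CAppr_one (P : Plk k F) (S : Finset (Plk k F)) (hP : P ∉ S) (N : ℤ) :
    ∃ w : F, w - 1 ∈ Mge P N ∧ ∀ Q ∈ S, w ∈ Mge Q N := by
  obtain ⟨u, hu0, hu1, hu2⟩ := CAppr_sep P S hP
  set s : ℕ := 1 + N.toNat with hs
  have hs1 : (1 : ℤ) ≤ s := by omega
  have hsN : N ≤ s := by omega
  have hv0 : u ^ s ≠ 0 := pow_ne_zero s hu0
  have hPv : (s : ℤ) ≤ ord P (u ^ s) := by
    rw [ord_pow]
    nlinarith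
  have hP1 := ord_add_of_lt (P := P) (z := 1) (w := u ^ s) one_ne_zero
    (mem_Mge.2 (Or.inr (by rw [ord_one]; omega)))
  rw [ord_one] at hP1
  refine ⟨(1 + u ^ s)⁻¹, ?_, fun Q hQ => ?_⟩
  · have e : (1 + u ^ s)⁻¹ - 1 = -(u ^ s * (1 + u ^ s)⁻¹) := by
      field_simp [hP1.1]
      ring
    rw [e]
    have h1 : u ^ s ∈ Mge P (s : ℤ) := mem_Mge.2 (Or.inr hPv)
    have h2 : (1 + u ^ s)⁻¹ ∈ Mge P 0 :=
      mem_Mge.2 (Or.inr (by rw [ord_inv, hP1.2, neg_zero]))
    have h3 := mul_mem_Mge h1 h2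
    exact (Mge P N).neg_mem (Mge_mono P (by omega) h3)
  · have hQv : ord Q (u ^ s) ≤ -(s : ℤ) := by
      rw [ord_pow]
      have := hu2 Q hQ
      nlinarith
    have h1 := CAppr_add (P := Q) (x := 1) (y := u ^ s) one_ne_zero hv0
      (by rw [ord_one]; omega)
    refine mem_Mge.2 (Or.inr ?_)
    rw [ord_inv, h1.2, ord_one, min_eq_right (by omega)]
    omega

theorem weak_appr (S : Finset (Plk k F)) (f : Plk k F → F) (N : ℤ) :
    ∃ z : F, ∀ P ∈ S, z - f P ∈ Mge P N := by
  classical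
  set M : ℤ := ∑ P ∈ S, ∑ Q ∈ S, |ord Q (f P)| with hM
  have hMb : ∀ P ∈ S, ∀ Q ∈ S, |ord Q (f P)| ≤ M := by
    intro P hP Q hQ
    have h1 : |ord Q (f P)| ≤ ∑ Q ∈ S, |ord Q (f P)| :=
      Finset.single_le_sum (f := fun Q => |ord Q (f P)|) (fun _ _ => abs_nonneg _) hQ
    have h2 : ∑ Q ∈ S, |ord Q (f P)| ≤ M :=
      Finset.single_le_sum (f := fun P => ∑ Q ∈ S, |ord Q (f P)|)
        (fun _ _ => Finset.sum_nonneg fun _ _ => abs_nonneg _) hP
    exact h1.trans h2
  have hex : ∀ P : Plk k F, ∃ w : F, w - 1 ∈ Mge P (N + M) ∧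
      ∀ Q ∈ S.erase P, w ∈ Mge Q (N + M) := fun P =>
    CAppr_one P (S.erase P) (Finset.notMem_erase P S) (N + M)
  choose w hw1 hw2 using hex
  refine ⟨∑ P ∈ S, f P * w P, fun P hP => ?_⟩
  have hf : ∀ Q ∈ S, f Q ∈ Mge P (-M) := fun Q hQ =>
    mem_Mge.2 (Or.inr (neg_le_of_abs_le (hMb Q hQ P hP)))
  have e : ∑ Q ∈ S, f Q * w Q - f P = f P * (w P - 1) + ∑ Q ∈ S.erase P, f Q * w Q := by
    rw [← Finset.add_sum_erase S _ hP]
    ring
  rw [e]
  have e2 : -M + (N + M) = N := by ring
  refine (Mge P N).add_mem ?_ ((Mge P N).sum_mem fun Q hQ => ?_)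
  · have := mul_mem_Mge (hf P hP) (hw1 P)
    rwa [e2] at this
  · have hQ' := Finset.mem_erase.1 hQ
    have := mul_mem_Mge (hf Q hQ'.2) (hw2 Q P (Finset.mem_erase.2 ⟨hQ'.1.symm, hP⟩))
    rwa [e2] at this

/-- elements with given orders. -/
theorem exists_ord_eq (S : Finset (Plk k F)) (m : Plk k F → ℤ) :
    ∃ z : F, z ≠ 0 ∧ ∀ P ∈ S, ord P z = m P := by
  rcases S.eq_empty_or_nonempty with rfl | ⟨P0, hP0⟩
  · exact ⟨1, one_ne_zero, fun P hP => absurd hP (Finset.notMem_empty P)⟩
  choose π hπ0 hπ1 using fun P : Plk k F => exists_unif P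
  obtain ⟨z, hz⟩ := weak_appr S (fun P => π P ^ m P) (1 + ∑ P ∈ S, |m P|)
  have key : ∀ P ∈ S, z ≠ 0 ∧ ord P z = m P := by
    intro P hP
    have h1 : |m P| ≤ ∑ P ∈ S, |m P| :=
      Finset.single_le_sum (f := fun P => |m P|) (fun _ _ => abs_nonneg _) hP
    have h2 : ord P (π P ^ m P) = m P := by rw [ord_zpow, hπ1, mul_one]
    have h3 : z - π P ^ m P ∈ Mge P (ord P (π P ^ m P) + 1) := by
      rw [h2]
      exact Mge_mono P (by linarith [le_abs_self (m P)]) (hz P hP)
    have h4 := ord_add_of_lt (zpow_ne_zero (m P) (hπ0 P)) h3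
    rw [add_sub_cancel, h2] at h4
    exact h4
  exact ⟨z, (key P0 hP0).1, fun P hP => (key P hP).2⟩

end

end Vale.Agent.P019P
end
end

section

section

/-!
# The zeros of a function
-/

namespace Vale.Agent.P019P

open Polynomial IntermediateField

section

variable {k F : Type*} [Field k] [Field F] [Algebra k F] [CFF k F]

/-- the number of zeros is bounded by the degree. -/
theorem sum_ord_le {x : F} (hx : ∀ a : k, x ≠ algebraMap k F a) (S : Finset (Plk k F))
    (hS : ∀ P ∈ S, 0 < ord P x) : ∑ P ∈ S, ord P x ≤ Module.finrank k⟮x⟯ F := by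
  classical
  obtain ⟨hT, hfd⟩ := finite_of_notMem hx
  choose w hw0 hw using fun i : (P : S) × Fin (ord P.1 x).toNat =>
    exists_ord_eq S (fun Q => if Q = i.1.1 then ((i.2 : ℕ) : ℤ) else ord Q x)
  have hwP : ∀ i, ord i.1.1 (w i) = ((i.2 : ℕ) : ℤ) := fun i => by
    rw [hw i _ i.1.2, if_pos rfl]
  have hli : LinearIndependent k⟮x⟯ w := by
    by_contra hnot
    obtain ⟨φ, ⟨⟨P, a0⟩, h0⟩, hrel⟩ := exists_rel hT hnot
    obtain ⟨a, ha, hmin⟩ := Finset.exists_min_image
      (Finset.univ.filter fun a : Fin (ord P.1 x).toNat => (φ ⟨P, a⟩).coeff 0 ≠ 0)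
      (fun a => (a : ℕ)) ⟨a0, by simp only [Finset.mem_filter, Finset.mem_univ, true_and]; exact h0⟩
    rw [Finset.mem_filter] at ha
    have hPx : 0 < ord P.1 x := hS P.1 P.2
    have hax : ((a : ℕ) : ℤ) < ord P.1 x := by
      have h1 := a.2
      omega
    obtain ⟨h1, h2⟩ := ord_aeval_of_coeff_ne hPx ha.2
    have h3 : aeval x (φ ⟨P, a⟩) * w ⟨P, a⟩ ≠ 0 := mul_ne_zero h1 (hw0 _)
    have h4 : ord P.1 (aeval x (φ ⟨P, a⟩) * w ⟨P, a⟩) = ((a : ℕ) : ℤ) := by
      rw [ord_mul P.1 h1 (hw0 _), h2, zero_add]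
      exact hwP ⟨P, a⟩
    refine (ord_sum_of_lt (P := P.1) (s := Finset.univ)
      (f := fun i => aeval x (φ i) * w i) (i := ⟨P, a⟩) (Finset.mem_univ _) h3 ?_).1 hrel
    rintro ⟨Q, b⟩ - hne
    rw [h4]
    by_cases hQ : Q = P
    · subst hQ
      have hb : w ⟨Q, b⟩ ∈ Mge Q.1 ((b : ℕ) : ℤ) := Or.inr (hwP ⟨Q, b⟩).ge
      by_cases hc : (φ ⟨Q, b⟩).coeff 0 = 0
      · have h5 := mul_mem_Mge (aeval_mem_of_coeff_eq hPx hc) hb
        exact Mge_mono _ (by omega) h5
      · have h5 := mul_mem_Mge (aeval_mem_zero hPx.le (φ ⟨Q, b⟩)) hb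
        have h6 := hmin b (by simp only [Finset.mem_filter, Finset.mem_univ, true_and]; exact hc)
        have h7 : (b : ℕ) ≠ (a : ℕ) := fun h8 => hne (by rw [Fin.ext h8])
        exact Mge_mono _ (by omega) h5
    · have hb : w ⟨Q, b⟩ ∈ Mge P.1 (ord P.1 x) := by
        refine Or.inr (le_of_eq ?_)
        rw [hw ⟨Q, b⟩ P.1 P.2, if_neg]
        exact fun h5 => hQ (Subtype.ext h5.symm)
      have h5 := mul_mem_Mge (aeval_mem_zero hPx.le (φ ⟨Q, b⟩)) hb
      exact Mge_mono _ (by omega) h5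
  have hcard := hli.fintype_card_le_finrank
  have h1 : Fintype.card ((P : S) × Fin (ord P.1 x).toNat) = ∑ P ∈ S, (ord P x).toNat := by
    rw [Fintype.card_sigma, ← Finset.sum_coe_sort S]
    simp only [Fintype.card_fin]
  have h2 : ∑ P ∈ S, ord P x = ((∑ P ∈ S, (ord P x).toNat : ℕ) : ℤ) := by
    rw [Nat.cast_sum]
    exact Finset.sum_congr rfl fun P hP => (Int.toNat_of_nonneg (hS P hP).le).symm
  rw [h2, ← h1]
  exact_mod_cast hcard

theorem zeros_finite {x : F} (hx : ∀ a : k, x ≠ algebraMap k F a) :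
    {P : Plk k F | 0 < ord P x}.Finite := by
  by_contra hinf
  obtain ⟨t, ht, hcard⟩ := Set.Infinite.exists_subset_card_eq hinf (Module.finrank k⟮x⟯ F + 1)
  have h1 := sum_ord_le hx t (fun P hP => ht hP)
  have h2 : ∑ _P ∈ t, (1 : ℤ) ≤ ∑ P ∈ t, ord P x := Finset.sum_le_sum fun P hP => ht hP
  rw [Finset.sum_const, hcard, nsmul_eq_mul, mul_one] at h2
  push_cast at h2
  omega

theorem dv_finite {z : F} (hz : z ≠ 0) : {P : Plk k F | ord P z ≠ 0}.Finite := by
  by_cases hc : ∃ a : k, z = algebraMap k F a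
  · obtain ⟨a, rfl⟩ := hc
    refine Set.finite_empty.subset fun P hP => ?_
    exact hP (ord_const P a)
  · push Not at hc
    refine ((zeros_finite hc).union (zeros_finite (nc_inv hc))).subset fun P hP => ?_
    rcases lt_trichotomy (ord P z) 0 with h | h | h
    · right
      show 0 < ord P z⁻¹
      rw [ord_inv]
      omega
    · exact absurd h hP
    · left
      exact h

/-- the places over `x = c` are finite in number. -/
theorem fib_finite {x : F} (hx : ∀ a : k, x ≠ algebraMap k F a) (c : k) :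
    {P : Plk k F | 0 < ord P (x - algebraMap k F c)}.Finite :=
  zeros_finite (nc_sub hx c)

variable (k) in
open Classical in
/-- the divisor of a function. -/
noncomputable def dv (z : F) : Plk k F →₀ ℤ :=
  if hz : z ≠ 0 then Finsupp.ofSupportFinite (fun P => ord P z) (dv_finite hz) else 0

theorem dv_apply (z : F) (P : Plk k F) : dv k z P = ord P z := by
  unfold dv
  split_ifs with h
  · rfl
  · push Not at h
    rw [h, (ord_spec P).zero]
    rfl

theorem dv_mul {z w : F} (hz : z ≠ 0) (hw : w ≠ 0) : dv k (z * w) = dv k z + dv k w := by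
  ext P
  rw [Finsupp.add_apply, dv_apply, dv_apply, dv_apply, ord_mul P hz hw]

theorem dv_inv (z : F) : dv k z⁻¹ = -dv k z := by
  ext P
  rw [Finsupp.neg_apply, dv_apply, dv_apply, ord_inv]

theorem dv_const (a : k) : dv k (algebraMap k F a) = 0 := by
  ext P
  rw [dv_apply, ord_const, Finsupp.zero_apply]

end

end Vale.Agent.P019P
end
end

section

section

/-!
# Existence of zeros and poles
-/

namespace Vale.Agent.P019P

open IntermediateField

section

variable {k F : Type*} [Field k] [Field F] [Algebra k F] [CFF k F]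

omit [CFF k F] in
/-- the ring `k[z]` is contained in a valuation ring in which `z` is not a unit. -/
theorem CPole_exists_val {z : F} (hz : Transcendental k z) :
    ∃ B : ValuationSubring F, (∀ a : k, algebraMap k F a ∈ B) ∧ z ∈ B ∧ z⁻¹ ∉ B := by
  have hz0 : z ≠ 0 := fun h => hz (h ▸ isAlgebraic_zero)
  let A : Subring F := (Polynomial.aeval (R := k) z).range.toSubring
  have hmem : z ∈ A := ⟨Polynomial.X, Polynomial.aeval_X z⟩
  have hI : Ideal.span {(⟨z, hmem⟩ : A)} ≠ ⊤ := by
    intro h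
    have h1 : (1 : A) ∈ Ideal.span {(⟨z, hmem⟩ : A)} := by rw [h]; exact Submodule.mem_top
    obtain ⟨w, hw⟩ := Ideal.mem_span_singleton'.1 h1
    obtain ⟨p, hp⟩ := w.2
    have h2 : (w : F) * z = 1 := congrArg Subtype.val hw
    have h3 : Polynomial.aeval z (p * Polynomial.X - 1) = 0 := by
      rw [map_sub, map_mul, Polynomial.aeval_X, map_one, sub_eq_zero, ← h2]
      congr 1
    have h4 := (transcendental_iff.1 hz) _ h3
    have h5 := congrArg (fun q : Polynomial k => q.coeff 0) h4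
    simp at h5
  obtain ⟨B, hB, hB2⟩ := Ideal.image_subset_nonunits_valuationSubring _ hI
  have h1 : z ∈ B.nonunits := hB2 ⟨_, Ideal.subset_span rfl, rfl⟩
  rw [ValuationSubring.mem_nonunits_iff] at h1
  refine ⟨B, fun a => hB ⟨Polynomial.C a, Polynomial.aeval_C z a⟩, hB hmem, fun h2 => ?_⟩
  rw [← ValuationSubring.valuation_le_one_iff, map_inv₀] at h2
  have h3 : B.valuation z ≠ 0 := (Valuation.ne_zero_iff _).2 hz0
  exact absurd h1 (not_lt.2 ((inv_le_one₀ (zero_lt_iff.2 h3)).1 h2))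

theorem exists_zero {z : F} (hz : ∀ a : k, z ≠ algebraMap k F a) : ∃ P : Plk k F, 0 < ord P z := by
  have hz0 : z ≠ 0 := fun h => hz 0 (by rw [h, map_zero])
  obtain ⟨B, h1, h2, h3⟩ := CPole_exists_val (finite_of_notMem hz).1
  let P : Plk k F := ⟨B, h1, fun h => h3 (h ▸ ValuationSubring.mem_top _)⟩
  refine ⟨P, lt_of_not_ge fun h => h3 ?_⟩
  have h4 : 0 ≤ ord P z⁻¹ := by
    rw [ord_inv]
    omega
  exact ((ord_spec P).mem z⁻¹).2 (Or.inr h4)

theorem exists_pole {z : F} (hz : ∀ a : k, z ≠ algebraMap k F a) : ∃ P : Plk k F, ord P z < 0 := by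
  obtain ⟨P, hP⟩ := exists_zero (nc_inv hz)
  rw [ord_inv] at hP
  exact ⟨P, by omega⟩

theorem dv_eq_zero_iff {z : F} (hz : z ≠ 0) : dv k z = 0 ↔ ∃ a : k, z = algebraMap k F a := by
  constructor
  · intro h
    by_contra hc
    push Not at hc
    obtain ⟨P, hP⟩ := exists_zero hc
    rw [← dv_apply, h, Finsupp.coe_zero, Pi.zero_apply] at hP
    exact lt_irrefl _ hP
  · rintro ⟨a, rfl⟩
    exact dv_const a

variable (k F) in
theorem nonempty_Plk : Nonempty (Plk k F) := by
  obtain ⟨x, hx, _⟩ := CFF.ex (k := k) (F := F)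
  obtain ⟨P, _⟩ := exists_zero (k := k) (z := x) fun a h => hx (h ▸ isAlgebraic_algebraMap a)
  exact ⟨P⟩

variable (k F) in
/-- principal divisors. -/
def prn : AddSubgroup (Plk k F →₀ ℤ) where
  carrier := {D | ∃ z : F, z ≠ 0 ∧ D = dv k z}
  zero_mem' := ⟨1, one_ne_zero, ((dv_eq_zero_iff one_ne_zero).2 ⟨1, (map_one _).symm⟩).symm⟩
  add_mem' := by
    rintro _ _ ⟨z, hz, rfl⟩ ⟨w, hw, rfl⟩
    refine ⟨z * w, mul_ne_zero hz hw, ?_⟩
    ext P
    rw [Finsupp.add_apply, dv_apply, dv_apply, dv_apply, (ord_spec P).mul z w hz hw]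
  neg_mem' := by
    rintro _ ⟨z, hz, rfl⟩
    refine ⟨z⁻¹, inv_ne_zero hz, ?_⟩
    ext P
    have h1 := (ord_spec P).mul z z⁻¹ hz (inv_ne_zero hz)
    have h2 := (ord_spec P).mul 1 1 one_ne_zero one_ne_zero
    rw [mul_inv_cancel₀ hz] at h1
    rw [mul_one] at h2
    rw [Finsupp.neg_apply, dv_apply, dv_apply]
    omega

variable (k) in
/-- the Riemann-Roch space. -/
def LL (D : Plk k F →₀ ℤ) : Submodule k F where
  carrier := {z | z = 0 ∨ ∀ P, -D P ≤ ord P z}
  zero_mem' := Or.inl rfl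
  add_mem' := by
    rintro z w hz hw
    by_cases h1 : z = 0
    · rw [h1, zero_add]; exact hw
    by_cases h2 : w = 0
    · rw [h2, add_zero]; exact hz
    by_cases h3 : z + w = 0
    · exact Or.inl h3
    · right
      intro P
      have h4 := (hz.resolve_left h1) P
      have h5 := (hw.resolve_left h2) P
      exact (le_min h4 h5).trans ((ord_spec P).add z w h1 h2 h3)
  smul_mem' := by
    rintro a z hz
    by_cases h1 : z = 0
    · left; rw [h1, smul_zero]
    by_cases h2 : a = 0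
    · left; rw [h2, zero_smul]
    right
    intro P
    have h3 : algebraMap k F a ≠ 0 := by rwa [Ne, map_eq_zero]
    have h4 : dv k (algebraMap k F a) = 0 := (dv_eq_zero_iff h3).2 ⟨a, rfl⟩
    have h5 : ord P (algebraMap k F a) = 0 := by rw [← dv_apply, h4]; rfl
    rw [Algebra.smul_def, (ord_spec P).mul _ _ h3 h1, h5, zero_add]
    exact (hz.resolve_left h1) P

theorem mem_LL {D : Plk k F →₀ ℤ} {z : F} : z ∈ LL k D ↔ z = 0 ∨ ∀ P, -D P ≤ ord P z := Iff.rfl

theorem mem_LL_iff {D : Plk k F →₀ ℤ} {z : F} : z ∈ LL k D ↔ ∀ P, z ∈ Mge P (-D P) := by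
  rw [mem_LL]
  exact forall_or_left.symm

end

end Vale.Agent.P019P
end
end

section

section

/-!
# Riemann-Roch spaces: finiteness and elementary estimates
-/

namespace Vale.Agent.P019P

open IntermediateField

section

variable {k F : Type*} [Field k] [Field F] [Algebra k F] [CFF k F]

theorem LL_mono {D E : Plk k F →₀ ℤ} (h : D ≤ E) : LL k D ≤ LL k E := by
  intro z hz
  rcases mem_LL.1 hz with h0 | h1
  · exact mem_LL.2 (Or.inl h0)
  · exact mem_LL.2 (Or.inr fun P => (neg_le_neg (h P)).trans (h1 P))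

theorem LL_zero_le {z : F} (hz : z ∈ LL k (0 : Plk k F →₀ ℤ)) : ∃ a : k, z = algebraMap k F a := by
  by_contra hc
  have hc' : ∀ a : k, z ≠ algebraMap k F a := fun a ha => hc ⟨a, ha⟩
  obtain ⟨P, hP⟩ := exists_pole hc'
  rcases mem_LL.1 hz with h0 | h1
  · exact hc' 0 (by rw [h0, map_zero])
  · have h2 := h1 P
    rw [Finsupp.zero_apply, neg_zero] at h2
    omega

/-- adding a point adds at most one element. -/
theorem LL_step {D : Plk k F →₀ ℤ} {P : Plk k F} {z w : F}
    (hz : z ∈ LL k (D + Finsupp.single P 1)) (hz' : z ∉ LL k D)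
    (hw : w ∈ LL k (D + Finsupp.single P 1)) : ∃ a : k, w - a • z ∈ LL k D := by
  classical
  have hz0 : z ≠ 0 := fun h => hz' (by rw [h]; exact Submodule.zero_mem _)
  have hzo : ∀ Q, -(D + Finsupp.single P (1 : ℤ)) Q ≤ ord Q z := (mem_LL.1 hz).resolve_left hz0
  have hne : ∀ Q, Q ≠ P → (D + Finsupp.single P (1 : ℤ)) Q = D Q := fun Q hQ => by
    rw [Finsupp.add_apply, Finsupp.single_apply, if_neg (Ne.symm hQ), add_zero]
  have hPP : (D + Finsupp.single P (1 : ℤ)) P = D P + 1 := by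
    rw [Finsupp.add_apply, Finsupp.single_eq_same]
  have hzP : ord P z = -D P - 1 := by
    have h1 := hzo P
    rw [hPP] at h1
    by_contra hc
    refine hz' (mem_LL.2 (Or.inr fun Q => ?_))
    by_cases hQ : Q = P
    · rw [hQ]; omega
    · have h2 := hzo Q
      rw [hne Q hQ] at h2
      exact h2
  have hwM := mem_LL_iff.1 hw
  have hzM := mem_LL_iff.1 hz
  have hwP : w ∈ Mge P (-D P - 1) := by
    have h := hwM P
    rw [hPP] at h
    have e : -(D P + 1) = -D P - 1 := by ring
    rwa [e] at h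
  obtain ⟨a, ha⟩ := exists_sub_mem hz0 hzP hwP
  refine ⟨a, mem_LL_iff.2 fun Q => ?_⟩
  by_cases hQ : Q = P
  · rw [hQ]
    have e : -D P - 1 + 1 = -D P := by ring
    rwa [e] at ha
  · have h1 := hwM Q
    have h2 := hzM Q
    rw [hne Q hQ] at h1 h2
    exact Submodule.sub_mem _ h1 (Submodule.smul_mem _ _ h2)

theorem CL_le_sup {D : Plk k F →₀ ℤ} {P : Plk k F} {z : F}
    (hz : z ∈ LL k (D + Finsupp.single P 1)) (hz' : z ∉ LL k D) :
    LL k (D + Finsupp.single P 1) ≤ LL k D ⊔ Submodule.span k {z} := by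
  intro w hw
  obtain ⟨a, ha⟩ := LL_step hz hz' hw
  rw [Submodule.mem_sup]
  exact ⟨w - a • z, ha, a • z, Submodule.smul_mem _ _ (Submodule.mem_span_singleton_self z),
    by rw [sub_add_cancel]⟩

omit [CFF k F] in
theorem CL_le_single (D : Plk k F →₀ ℤ) (P : Plk k F) : D ≤ D + Finsupp.single P 1 := by
  classical
  intro Q
  rw [Finsupp.add_apply, Finsupp.single_apply]
  split_ifs <;> omega

theorem CL_zero_le_span : LL k (0 : Plk k F →₀ ℤ) ≤ Submodule.span k {(1 : F)} := by
  intro z hz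
  obtain ⟨a, rfl⟩ := LL_zero_le hz
  rw [Algebra.algebraMap_eq_smul_one]
  exact Submodule.smul_mem _ _ (Submodule.mem_span_singleton_self _)

instance LL_finite (D : Plk k F →₀ ℤ) : FiniteDimensional k (LL k D) := by
  classical
  have key : ∀ E : Plk k F →₀ ℤ, 0 ≤ E → FiniteDimensional k (LL k E) := by
    intro E hE
    refine dv_induct (motive := fun E => FiniteDimensional k (LL k E)) (D := 0) ?_ ?_ hE
    · exact Submodule.finiteDimensional_of_le CL_zero_le_span
    · intro E P _ ih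
      by_cases h : LL k (E + Finsupp.single P 1) ≤ LL k E
      · exact Submodule.finiteDimensional_of_le h
      · obtain ⟨z, hz, hz'⟩ := Set.not_subset.1 h
        exact Submodule.finiteDimensional_of_le (CL_le_sup hz hz')
  have h1 : D ≤ D ⊔ 0 := le_sup_left
  have h2 : FiniteDimensional k (LL k (D ⊔ 0)) := key _ le_sup_right
  exact Submodule.finiteDimensional_of_le (LL_mono h1)

theorem l_mono {D E : Plk k F →₀ ℤ} (h : D ≤ E) :
    Module.finrank k (LL k D) ≤ Module.finrank k (LL k E) :=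
  Submodule.finrank_mono (LL_mono h)

theorem l_zero : Module.finrank k (LL k (0 : Plk k F →₀ ℤ)) = 1 := by
  have h : LL k (0 : Plk k F →₀ ℤ) = Submodule.span k {(1 : F)} := by
    refine le_antisymm CL_zero_le_span ?_
    rw [Submodule.span_singleton_le_iff_mem]
    refine mem_LL.2 (Or.inr fun P => ?_)
    rw [ord_one, Finsupp.zero_apply, neg_zero]
  rw [h]
  exact finrank_span_singleton one_ne_zero

/-- the dimension of `LL k D` jumps by one if there is a new element, and not otherwise. -/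
theorem l_step_of_mem {D : Plk k F →₀ ℤ} {P : Plk k F} {z : F}
    (hz : z ∈ LL k (D + Finsupp.single P 1)) (hz' : z ∉ LL k D) :
    Module.finrank k (LL k (D + Finsupp.single P 1)) = Module.finrank k (LL k D) + 1 := by
  have hz0 : z ≠ 0 := fun h => hz' (by rw [h]; exact Submodule.zero_mem _)
  have h1 : LL k (D + Finsupp.single P 1) = LL k D ⊔ Submodule.span k {z} := by
    refine le_antisymm (CL_le_sup hz hz') (sup_le (LL_mono (CL_le_single D P)) ?_)
    rw [Submodule.span_singleton_le_iff_mem]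
    exact hz
  have h2 : LL k D ⊓ Submodule.span k {z} = ⊥ := by
    rw [Submodule.eq_bot_iff]
    rintro w ⟨hw1, hw2⟩
    obtain ⟨a, rfl⟩ := Submodule.mem_span_singleton.1 hw2
    by_cases ha : a = 0
    · rw [ha, zero_smul]
    · exfalso
      apply hz'
      have h3 := Submodule.smul_mem (LL k D) a⁻¹ hw1
      rwa [smul_smul, inv_mul_cancel₀ ha, one_smul] at h3
  have h3 := Submodule.finrank_sup_add_finrank_inf_eq (LL k D) (Submodule.span k {z})
  rw [h2, finrank_bot, add_zero, finrank_span_singleton hz0] at h3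
  rw [h1]
  exact h3

theorem l_step_of_eq {D : Plk k F →₀ ℤ} {P : Plk k F}
    (h : LL k (D + Finsupp.single P 1) ≤ LL k D) :
    Module.finrank k (LL k (D + Finsupp.single P 1)) = Module.finrank k (LL k D) :=
  le_antisymm (Submodule.finrank_mono h) (l_mono (CL_le_single D P))

/-- `l(E) - l(D) ≤ deg E - deg D`. -/
theorem l_sub_le {D E : Plk k F →₀ ℤ} (h : D ≤ E) :
    (Module.finrank k (LL k E) : ℤ) - Module.finrank k (LL k D) ≤ dg E - dg D := by
  refine dv_induct (motive := fun E => (Module.finrank k (LL k E) : ℤ) -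
    Module.finrank k (LL k D) ≤ dg E - dg D) (D := D) ?_ ?_ h
  · simp
  · intro E P _ ih
    have h1 : dg (E + Finsupp.single P 1) = dg E + 1 := by
      rw [map_add, dg_sgl]
    rw [h1]
    by_cases h : LL k (E + Finsupp.single P 1) ≤ LL k E
    · rw [l_step_of_eq h]
      omega
    · obtain ⟨z, hz, hz'⟩ := Set.not_subset.1 h
      rw [l_step_of_mem hz hz']
      push_cast
      omega

/-- linear equivalence. -/
theorem mul_mem_LL_iff {D : Plk k F →₀ ℤ} {z w : F} (hz : z ≠ 0) :
    z * w ∈ LL k D ↔ w ∈ LL k (D + dv k z) := by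
  rw [mem_LL, mem_LL, mul_eq_zero, or_iff_right_of_imp (a := z = 0) (fun h => absurd h hz)]
  by_cases hw : w = 0
  · simp [hw]
  · simp only [hw, false_or]
    refine forall_congr' fun P => ?_
    rw [ord_mul P hz hw, Finsupp.add_apply, dv_apply]
    omega

theorem l_add_dv (D : Plk k F →₀ ℤ) {z : F} (hz : z ≠ 0) :
    Module.finrank k (LL k (D + dv k z)) = Module.finrank k (LL k D) := by
  have h1 : (LL k (D + dv k z)).map (LinearMap.mulLeft k z) = LL k D := by
    ext w
    rw [Submodule.mem_map]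
    constructor
    · rintro ⟨u, hu, rfl⟩
      rw [LinearMap.mulLeft_apply]
      exact (mul_mem_LL_iff hz).2 hu
    · intro hw
      refine ⟨z⁻¹ * w, ?_, ?_⟩
      · rw [← mul_mem_LL_iff hz, mul_inv_cancel_left₀ hz]
        exact hw
      · rw [LinearMap.mulLeft_apply, mul_inv_cancel_left₀ hz]
  have hinj : Function.Injective (LinearMap.mulLeft k z) := by
    intro u v huv
    rw [LinearMap.mulLeft_apply, LinearMap.mulLeft_apply] at huv
    exact mul_left_cancel₀ hz huv
  rw [← h1]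
  exact (LinearEquiv.finrank_eq (Submodule.equivMapOfInjective _ hinj _))

/-- a nonzero element of `LL k D` gives an effective divisor. -/
theorem exists_ne_zero_of_l {D : Plk k F →₀ ℤ} (h : 0 < Module.finrank k (LL k D)) :
    ∃ z : F, z ≠ 0 ∧ 0 ≤ D + dv k z := by
  have hne : LL k D ≠ ⊥ := by
    intro hb
    rw [hb, finrank_bot] at h
    exact lt_irrefl _ h
  obtain ⟨z, hz, hz0⟩ := Submodule.exists_mem_ne_zero_of_ne_bot hne
  refine ⟨z, hz0, fun P => ?_⟩
  have h1 := ((mem_LL.1 hz).resolve_left hz0) P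
  rw [Finsupp.zero_apply, Finsupp.add_apply, dv_apply]
  omega

end

end Vale.Agent.P019P
end
end

section

section

/-!
# The degree of a principal divisor is zero
-/

namespace Vale.Agent.P019P

open IntermediateField

section

variable {k F : Type*} [Field k] [Field F] [Algebra k F] [CFF k F]

variable (k) in
/-- the divisor of poles. -/
noncomputable def pol (x : F) : Plk k F →₀ ℤ :=
  (dv k x).mapRange (fun n => max 0 (-n)) (by simp)

theorem pol_apply (x : F) (P : Plk k F) : pol k x P = max 0 (-ord P x) := by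
  rw [pol, Finsupp.mapRange_apply, dv_apply]

theorem pol_nonneg (x : F) : 0 ≤ pol k x := by
  intro P
  rw [pol_apply]
  exact le_max_left _ _

theorem dv_eq_pol_sub (x : F) : dv k x = pol k x⁻¹ - pol k x := by
  ext P
  rw [Finsupp.sub_apply, pol_apply, pol_apply, dv_apply, ord_inv]
  omega

/-- the elements `x ^ j * u i`, for a basis `u` over `k(x)`, lie in the Riemann-Roch space of a
divisor close to `r` times the divisor of poles. -/
theorem cDeg_mem {x : F} (hx : x ≠ 0) {ι : Type*} [Fintype ι] {u : ι → F} (hu : ∀ i, u i ≠ 0)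
    {r j : ℕ} (hj : j ≤ r) (i : ι) :
    x ^ j * u i ∈ LL k (r • pol k x + ∑ i, pol k (u i)) := by
  right
  intro P
  rw [ord_mul P (pow_ne_zero _ hx) (hu i), ord_pow, Finsupp.add_apply, Finsupp.smul_apply,
    pol_apply, Finsupp.finsetSum_apply, nsmul_eq_mul]
  have h1 : pol k (u i) P ≤ ∑ i, pol k (u i) P :=
    Finset.single_le_sum (f := fun i => pol k (u i) P) (fun i _ => pol_nonneg (u i) P)
      (Finset.mem_univ i)
  rw [pol_apply] at h1
  have h2 : (j : ℤ) * -(max 0 (-ord P x)) ≤ j * ord P x :=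
    mul_le_mul_of_nonneg_left (by omega) (Int.natCast_nonneg j)
  have h3 : (j : ℤ) * max 0 (-ord P x) ≤ r * max 0 (-ord P x) :=
    mul_le_mul_of_nonneg_right (by exact_mod_cast hj) (le_max_left _ _)
  rw [mul_neg] at h2
  omega

/-- a lower bound for the dimensions of the Riemann-Roch spaces of the multiples of the divisor of
poles. -/
theorem cDeg_lower {x : F} (hx : ∀ a : k, x ≠ algebraMap k F a) :
    ∃ C : ℤ, ∀ r : ℕ, (r + 1) * (Module.finrank k⟮x⟯ F : ℤ) - C ≤
      Module.finrank k (LL k (r • pol k x)) := by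
  obtain ⟨hx1, hx2⟩ := finite_of_notMem hx
  have hx0 : x ≠ 0 := fun h => hx 0 (by rw [h, map_zero])
  set u := Module.finBasis k⟮x⟯ F with hu
  have hu0 : ∀ i, u i ≠ 0 := fun i => u.ne_zero i
  refine ⟨dg (∑ i, pol k (u i)), fun r => ?_⟩
  have h1 := l_sub_le (k := k) (D := r • pol k x) (E := r • pol k x + ∑ i, pol k (u i))
    (le_add_of_nonneg_right (Finset.sum_nonneg fun i _ => pol_nonneg (u i)))
  rw [map_add] at h1
  have h2 := indep_pow_mul hx1 u.linearIndependent
  let e : Fin (Module.finrank k⟮x⟯ F) × Fin (r + 1) → Fin (Module.finrank k⟮x⟯ F) × ℕ :=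
    fun p => (p.1, p.2)
  have he : Function.Injective e := by
    rintro ⟨a, b⟩ ⟨c, d⟩ h
    rw [Prod.mk.injEq] at h ⊢
    exact ⟨h.1, Fin.ext h.2⟩
  have h3 := h2.comp e he
  have h4 : LinearIndependent k (fun p : Fin (Module.finrank k⟮x⟯ F) × Fin (r + 1) =>
      (⟨x ^ (p.2 : ℕ) * u p.1, cDeg_mem hx0 hu0 (Nat.lt_succ_iff.1 p.2.2) p.1⟩ :
        LL k (r • pol k x + ∑ i, pol k (u i)))) :=
    LinearIndependent.of_comp (LL k (r • pol k x + ∑ i, pol k (u i))).subtype h3
  have h5 := h4.fintype_card_le_finrank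
  rw [Fintype.card_prod, Fintype.card_fin, Fintype.card_fin] at h5
  have h6 : (Module.finrank k⟮x⟯ F : ℤ) * (r + 1) ≤
      Module.finrank k (LL k (r • pol k x + ∑ i, pol k (u i))) := by exact_mod_cast h5
  rw [mul_comm] at h6
  omega

omit [CFF k F] in
theorem cDeg_finrank_inv (x : F) : Module.finrank k⟮x⁻¹⟯ F = Module.finrank k⟮x⟯ F := by
  rw [adjoin_inv_eq]

theorem dg_pol {x : F} (hx : ∀ a : k, x ≠ algebraMap k F a) :
    dg (pol k x) = Module.finrank k⟮x⟯ F := by
  apply le_antisymm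
  · have h1 := sum_ord_le (nc_inv hx) (pol k x).support fun P hP => by
      rw [Finsupp.mem_support_iff, pol_apply] at hP
      rw [ord_inv]
      omega
    rw [cDeg_finrank_inv] at h1
    rw [dg_eq_sum (S := (pol k x).support) fun P hP => Finsupp.notMem_support_iff.1 hP]
    refine le_trans (le_of_eq (Finset.sum_congr rfl fun P hP => ?_)) h1
    rw [Finsupp.mem_support_iff, pol_apply] at hP
    rw [pol_apply, ord_inv]
    omega
  · obtain ⟨C, hC⟩ := cDeg_lower hx
    by_contra hlt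
    rw [not_le] at hlt
    have h0 : (0 : ℤ) ≤ dg (pol k x) := by
      have := dg_mono (pol_nonneg (k := k) x)
      rwa [map_zero] at this
    have h1 := hC (C.toNat + 1)
    have h2 := l_sub_le (k := k) (D := 0) (E := (C.toNat + 1) • pol k x)
      (nsmul_nonneg (pol_nonneg x) _)
    rw [l_zero, map_nsmul, map_zero, nsmul_eq_mul, Nat.cast_one] at h2
    push_cast at h1 h2
    have h3 : C ≤ C.toNat := Int.self_le_toNat C
    have h4 : ((C.toNat : ℤ) + 1 + 1) * (dg (pol k x) + 1) ≤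
        (C.toNat + 1 + 1) * (Module.finrank k⟮x⟯ F : ℤ) :=
      mul_le_mul_of_nonneg_left (by omega) (by omega)
    have h5 : ((C.toNat : ℤ) + 1 + 1) * (dg (pol k x) + 1) =
      (C.toNat + 1) * dg (pol k x) + dg (pol k x) + C.toNat + 2 := by ring
    omega

/-- Riemann's lower bound for the multiples of the divisor of poles. -/
theorem exists_l_pol {x : F} (hx : ∀ a : k, x ≠ algebraMap k F a) :
    ∃ C : ℤ, ∀ r : ℕ, r * (Module.finrank k⟮x⟯ F : ℤ) - C ≤
      Module.finrank k (LL k (r • pol k x)) := by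
  obtain ⟨C, hC⟩ := cDeg_lower hx
  refine ⟨C, fun r => ?_⟩
  have h1 := hC r
  rw [add_mul, one_mul] at h1
  omega

theorem dg_dv (z : F) : dg (dv k z) = 0 := by
  by_cases hz : ∃ a : k, z = algebraMap k F a
  · obtain ⟨a, rfl⟩ := hz
    rw [dv_const, map_zero]
  · rw [not_exists] at hz
    rw [dv_eq_pol_sub, map_sub, dg_pol (nc_inv hz), dg_pol hz, cDeg_finrank_inv, sub_self]

/-- the degree of the fibre. -/
theorem fib_sum {x : F} (hx : ∀ a : k, x ≠ algebraMap k F a) (c : k) :
    ∑ P ∈ (fib_finite hx c).toFinset, ord P (x - algebraMap k F c) = Module.finrank k⟮x⟯ F := by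
  have h1 := dg_pol (nc_inv (nc_sub hx c))
  rw [cDeg_finrank_inv, adjoin_sub_eq, dg_eq_sum (S := (fib_finite hx c).toFinset)] at h1
  · rw [← h1]
    refine Finset.sum_congr rfl fun P hP => ?_
    rw [Set.Finite.mem_toFinset, Set.mem_ofPred_eq] at hP
    rw [pol_apply, ord_inv]
    omega
  · intro P hP
    rw [Set.Finite.mem_toFinset, Set.mem_ofPred_eq] at hP
    rw [pol_apply, ord_inv]
    omega

theorem LL_eq_bot {D : Plk k F →₀ ℤ} (h : dg D < 0) : LL k D = ⊥ := by
  rw [eq_bot_iff]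
  rintro z (hz | hz)
  · exact hz
  · exfalso
    have h1 : 0 ≤ D + dv k z := by
      intro P
      have h2 := hz P
      rw [Finsupp.add_apply, dv_apply, Finsupp.zero_apply]
      omega
    have h3 := dg_mono h1
    rw [map_zero, map_add, dg_dv, add_zero] at h3
    omega

theorem l_eq_zero {D : Plk k F →₀ ℤ} (h : dg D < 0) : Module.finrank k (LL k D) = 0 := by
  rw [LL_eq_bot h, finrank_bot]

variable (k F) in
/-- divisors of large degree. -/
theorem exists_dg_eq (n : ℤ) : ∃ D : Plk k F →₀ ℤ, dg D = n := by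
  obtain ⟨P⟩ := nonempty_Plk k F
  exact ⟨Finsupp.single P n, dg_sgl P n⟩

end

end Vale.Agent.P019P
end
end

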