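import Vale.Agent.P025.R2.H816.J02

/-! Carved out of `Vale.Agent.P019.Bd4` (function fields of one variable); generated file. -/

set_option linter.all false

attribute [local instance] O19.fr O19.tf O19.pj O19.fl

section

section

/-!
# Riemann's theorem
-/

namespace Vale.Agent.P019P

open IntermediateField

section

variable {k F : Type*} [Field k] [Field F] [Algebra k F] [CFF k F]

theorem CRiem_mono {D E : Plk k F →₀ ℤ} (h : D ≤ E) :
    dg D - Module.finrank k (LL k D) ≤ dg E - Module.finrank k (LL k E) := by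
  have h1 := l_sub_le h
  omega

theorem CRiem_dv (D : Plk k F →₀ ℤ) {z : F} (hz : z ≠ 0) :
    dg (D + dv k z) - Module.finrank k (LL k (D + dv k z)) =
      dg D - Module.finrank k (LL k D) := by
  rw [l_add_dv D hz, map_add, dg_dv, add_zero]

/-- the defect is bounded. -/
theorem CRiem_bdd {B : Plk k F →₀ ℤ} {n C : ℤ} (hn : 0 < n) (hB : dg B = n)
    (hC : ∀ r : ℕ, r * n - C ≤ Module.finrank k (LL k (r • B))) (A : Plk k F →₀ ℤ) :
    dg A - Module.finrank k (LL k A) ≤ C := by
  obtain ⟨A₁, hA, hA0⟩ : ∃ A₁ : Plk k F →₀ ℤ, A ≤ A₁ ∧ 0 ≤ A₁ :=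
    ⟨A ⊔ 0, le_sup_left, le_sup_right⟩
  obtain ⟨r, hr⟩ : ∃ r : ℕ, C + dg A₁ < r := ⟨(C + dg A₁).toNat + 1, by omega⟩
  have hdr : dg (r • B) = r * n := by rw [map_nsmul, hB, nsmul_eq_mul]
  have hrn : (r : ℤ) ≤ r * n := le_mul_of_one_le_right (Int.natCast_nonneg r) hn
  have h1 : (Module.finrank k (LL k (r • B)) : ℤ) - Module.finrank k (LL k (r • B - A₁)) ≤
      dg (r • B) - dg (r • B - A₁) := l_sub_le (sub_le_self _ hA0)
  rw [map_sub] at h1
  have h2 := hC r
  have h3 : 0 < Module.finrank k (LL k (r • B - A₁)) := by omega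
  obtain ⟨z, hz, hz0⟩ := exists_ne_zero_of_l h3
  have h4 : A₁ - dv k z ≤ r • B := by
    rw [← sub_nonneg]
    have e : r • B - (A₁ - dv k z) = r • B - A₁ + dv k z := by abel
    rw [e]
    exact hz0
  have h5 := CRiem_mono hA
  have h6 := CRiem_dv (A₁ - dv k z) hz
  rw [sub_add_cancel] at h6
  have h7 := CRiem_mono h4
  omega

end

/-- Riemann's theorem. -/
theorem exists_riem (k F : Type*) [Field k] [Field F] [Algebra k F] [CFF k F] :
    ∃ g : ℕ, (∀ D : Plk k F →₀ ℤ, dg D + 1 - g ≤ Module.finrank k (LL k D)) ∧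
      ∃ c : ℤ, ∀ D : Plk k F →₀ ℤ, c ≤ dg D →
        (Module.finrank k (LL k D) : ℤ) = dg D + 1 - g := by
  obtain ⟨x, hx, hfd⟩ := CFF.ex (k := k) (F := F)
  have hxc : ∀ a : k, x ≠ algebraMap k F a := by
    rintro a rfl
    exact hx (isAlgebraic_algebraMap a)
  have hn : 0 < (Module.finrank k⟮x⟯ F : ℤ) := by
    exact_mod_cast Module.finrank_pos
  obtain ⟨C, hC⟩ := exists_l_pol hxc
  have hbdd := CRiem_bdd hn (dg_pol hxc) hC
  obtain ⟨m, ⟨A₀, hA₀⟩, hm⟩ := Int.exists_greatest_of_bdd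
    (P := fun m : ℤ => ∃ A : Plk k F →₀ ℤ, dg A - Module.finrank k (LL k A) = m)
    ⟨C, by rintro _ ⟨A, rfl⟩; exact hbdd A⟩ ⟨_, 0, rfl⟩
  have h0 : -1 ≤ m := by
    have h1 := hm _ ⟨0, rfl⟩
    rw [map_zero, l_zero, Nat.cast_one] at h1
    omega
  obtain ⟨g, hg⟩ := Int.eq_ofNat_of_zero_le (show 0 ≤ m + 1 by omega)
  have hlow : ∀ D : Plk k F →₀ ℤ, dg D + 1 - g ≤ Module.finrank k (LL k D) := by
    intro D
    have h1 := hm _ ⟨D, rfl⟩
    omega
  refine ⟨g, hlow, dg A₀ + g, fun D hD => ?_⟩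
  have h1 := hlow (D - A₀)
  rw [map_sub] at h1
  have h2 : 0 < Module.finrank k (LL k (D - A₀)) := by omega
  obtain ⟨z, hz, hz0⟩ := exists_ne_zero_of_l h2
  have h3 : A₀ ≤ D + dv k z := by
    rw [← sub_nonneg]
    have e : D + dv k z - A₀ = D - A₀ + dv k z := by abel
    rw [e]
    exact hz0
  have h4 := CRiem_mono h3
  have h5 := CRiem_dv D hz
  have h6 := hlow D
  omega

end Vale.Agent.P019P
end
end

section

section

/-!
# Finitely supported adeles modulo functions
-/

namespace Vale.Agent.P019P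

open IntermediateField

section

variable {k F : Type*} [Field k] [Field F] [Algebra k F] [CFF k F]

/-- the finitely supported adeles which become integral with respect to `D` after subtraction of
a function. -/
noncomputable def KD (D : Plk k F →₀ ℤ) : Submodule k (Plk k F →₀ F) where
  carrier := {β | ∃ z : F, ∀ P, β P - z ∈ Mge P (-D P)}
  zero_mem' := ⟨0, fun P => by simp⟩
  add_mem' := by
    rintro β γ ⟨z, hz⟩ ⟨w, hw⟩
    refine ⟨z + w, fun P => ?_⟩
    have h := add_mem (hz P) (hw P)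
    rwa [← add_sub_add_comm] at h
  smul_mem' := by
    rintro a β ⟨z, hz⟩
    refine ⟨a • z, fun P => ?_⟩
    have h := Submodule.smul_mem _ a (hz P)
    rwa [smul_sub] at h

theorem KD_mono {D E : Plk k F →₀ ℤ} (h : D ≤ E) : KD D ≤ KD E := by
  rintro β ⟨z, hz⟩
  exact ⟨z, fun P => Mge_mono P (neg_le_neg (h P)) (hz P)⟩

theorem exists_mem_KD (D : Plk k F →₀ ℤ) (β : Plk k F →₀ F) :
    ∃ E : Plk k F →₀ ℤ, D ≤ E ∧ β ∈ KD E := by
  classical
  let N : Plk k F →₀ ℤ := Finsupp.onFinset β.support (fun P => -ord P (β P)) (by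
    intro P hP
    rw [Finsupp.mem_support_iff]
    intro h
    apply hP
    show -ord P (β P) = 0
    rw [h, ord_zero, neg_zero])
  have hN : ∀ P, N P = -ord P (β P) := fun P => rfl
  refine ⟨D ⊔ N, le_sup_left, 0, fun P => ?_⟩
  rw [sub_zero, mem_Mge]
  right
  have h1 : N P ≤ (D ⊔ N) P := (le_sup_right : N ≤ D ⊔ N) P
  rw [hN] at h1
  linarith

omit [CFF k F] in
theorem CAd_le (D : Plk k F →₀ ℤ) (P : Plk k F) : D ≤ D + Finsupp.single P 1 := by
  classical
  intro Q
  rw [Finsupp.add_apply, Finsupp.single_apply]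
  split_ifs <;> simp

omit [CFF k F] in
theorem CAd_at (D : Plk k F →₀ ℤ) (P : Plk k F) :
    (D + Finsupp.single P 1 : Plk k F →₀ ℤ) P = D P + 1 := by
  rw [Finsupp.add_apply, Finsupp.single_eq_same]

omit [CFF k F] in
theorem CAd_ne (D : Plk k F →₀ ℤ) {P Q : Plk k F} (h : Q ≠ P) :
    (D + Finsupp.single P 1 : Plk k F →₀ ℤ) Q = D Q := by
  rw [Finsupp.add_apply, Finsupp.single_eq_of_ne h, add_zero]

/-- the step towards `D` at the point `P`, in both cases. -/
theorem CAd_step {D : Plk k F →₀ ℤ} {P : Plk k F} {t : F} (ht : t ≠ 0)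
    (ht1 : ord P t = -D P - 1) {β : Plk k F →₀ F} {w : F}
    (hw : ∀ Q, β Q - w ∈ Mge Q (-(D + Finsupp.single P 1 : Plk k F →₀ ℤ) Q)) :
    (∃ a : k, β P - w - a • t ∈ Mge P (-D P)) ∧ ∀ Q, Q ≠ P → β Q - w ∈ Mge Q (-D Q) := by
  constructor
  · have h1 := hw P
    rw [CAd_at, neg_add'] at h1
    obtain ⟨a, ha⟩ := exists_sub_mem ht ht1 h1
    rw [sub_add_cancel] at ha
    exact ⟨a, ha⟩
  · intro Q hQ
    have h1 := hw Q
    rwa [CAd_ne D hQ] at h1

theorem KD_step_of_mem {D : Plk k F →₀ ℤ} {P : Plk k F} {z : F}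
    (hz : z ∈ LL k (D + Finsupp.single P 1)) (hz' : z ∉ LL k D) :
    KD (D + Finsupp.single P 1) = KD D := by
  have hz0 : z ≠ 0 := by
    rintro rfl
    exact hz' (zero_mem _)
  have hz1 : ∀ Q, -(D + Finsupp.single P 1 : Plk k F →₀ ℤ) Q ≤ ord Q z := (mem_LL.1 hz).resolve_left hz0
  have hne : ∀ Q, Q ≠ P → -D Q ≤ ord Q z := by
    intro Q hQ
    have h1 := hz1 Q
    rwa [CAd_ne D hQ] at h1
  have hP : ord P z = -D P - 1 := by
    have h1 := hz1 P
    rw [CAd_at] at h1
    have h2 : ord P z < -D P := by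
      by_contra hc
      push Not at hc
      apply hz'
      rw [mem_LL]
      right
      intro Q
      by_cases hQ : Q = P
      · rw [hQ]; exact hc
      · exact hne Q hQ
    omega
  refine le_antisymm ?_ (KD_mono (CAd_le D P))
  rintro β ⟨w, hw⟩
  obtain ⟨⟨a, ha⟩, h2⟩ := CAd_step hz0 hP hw
  refine ⟨w + a • z, fun Q => ?_⟩
  rw [← sub_sub]
  by_cases hQ : Q = P
  · rw [hQ]; exact ha
  · exact sub_mem (h2 Q hQ) (Submodule.smul_mem _ a (mem_Mge.2 (Or.inr (hne Q hQ))))

theorem KD_step_of_eq {D : Plk k F →₀ ℤ} {P : Plk k F}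
    (h : LL k (D + Finsupp.single P 1) ≤ LL k D) :
    ∃ e : Plk k F →₀ F, e ∉ KD D ∧ KD (D + Finsupp.single P 1) = KD D ⊔ Submodule.span k {e} := by
  obtain ⟨π, hπ, hπ1⟩ := exists_unif P
  obtain ⟨t, ht, ht1⟩ : ∃ t : F, t ≠ 0 ∧ ord P t = -D P - 1 :=
    ⟨π ^ (-D P - 1), zpow_ne_zero _ hπ, by rw [ord_zpow, hπ1, mul_one]⟩
  have e1 : (Finsupp.single P t : Plk k F →₀ F) P = t := Finsupp.single_eq_same
  have e2 : ∀ Q, Q ≠ P → (Finsupp.single P t : Plk k F →₀ F) Q = 0 := fun Q hQ =>
    Finsupp.single_eq_of_ne hQ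
  refine ⟨Finsupp.single P t, ?_, le_antisymm ?_ ?_⟩
  · rintro ⟨w, hw⟩
    have hwP : t - w ∈ Mge P (-D P) := by
      have h1 := hw P
      rwa [e1] at h1
    have hwL : w ∈ LL k (D + Finsupp.single P 1) := by
      rw [mem_LL_iff]
      intro Q
      by_cases hQ : Q = P
      · subst hQ
        rw [CAd_at, neg_add']
        have h1 : t - w ∈ Mge Q (-D Q - 1) := Mge_mono Q (by omega) hwP
        have h2 : t ∈ Mge Q (-D Q - 1) := mem_Mge.2 (Or.inr ht1.ge)
        have h3 := sub_mem h2 h1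
        rwa [sub_sub_cancel] at h3
      · rw [CAd_ne D hQ]
        have h1 := hw Q
        rw [e2 Q hQ, zero_sub] at h1
        exact neg_mem_iff.1 h1
    have h3 := mem_LL_iff.1 (h hwL) P
    have h4 := add_mem hwP h3
    rw [sub_add_cancel, mem_Mge] at h4
    have h5 := h4.resolve_left ht
    omega
  · rintro β ⟨w, hw⟩
    obtain ⟨⟨a, ha⟩, h2⟩ := CAd_step ht ht1 hw
    rw [Submodule.mem_sup]
    refine ⟨β - a • Finsupp.single P t, ⟨w, fun Q => ?_⟩, a • Finsupp.single P t,
      Submodule.smul_mem _ _ (Submodule.mem_span_singleton_self _), sub_add_cancel _ _⟩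
    rw [Finsupp.sub_apply, Finsupp.smul_apply]
    by_cases hQ : Q = P
    · rw [hQ, e1, sub_right_comm]
      exact ha
    · rw [e2 Q hQ, smul_zero, sub_zero]
      exact h2 Q hQ
  · refine sup_le (KD_mono (CAd_le D P)) ?_
    rw [Submodule.span_singleton_le_iff_mem]
    refine ⟨0, fun Q => ?_⟩
    rw [sub_zero]
    by_cases hQ : Q = P
    · rw [hQ, e1, CAd_at, neg_add']
      exact mem_Mge.2 (Or.inr ht1.ge)
    · rw [e2 Q hQ]
      exact zero_mem _

/-- the function space attached to `D` is everything if the degree is large. -/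
theorem KD_eq_top {g : ℕ} {c : ℤ} (hc : ∀ D : Plk k F →₀ ℤ, c ≤ dg D →
    (Module.finrank k (LL k D) : ℤ) = dg D + 1 - g) {D : Plk k F →₀ ℤ} (hD : c ≤ dg D) :
    KD D = ⊤ := by
  have key : ∀ E : Plk k F →₀ ℤ, D ≤ E → KD E = KD D := by
    intro E hE
    refine dv_induct (motive := fun E => KD E = KD D) rfl (fun E P hDE hEk => ?_) hE
    refine Eq.trans ?_ hEk
    have h1 : c ≤ dg E := hD.trans (dg_mono hDE)
    have h2 : dg (E + Finsupp.single P 1) = dg E + 1 := by rw [map_add, dg_sgl]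
    have h3 := hc E h1
    have h4 := hc (E + Finsupp.single P 1) (by rw [h2]; omega)
    by_cases hle : LL k (E + Finsupp.single P 1) ≤ LL k E
    · exfalso
      have h5 := l_step_of_eq hle
      rw [h5, h2] at h4
      omega
    · rw [SetLike.not_le_iff_exists] at hle
      obtain ⟨z, hz, hz'⟩ := hle
      exact KD_step_of_mem hz hz'
  rw [eq_top_iff]
  intro β _
  obtain ⟨E, hE, hβ⟩ := exists_mem_KD D β
  rwa [key E hE] at hβ

end

end Vale.Agent.P019P
end
end

section

section

/-!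
# Weil differentials and the index of speciality
-/

namespace Vale.Agent.P019P

open IntermediateField

section

variable {k F : Type*} [Field k] [Field F] [Algebra k F] [CFF k F]

/-- the differentials which are regular with respect to `D`. -/
noncomputable def Om (D : Plk k F →₀ ℤ) : Submodule k (Module.Dual k (Plk k F →₀ F)) :=
  (KD D).dualAnnihilator

theorem mem_Om {D : Plk k F →₀ ℤ} {ω : Module.Dual k (Plk k F →₀ F)} :
    ω ∈ Om D ↔ ∀ β ∈ KD D, ω β = 0 := by
  rw [Om, Submodule.mem_dualAnnihilator]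

theorem Om_anti {D E : Plk k F →₀ ℤ} (h : D ≤ E) : Om E ≤ Om D :=
  Submodule.dualAnnihilator_anti (KD_mono h)

/-- a subspace which is cut out by one functional has codimension one. -/
theorem COm_cut {K A : Type*} [Field K] [AddCommGroup A] [Module K A] (U U' : Submodule K A)
    (ev : A →ₗ[K] K) (h : ∀ ω, ω ∈ U' ↔ ω ∈ U ∧ ev ω = 0) (ω₀ : A) (h₀ : ω₀ ∈ U)
    (h₁ : ev ω₀ ≠ 0) (hf : FiniteDimensional K U') :
    FiniteDimensional K U ∧ Module.finrank K U = Module.finrank K U' + 1 := by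
  let f : U →ₗ[K] K := ev.domRestrict U
  have hsurj : Function.Surjective f := by
    intro a
    refine ⟨(a / ev ω₀) • ⟨ω₀, h₀⟩, ?_⟩
    change ev ((a / ev ω₀) • ω₀) = a
    rw [map_smul, smul_eq_mul, div_mul_cancel₀ _ h₁]
  have hker : LinearMap.ker f = U'.comap U.subtype := by
    ext ω
    rw [LinearMap.mem_ker, Submodule.mem_comap, Submodule.subtype_apply, h]
    exact ⟨fun h2 => ⟨ω.2, h2⟩, fun h2 => h2.2⟩
  have hle : U' ≤ U := fun ω hω => ((h ω).1 hω).1
  have hequiv : LinearMap.ker f ≃ₗ[K] U' := by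
    rw [hker]
    exact Submodule.comapSubtypeEquivOfLe hle
  have hfk : FiniteDimensional K (LinearMap.ker f) := Module.Finite.equiv hequiv.symm
  have hfq : FiniteDimensional K (U ⧸ LinearMap.ker f) :=
    Module.Finite.equiv (f.quotKerEquivOfSurjective hsurj).symm
  have hfin : FiniteDimensional K U := Module.Finite.of_submodule_quotient (LinearMap.ker f)
  refine ⟨hfin, ?_⟩
  have h1 := LinearMap.finrank_range_add_finrank_ker f
  rw [LinearMap.range_eq_top.2 hsurj, finrank_top, Module.finrank_self, hequiv.finrank_eq] at h1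
  omega

/-- the annihilator of a subspace grows by one dimension if a vector is removed. -/
theorem COm_aux {K V : Type*} [Field K] [AddCommGroup V] [Module K V] (W W' : Submodule K V)
    (e : V) (he : e ∉ W) (hW : W' = W ⊔ Submodule.span K {e})
    (hf : FiniteDimensional K W'.dualAnnihilator) :
    FiniteDimensional K W.dualAnnihilator ∧
      Module.finrank K W.dualAnnihilator = Module.finrank K W'.dualAnnihilator + 1 := by
  obtain ⟨f, hf1, hf2⟩ := Submodule.exists_dual_map_eq_bot_of_notMem he inferInstance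
  refine COm_cut W.dualAnnihilator W'.dualAnnihilator (Module.Dual.eval K V e) ?_ f ?_ hf1 hf
  · intro ω
    rw [Submodule.mem_dualAnnihilator, Submodule.mem_dualAnnihilator]
    constructor
    · intro h
      exact ⟨fun w hw => h w (hW ▸ Submodule.mem_sup_left hw),
        h e (hW ▸ Submodule.mem_sup_right (Submodule.mem_span_singleton_self e))⟩
    · rintro ⟨h1, h2⟩ w hw
      rw [hW, Submodule.mem_sup] at hw
      obtain ⟨u, hu, v, hv, rfl⟩ := hw
      obtain ⟨a, rfl⟩ := Submodule.mem_span_singleton.1 hv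
      have h3 : ω e = 0 := h2
      rw [map_add, map_smul, h3, h1 u hu, smul_zero, add_zero]
  · rw [Submodule.mem_dualAnnihilator]
    intro w hw
    have h4 : f w ∈ W.map f := Submodule.mem_map_of_mem hw
    rw [hf2] at h4
    exact (Submodule.mem_bot K).1 h4

theorem COm_both {g : ℕ} {c : ℤ} (hc : ∀ D : Plk k F →₀ ℤ, c ≤ dg D →
    (Module.finrank k (LL k D) : ℤ) = dg D + 1 - g) (D : Plk k F →₀ ℤ) :
    FiniteDimensional k (Om D) ∧
    (Module.finrank k (Om D) : ℤ) = Module.finrank k (LL k D) - dg D - 1 + g := by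
  have hbig : ∀ D : Plk k F →₀ ℤ, c ≤ dg D → FiniteDimensional k (Om D) ∧
      (Module.finrank k (Om D) : ℤ) = Module.finrank k (LL k D) - dg D - 1 + g := by
    intro D hD
    have h1 : Om D = ⊥ := by rw [Om, KD_eq_top hc hD, Submodule.dualAnnihilator_top]
    rw [h1, hc D hD]
    refine ⟨inferInstance, ?_⟩
    rw [finrank_bot]
    push_cast
    ring
  have hstep : ∀ (D : Plk k F →₀ ℤ) (P : Plk k F),
      (FiniteDimensional k (Om (D + Finsupp.single P 1)) ∧
      (Module.finrank k (Om (D + Finsupp.single P 1)) : ℤ)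
        = Module.finrank k (LL k (D + Finsupp.single P 1)) - dg (D + Finsupp.single P 1) - 1 + g)
      → FiniteDimensional k (Om D) ∧
      (Module.finrank k (Om D) : ℤ) = Module.finrank k (LL k D) - dg D - 1 + g := by
    rintro D P ⟨h1, h2⟩
    rw [map_add, dg_sgl] at h2
    by_cases hle : LL k (D + Finsupp.single P 1) ≤ LL k D
    · obtain ⟨e, he, hKD⟩ := KD_step_of_eq hle
      have h3 := COm_aux (KD D) _ e he hKD h1
      refine ⟨h3.1, ?_⟩
      have h4 : Module.finrank k (Om D) = Module.finrank k (Om (D + Finsupp.single P 1)) + 1 :=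
        h3.2
      rw [l_step_of_eq hle] at h2
      rw [h4]
      push_cast
      linarith
    · obtain ⟨z, hz, hz'⟩ := Set.not_subset.1 hle
      have h3 : Om (D + Finsupp.single P 1) = Om D := by
        rw [Om, Om, KD_step_of_mem hz hz']
      rw [h3] at h1 h2
      rw [l_step_of_mem hz hz'] at h2
      refine ⟨h1, ?_⟩
      rw [h2]
      push_cast
      ring
  obtain ⟨P⟩ := nonempty_Plk k F
  have hN : ∀ (N : ℕ) (D : Plk k F →₀ ℤ), c ≤ dg D + N → FiniteDimensional k (Om D) ∧
      (Module.finrank k (Om D) : ℤ) = Module.finrank k (LL k D) - dg D - 1 + g := by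
    intro N
    induction N with
    | zero => intro D hD; exact hbig D (by simpa using hD)
    | succ n ih =>
      intro D hD
      refine hstep D P (ih _ ?_)
      rw [map_add, dg_sgl]
      push_cast at hD
      linarith
  refine hN (c - dg D).toNat D ?_
  have := Int.self_le_toNat (c - dg D)
  linarith

theorem Om_finite {g : ℕ} {c : ℤ} (hc : ∀ D : Plk k F →₀ ℤ, c ≤ dg D →
    (Module.finrank k (LL k D) : ℤ) = dg D + 1 - g) (D : Plk k F →₀ ℤ) :
    FiniteDimensional k (Om D) :=
  (COm_both hc D).1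

/-- the index of speciality. -/
theorem finrank_Om {g : ℕ} {c : ℤ} (hc : ∀ D : Plk k F →₀ ℤ, c ≤ dg D →
    (Module.finrank k (LL k D) : ℤ) = dg D + 1 - g) (D : Plk k F →₀ ℤ) :
    (Module.finrank k (Om D) : ℤ) = Module.finrank k (LL k D) - dg D - 1 + g :=
  (COm_both hc D).2

end

end Vale.Agent.P019P
end
end

section

section

/-!
# Multiplication of differentials by functions; the divisor of a differential
-/

namespace Vale.Agent.P019P

set_option linter.unusedSectionVars false

open IntermediateField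

section

variable {k F : Type*} [Field k] [Field F] [Algebra k F] [CFF k F]

/-- multiplication of a differential by a function. -/
noncomputable def tw (z : F) : Module.Dual k (Plk k F →₀ F) →ₗ[k] Module.Dual k (Plk k F →₀ F) :=
  Module.Dual.transpose (Finsupp.mapRange.linearMap (LinearMap.mulLeft k z))

theorem tw_apply (z : F) (ω : Module.Dual k (Plk k F →₀ F)) (β : Plk k F →₀ F) :
    tw z ω β = ω (β.mapRange (fun w => z * w) (mul_zero z)) := rfl

theorem tw_mul (z w : F) (ω : Module.Dual k (Plk k F →₀ F)) :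
    tw (z * w) ω = tw z (tw w ω) := by
  refine LinearMap.ext fun β => ?_
  rw [tw_apply, tw_apply, tw_apply]
  congr 1
  ext P
  simp only [Finsupp.mapRange_apply]
  ring

theorem tw_add (z w : F) (ω : Module.Dual k (Plk k F →₀ F)) :
    tw (z + w) ω = tw z ω + tw w ω := by
  refine LinearMap.ext fun β => ?_
  rw [LinearMap.add_apply, tw_apply, tw_apply, tw_apply, ← map_add]
  congr 1
  ext P
  simp only [Finsupp.mapRange_apply, Finsupp.add_apply]
  ring

theorem tw_smul (a : k) (z : F) (ω : Module.Dual k (Plk k F →₀ F)) :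
    tw (a • z) ω = a • tw z ω := by
  refine LinearMap.ext fun β => ?_
  rw [LinearMap.smul_apply, tw_apply, tw_apply, ← map_smul]
  congr 1
  ext P
  simp only [Finsupp.mapRange_apply, Finsupp.smul_apply, Algebra.smul_def]
  ring

theorem tw_one (ω : Module.Dual k (Plk k F →₀ F)) : tw 1 ω = ω := by
  refine LinearMap.ext fun β => ?_
  rw [tw_apply]
  congr 1
  ext P
  simp only [Finsupp.mapRange_apply, one_mul]

theorem CTw_mem {D : Plk k F →₀ ℤ} {z : F} (hz : z ≠ 0) {β : Plk k F →₀ F} :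
    β.mapRange (fun w => z * w) (mul_zero z) ∈ KD D ↔ β ∈ KD (D + dv k z) := by
  have key : ∀ (w : F) (P : Plk k F), (z * β P - z * w ∈ Mge P (-D P) ↔
      β P - w ∈ Mge P (-(D + dv k z) P)) := by
    intro w P
    rw [← mul_sub, mul_mem_Mge_iff hz, Finsupp.add_apply, dv_apply]
    have h : -(D P + ord P z) = -D P - ord P z := by ring
    rw [h]
  constructor
  · rintro ⟨w, hw⟩
    refine ⟨z⁻¹ * w, fun P => (key _ P).1 ?_⟩
    have h := hw P
    rw [Finsupp.mapRange_apply] at h
    rwa [mul_inv_cancel_left₀ hz]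
  · rintro ⟨w, hw⟩
    exact ⟨z * w, fun P => (key _ P).2 (hw P)⟩

theorem tw_mem_Om {D : Plk k F →₀ ℤ} {z : F} (hz : z ≠ 0) {ω : Module.Dual k (Plk k F →₀ F)} :
    tw z ω ∈ Om D ↔ ω ∈ Om (D - dv k z) := by
  rw [mem_Om, mem_Om]
  constructor
  · intro h β hβ
    have h1 : β.mapRange (fun w => z⁻¹ * w) (mul_zero z⁻¹) ∈ KD D := by
      rw [CTw_mem (inv_ne_zero hz), dv_inv, ← sub_eq_add_neg]
      exact hβ
    have h2 := h _ h1
    rw [tw_apply] at h2
    rw [← h2]
    congr 1
    ext P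
    simp only [Finsupp.mapRange_apply]
    rw [mul_inv_cancel_left₀ hz]
  · intro h β hβ
    rw [tw_apply]
    apply h
    rw [CTw_mem hz, sub_add_cancel]
    exact hβ

theorem Om_sup {A B : Plk k F →₀ ℤ} {ω : Module.Dual k (Plk k F →₀ F)}
    (h : ω ∈ Om A) (h' : ω ∈ Om B) : ω ∈ Om (A ⊔ B) := by
  classical
  rw [mem_Om] at h h' ⊢
  rintro β ⟨z, hz⟩
  let β2 : Plk k F →₀ F := Finsupp.onFinset (A.support ∪ B.support)
    (fun P => if A P < B P then β P - z else 0) (by
      intro P hP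
      split_ifs at hP with h1
      · rw [Finset.mem_union, Finsupp.mem_support_iff, Finsupp.mem_support_iff]
        by_contra h2
        push Not at h2
        rw [h2.1, h2.2] at h1
        exact lt_irrefl _ h1
      · exact absurd rfl hP)
  have hβ2 : ∀ P, β2 P = if A P < B P then β P - z else 0 := fun P => rfl
  have h2 : β2 ∈ KD B := by
    refine ⟨0, fun P => ?_⟩
    rw [sub_zero, hβ2]
    split_ifs with h1
    · have h3 := hz P
      rwa [Finsupp.sup_apply, max_eq_right h1.le] at h3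
    · exact zero_mem _
  have h1 : β - β2 ∈ KD A := by
    refine ⟨z, fun P => ?_⟩
    rw [Finsupp.sub_apply, hβ2]
    split_ifs with h1
    · rw [sub_sub_cancel, sub_self]
      exact zero_mem _
    · have h3 := hz P
      rw [Finsupp.sup_apply, max_eq_left (not_lt.1 h1)] at h3
      rwa [sub_zero]
  have h3 := h _ h1
  rw [map_sub, h' _ h2, sub_zero] at h3
  exact h3

/-- the divisor of a differential. -/
theorem exists_dvOm {A : Plk k F →₀ ℤ} {ω : Module.Dual k (Plk k F →₀ F)} (h0 : ω ≠ 0)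
    (h : ω ∈ Om A) : ∃ W : Plk k F →₀ ℤ, ∀ D, ω ∈ Om D ↔ D ≤ W := by
  obtain ⟨g, -, c, hc⟩ := exists_riem k F
  have hb : ∀ D : Plk k F →₀ ℤ, ω ∈ Om D → dg D < c := by
    intro D hD
    by_contra hcon
    push Not at hcon
    apply h0
    refine LinearMap.ext fun β => ?_
    have h1 : β ∈ KD D := by rw [KD_eq_top hc hcon]; trivial
    exact mem_Om.1 hD β h1
  obtain ⟨m, ⟨W, hW, hWm⟩, hmax⟩ := Int.exists_greatest_of_bdd
    (P := fun m => ∃ D : Plk k F →₀ ℤ, ω ∈ Om D ∧ dg D = m)
    ⟨c, by rintro m ⟨D, hD, rfl⟩; exact (hb D hD).le⟩ ⟨_, A, h, rfl⟩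
  refine ⟨W, fun D => ⟨fun hD => ?_, fun hD => Om_anti hD hW⟩⟩
  have h1 := hmax _ ⟨W ⊔ D, Om_sup hW hD, rfl⟩
  rw [← hWm] at h1
  have h2 := eq_of_le_of_dg_le (le_sup_left : W ≤ W ⊔ D) h1
  rw [h2]
  exact le_sup_right

end

end Vale.Agent.P019P
end
end

section

section

/-!
# Differentials are one-dimensional over the function field
-/

namespace Vale.Agent.P019P

open IntermediateField

section

variable {k F : Type*} [Field k] [Field F] [Algebra k F] [CFF k F]

private theorem COne_tw_zero (ω : Module.Dual k (Plk k F →₀ F)) : tw 0 ω = 0 := by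
  have h := tw_smul (0 : k) (0 : F) ω
  rwa [zero_smul, zero_smul] at h

private theorem COne_tw_mem {A E : Plk k F →₀ ℤ} {ω : Module.Dual k (Plk k F →₀ F)}
    (h : ω ∈ Om A) {x : F} (hx : x ∈ LL k (A + E)) : tw x ω ∈ Om (-E) := by
  by_cases h0 : x = 0
  · rw [h0, COne_tw_zero]
    exact zero_mem _
  · refine (tw_mem_Om h0).2 (Om_anti (fun P => ?_) h)
    have h1 := (hx.resolve_left h0) P
    rw [Finsupp.add_apply] at h1
    rw [Finsupp.sub_apply, Finsupp.neg_apply, dv_apply]
    omega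

/-- the map `x ↦ tw x ω` from a Riemann-Roch space to the differentials. -/
private noncomputable def COne_map {A : Plk k F →₀ ℤ} (E : Plk k F →₀ ℤ)
    {ω : Module.Dual k (Plk k F →₀ F)} (h : ω ∈ Om A) : LL k (A + E) →ₗ[k] Om (-E) where
  toFun x := ⟨tw x.1 ω, COne_tw_mem h x.2⟩
  map_add' x y := Subtype.ext (tw_add x.1 y.1 ω)
  map_smul' a x := Subtype.ext (tw_smul a x.1 ω)

/-- the differentials form a space of dimension one over `F`. -/
theorem exists_tw {A B : Plk k F →₀ ℤ} {ω ω' : Module.Dual k (Plk k F →₀ F)} (h0 : ω ≠ 0)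
    (h : ω ∈ Om A) (h' : ω' ∈ Om B) : ∃ z : F, ω' = tw z ω := by
  by_contra hne
  obtain ⟨g, hmin, c, hc⟩ := exists_riem k F
  obtain ⟨E, hE⟩ := exists_dg_eq k F (max 1 (3 * (g : ℤ) - 2 - dg A - dg B))
  have hinj : Function.Injective ((COne_map E h).coprod (COne_map E h')) := by
    refine (injective_iff_map_eq_zero _).2 ?_
    rintro ⟨⟨x, hx⟩, ⟨y, hy⟩⟩ hxy
    have h1 : tw x ω + tw y ω' = 0 := congrArg Subtype.val hxy
    have h2 : y = 0 := by
      by_contra h2
      refine hne ⟨y⁻¹ * -x, ?_⟩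
      have h3 : tw y ω' = tw (-x) ω := by
        have h4 : tw (x + -x) ω = 0 := by rw [add_neg_cancel, COne_tw_zero]
        rw [tw_add, ← h1] at h4
        exact (add_left_cancel h4).symm
      rw [tw_mul, ← h3, ← tw_mul, inv_mul_cancel₀ h2, tw_one]
    have h3 : x = 0 := by
      by_contra h3
      refine h0 ?_
      rw [h2, COne_tw_zero, add_zero] at h1
      rw [← tw_one ω, ← inv_mul_cancel₀ h3, tw_mul, h1, map_zero]
    subst h2
    subst h3
    rfl
  have := Om_finite hc (-E)
  have h1 := LinearMap.finrank_le_finrank_of_injective hinj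
  rw [Module.finrank_prod] at h1
  have h2 := finrank_Om hc (-E)
  have h3 : dg (-E) < 0 := by
    rw [map_neg, hE]
    have := le_max_left 1 (3 * (g : ℤ) - 2 - dg A - dg B)
    omega
  rw [l_eq_zero h3] at h2
  have h4 := hmin (A + E)
  have h5 := hmin (B + E)
  rw [map_add] at h4 h5
  rw [map_neg] at h2
  have h6 := le_max_right 1 (3 * (g : ℤ) - 2 - dg A - dg B)
  rw [← hE] at h6
  push_cast at h2
  omega

end

end Vale.Agent.P019P
end
end

section

section

/-!
# The Riemann-Roch theorem, the genus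
-/

namespace Vale.Agent.P019P

open IntermediateField

theorem CDual_tw_zero {k F : Type*} [Field k] [Field F] [Algebra k F] [CFF k F]
    (ω : Module.Dual k (Plk k F →₀ F)) : tw (0 : F) ω = 0 := by
  have h := tw_add (0 : F) 0 ω
  rw [add_zero] at h
  exact left_eq_add.mp h

/-- the differentials regular with respect to `D` are the multiples of a fixed one by the
functions in `LL k (W - D)`. -/
theorem CDual_finrank {k F : Type*} [Field k] [Field F] [Algebra k F] [CFF k F]
    {ω : Module.Dual k (Plk k F →₀ F)} {A W : Plk k F →₀ ℤ} (h0 : ω ≠ 0) (hA : ω ∈ Om A)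
    (hW : ∀ D, ω ∈ Om D ↔ D ≤ W) (D : Plk k F →₀ ℤ) :
    Module.finrank k (Om D) = Module.finrank k (LL k (W - D)) := by
  have hiff : ∀ z : F, z ≠ 0 → (tw z ω ∈ Om D ↔ z ∈ LL k (W - D)) := by
    intro z hz
    rw [tw_mem_Om hz, hW, mem_LL]
    constructor
    · intro h
      refine Or.inr fun P => ?_
      have h1 := h P
      rw [Finsupp.sub_apply, dv_apply] at h1
      rw [Finsupp.sub_apply]
      linarith
    · rintro (h | h)
      · exact absurd h hz
      · intro P
        have h1 := h P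
        rw [Finsupp.sub_apply] at h1
        rw [Finsupp.sub_apply, dv_apply]
        linarith
  have hmem : ∀ z : LL k (W - D), tw (z : F) ω ∈ Om D := by
    rintro ⟨z, hz⟩
    by_cases h : z = 0
    · subst h
      change tw (0 : F) ω ∈ Om D
      rw [CDual_tw_zero]
      exact zero_mem _
    · exact (hiff z h).2 hz
  let T : LL k (W - D) →ₗ[k] Om D :=
    { toFun := fun z => ⟨tw (z : F) ω, hmem z⟩
      map_add' := fun z w => Subtype.ext (tw_add (z : F) w ω)
      map_smul' := fun a z => Subtype.ext (tw_smul a (z : F) ω) }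
  have hT : Function.Bijective T := by
    constructor
    · rw [injective_iff_map_eq_zero]
      intro z hz
      have h1 : tw (z : F) ω = 0 := congrArg Subtype.val hz
      by_contra hne
      have h2 : (z : F) ≠ 0 := fun h => hne (Subtype.ext h)
      apply h0
      have h3 : tw (((z : F))⁻¹ * (z : F)) ω = tw ((z : F))⁻¹ (tw (z : F) ω) := tw_mul _ _ _
      rw [inv_mul_cancel₀ h2, tw_one, h1, map_zero] at h3
      exact h3
    · rintro ⟨ω', h'⟩
      obtain ⟨z, hz⟩ := exists_tw h0 hA h'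
      by_cases h : z = 0
      · refine ⟨0, Subtype.ext ?_⟩
        rw [map_zero]
        change (0 : Module.Dual k (Plk k F →₀ F)) = ω'
        rw [hz, h, CDual_tw_zero]
      · refine ⟨⟨z, (hiff z h).1 (hz ▸ h')⟩, Subtype.ext ?_⟩
        exact hz.symm
  exact (LinearEquiv.ofBijective T hT).finrank_eq.symm

/-- the Riemann-Roch theorem. -/
theorem exists_RR (k F : Type*) [Field k] [Field F] [Algebra k F] [CFF k F] :
    ∃ (g : ℕ) (κ : Plk k F →₀ ℤ), ∀ D : Plk k F →₀ ℤ,
      (Module.finrank k (LL k D) : ℤ) - Module.finrank k (LL k (κ - D)) = dg D + 1 - g := by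
  obtain ⟨g, _, c, hc⟩ := exists_riem k F
  obtain ⟨D₀, hD₀⟩ := exists_dg_eq k F (-2)
  have h1 : 0 < Module.finrank k (Om D₀) := by
    have h := finrank_Om hc D₀
    omega
  obtain ⟨ω, hω, hne⟩ : ∃ ω ∈ Om D₀, ω ≠ 0 := by
    have hnt : Nontrivial (Om D₀) := Module.nontrivial_of_finrank_pos h1
    obtain ⟨⟨ω, hω⟩, h⟩ := exists_ne (0 : Om D₀)
    exact ⟨ω, hω, fun h' => h (Subtype.ext h')⟩
  obtain ⟨W, hW⟩ := exists_dvOm hne hω
  refine ⟨g, W, fun D => ?_⟩
  rw [← CDual_finrank hne hω hW D, finrank_Om hc D]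
  ring

section

variable (k F : Type*) [Field k] [Field F] [Algebra k F] [CFF k F]

/-- the genus. -/
noncomputable def gen : ℕ := (exists_RR k F).choose

/-- a canonical divisor. -/
noncomputable def can : Plk k F →₀ ℤ := (exists_RR k F).choose_spec.choose

end

section

variable {k F : Type*} [Field k] [Field F] [Algebra k F] [CFF k F]

theorem RR (D : Plk k F →₀ ℤ) :
    (Module.finrank k (LL k D) : ℤ) - Module.finrank k (LL k (can k F - D)) =
      dg D + 1 - gen k F := (exists_RR k F).choose_spec.choose_spec D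

/-- Riemann-Roch for large degree. -/
theorem RR_large {D : Plk k F →₀ ℤ} (h : dg (can k F) < dg D) :
    (Module.finrank k (LL k D) : ℤ) = dg D + 1 - gen k F := by
  have h1 := RR D
  have h2 : Module.finrank k (LL k (can k F - D)) = 0 :=
    l_eq_zero (by rw [map_sub]; linarith)
  rw [h2] at h1
  simpa using h1

/-- the dimensions attached to the multiples of the divisor of poles. -/
theorem exists_l_pol_eq {x : F} (hx : ∀ a : k, x ≠ algebraMap k F a) :
    ∃ r₀ : ℕ, ∀ r : ℕ, r₀ ≤ r → (Module.finrank k (LL k (r • pol k x)) : ℤ) =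
      r * Module.finrank k⟮x⟯ F + 1 - gen k F := by
  have hfd : FiniteDimensional k⟮x⟯ F := (finite_of_notMem hx).2
  have hpos : 0 < Module.finrank k⟮x⟯ F := Module.finrank_pos
  refine ⟨(dg (can k F) + 1).toNat, fun r hr => ?_⟩
  have hdg : dg (r • pol k x) = r * (Module.finrank k⟮x⟯ F : ℤ) := by
    rw [map_nsmul, dg_pol hx, nsmul_eq_mul]
  rw [← hdg]
  refine RR_large ?_
  rw [hdg]
  have h1 : dg (can k F) + 1 ≤ r := Int.toNat_le.mp hr
  have h2 : (1 : ℤ) ≤ Module.finrank k⟮x⟯ F := by exact_mod_cast hpos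
  have h3 : (r : ℤ) * 1 ≤ r * (Module.finrank k⟮x⟯ F : ℤ) :=
    mul_le_mul_of_nonneg_left h2 (Int.natCast_nonneg r)
  linarith

/-- uniqueness of the genus. -/
theorem gen_unique {g : ℤ} {c : ℤ} (h : ∀ D : Plk k F →₀ ℤ, c ≤ dg D →
    (Module.finrank k (LL k D) : ℤ) = dg D + 1 - g) : g = gen k F := by
  obtain ⟨D, hD⟩ := exists_dg_eq k F (max c (dg (can k F) + 1))
  have h1 := h D (by rw [hD]; exact le_max_left _ _)
  have h2 := RR_large (D := D) (by
    rw [hD]
    exact lt_of_lt_of_le (lt_add_one _) (le_max_right _ _))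
  linarith

end

end Vale.Agent.P019P
end
end

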