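import Vale.Agent.P025.R2.H816.J03

/-! Carved out of `Vale.Agent.P019.Bd4` (function fields of one variable); generated file. -/

set_option linter.all false

attribute [local instance] O19.fr O19.tf O19.pj O19.fl

section

section

/-!
# Fields of roots of unity
-/

namespace Vale.Agent.P019P

/-- the characteristic of a field of roots of unity. -/
theorem exists_prime_char {k : Type*} [Field k] (hf : ∀ a : k, a ≠ 0 → ∃ n : ℕ, 0 < n ∧ a ^ n = 1) :
    ∃ p : ℕ, p.Prime ∧ CharP k p := by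
  obtain ⟨p, hp⟩ := CharP.exists k
  rcases CharP.char_is_prime_or_zero k p with h | h
  · exact ⟨p, h, hp⟩
  · exfalso
    subst h
    have : CharZero k := CharP.charP_to_charZero k
    obtain ⟨n, hn, h1⟩ := hf 2 two_ne_zero
    have h2 : ((2 ^ n : ℕ) : k) = ((1 : ℕ) : k) := by
      push_cast
      exact h1
    have h3 : (2 : ℕ) ^ n = 1 := Nat.cast_injective h2
    have h4 : 1 < 2 ^ n := Nat.one_lt_two_pow hn.ne'
    omega

namespace AuxFFrobA

theorem iter_fix {k : Type*} [Field k] {p m : ℕ} {a : k} (h : a ^ p ^ m = a) (j : ℕ) :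
    a ^ p ^ (m * j) = a := by
  induction j with
  | zero => simp
  | succ j ih =>
    rw [Nat.mul_succ, pow_add, pow_mul, ih, h]

theorem one_fix {k : Type*} [Field k] {p : ℕ} [Fact p.Prime] [CharP k p]
    (hf : ∀ a : k, a ≠ 0 → ∃ n : ℕ, 0 < n ∧ a ^ n = 1) (a : k) :
    ∃ m : ℕ, 0 < m ∧ a ^ p ^ m = a := by
  have hp : p.Prime := Fact.out
  by_cases ha : a = 0
  · subst ha
    exact ⟨1, one_pos, by rw [pow_one, zero_pow hp.ne_zero]⟩
  · obtain ⟨n, hn, h1⟩ := hf a ha
    obtain ⟨r, q, hq, rfl⟩ := Nat.exists_eq_pow_mul_and_not_dvd hn.ne' p hp.ne_one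
    have hq0 : 0 < q := Nat.pos_of_mul_pos_left hn |> fun h => by
      rcases Nat.eq_zero_or_pos q with h0 | h0
      · subst h0; simp at hq
      · exact h0
    have haq : a ^ q = 1 := by
      have h2 : (a ^ q) ^ p ^ r = 1 := by
        rw [← pow_mul, mul_comm]; exact h1
      have h3 : (a ^ q) ^ p ^ r = (1 : k) ^ p ^ r := by rw [h2, one_pow]
      exact iterateFrobenius_inj k p r (by
        simpa [iterateFrobenius_def] using h3)
    have hcop : Nat.Coprime p q := (Nat.Prime.coprime_iff_not_dvd hp).2 hq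
    have hmod : p ^ Nat.totient q ≡ 1 [MOD q] := Nat.ModEq.pow_totient hcop
    refine ⟨Nat.totient q, Nat.totient_pos.2 hq0, ?_⟩
    have h4 : a ^ p ^ Nat.totient q = a ^ 1 :=
      pow_eq_pow_of_modEq hmod haq
    rw [h4, pow_one]

end AuxFFrobA

/-- finitely many constants lie in a finite field. -/
theorem exists_pow_fix {k : Type*} [Field k] {p : ℕ} [Fact p.Prime] [CharP k p]
    (hf : ∀ a : k, a ≠ 0 → ∃ n : ℕ, 0 < n ∧ a ^ n = 1) (s : Finset k) :
    ∃ m : ℕ, 0 < m ∧ ∀ a ∈ s, a ^ p ^ m = a := by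
  classical
  induction s using Finset.induction_on with
  | empty => exact ⟨1, one_pos, by simp⟩
  | insert b s hb ih =>
    obtain ⟨m, hm, h⟩ := ih
    obtain ⟨m', hm', h'⟩ := AuxFFrobA.one_fix (p := p) hf b
    refine ⟨m * m', Nat.mul_pos hm hm', ?_⟩
    intro a ha
    rcases Finset.mem_insert.1 ha with h1 | h1
    · subst h1
      rw [mul_comm]
      exact AuxFFrobA.iter_fix h' m
    · exact AuxFFrobA.iter_fix (h a h1) m'

end Vale.Agent.P019P
end
end

section

section

/-!
# Invariance of the genus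
-/

namespace Vale.Agent.P019P

section

variable {k F k' F' : Type*} [Field k] [Field F] [Algebra k F] [Field k'] [Field F']
  [Algebra k' F']

/-- transport of a place along a semilinear isomorphism. -/
private def cIsoMap (e : F ≃+* F') (e₀ : k ≃+* k')
    (h : ∀ a, e (algebraMap k F a) = algebraMap k' F' (e₀ a)) (P : Plk k F) : Plk k' F' :=
  ⟨P.1.comap (e.symm : F' →+* F), by
    refine ⟨fun b => ?_, fun ht => P.2.2 ?_⟩
    · rw [ValuationSubring.mem_comap]
      have h1 : (e.symm : F' →+* F) (algebraMap k' F' b) = algebraMap k F (e₀.symm b) := by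
        rw [RingEquiv.coe_toRingHom, RingEquiv.symm_apply_eq, h, RingEquiv.apply_symm_apply]
      rw [h1]
      exact P.2.1 _
    · rw [eq_top_iff]
      intro z _
      have h1 : e z ∈ P.1.comap (e.symm : F' →+* F) := by rw [ht]; exact ValuationSubring.mem_top _
      rw [ValuationSubring.mem_comap, RingEquiv.coe_toRingHom, RingEquiv.symm_apply_apply] at h1
      exact h1⟩

private theorem mem_cIsoMap (e : F ≃+* F') (e₀ : k ≃+* k')
    (h : ∀ a, e (algebraMap k F a) = algebraMap k' F' (e₀ a)) (P : Plk k F) (w : F') :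
    w ∈ (cIsoMap e e₀ h P).1 ↔ e.symm w ∈ P.1 := Iff.rfl

/-- the bijection between the places. -/
private def cIsoEquiv (e : F ≃+* F') (e₀ : k ≃+* k')
    (h : ∀ a, e (algebraMap k F a) = algebraMap k' F' (e₀ a)) : Plk k F ≃ Plk k' F' where
  toFun := cIsoMap e e₀ h
  invFun := cIsoMap e.symm e₀.symm fun b => by
    rw [RingEquiv.symm_apply_eq, h, RingEquiv.apply_symm_apply]
  left_inv P := by
    apply Subtype.ext
    ext z
    rw [mem_cIsoMap, mem_cIsoMap, RingEquiv.symm_symm, RingEquiv.symm_apply_apply]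
  right_inv Q := by
    apply Subtype.ext
    ext w
    rw [mem_cIsoMap, mem_cIsoMap, RingEquiv.symm_symm, RingEquiv.apply_symm_apply]

private theorem ord_cIsoEquiv [CFF k F] [CFF k' F'] (e : F ≃+* F') (e₀ : k ≃+* k')
    (h : ∀ a, e (algebraMap k F a) = algebraMap k' F' (e₀ a)) (P : Plk k F) (z : F) :
    ord (cIsoEquiv e e₀ h P) (e z) = ord P z := by
  have hP := ord_spec P
  have key : IsOrd (cIsoEquiv e e₀ h P).1 fun w => ord P (e.symm w) :=
    { zero := by rw [map_zero]; exact hP.zero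
      mul := fun x y hx hy => by
        rw [map_mul]
        exact hP.mul _ _ (by simpa using hx) (by simpa using hy)
      add := fun x y hx hy hxy => by
        rw [map_add]
        refine hP.add _ _ (by simpa using hx) (by simpa using hy) ?_
        rw [← map_add, map_ne_zero_iff e.symm e.symm.injective]
        exact hxy
      mem := fun x => by
        have h1 : x ∈ (cIsoEquiv e e₀ h P).1 ↔ e.symm x ∈ P.1 := Iff.rfl
        rw [h1, hP.mem]
        simp
      one := by
        obtain ⟨π, hπ⟩ := hP.one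
        exact ⟨e π, by rw [RingEquiv.symm_apply_apply]; exact hπ⟩ }
  have h2 := IsOrd.unique (ord_spec (cIsoEquiv e e₀ h P)) key
  rw [h2]
  simp only [RingEquiv.symm_apply_apply]

private theorem mem_LL_cIso [CFF k F] [CFF k' F'] (e : F ≃+* F') (e₀ : k ≃+* k')
    (h : ∀ a, e (algebraMap k F a) = algebraMap k' F' (e₀ a)) (D : Plk k' F' →₀ ℤ) (z : F) :
    z ∈ LL k (Finsupp.equivMapDomain (cIsoEquiv e e₀ h).symm D) ↔ e z ∈ LL k' D := by
  rw [mem_LL, mem_LL, map_eq_zero_iff e e.injective]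
  refine or_congr Iff.rfl ⟨fun H Q => ?_, fun H P => ?_⟩
  · obtain ⟨P, rfl⟩ := (cIsoEquiv e e₀ h).surjective Q
    rw [ord_cIsoEquiv]
    have := H P
    rwa [Finsupp.equivMapDomain_apply, Equiv.symm_symm] at this
  · rw [Finsupp.equivMapDomain_apply, Equiv.symm_symm, ← ord_cIsoEquiv e e₀ h]
    exact H _

private theorem finrank_cIso [CFF k F] [CFF k' F'] (e : F ≃+* F') (e₀ : k ≃+* k')
    (h : ∀ a, e (algebraMap k F a) = algebraMap k' F' (e₀ a)) (D : Plk k' F' →₀ ℤ) :
    Module.finrank k (LL k (Finsupp.equivMapDomain (cIsoEquiv e e₀ h).symm D)) =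
      Module.finrank k' (LL k' D) := by
  let j : LL k (Finsupp.equivMapDomain (cIsoEquiv e e₀ h).symm D) ≃+ LL k' D :=
    { toFun := fun z => ⟨e z.1, (mem_LL_cIso e e₀ h D z.1).1 z.2⟩
      invFun := fun w => ⟨e.symm w.1, (mem_LL_cIso e e₀ h D _).2 (by
        rw [RingEquiv.apply_symm_apply]; exact w.2)⟩
      left_inv := fun z => Subtype.ext (e.symm_apply_apply z.1)
      right_inv := fun w => Subtype.ext (e.apply_symm_apply w.1)
      map_add' := fun x y => Subtype.ext (map_add e x.1 y.1) }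
  have h1 := lift_rank_eq_of_equiv_equiv (e₀ : k → k') j e₀.bijective (fun a m => by
    apply Subtype.ext
    change e (a • m.1) = e₀ a • e m.1
    rw [Algebra.smul_def, Algebra.smul_def, map_mul, h])
  have h2 := congrArg Cardinal.toNat h1
  rwa [Cardinal.toNat_lift, Cardinal.toNat_lift] at h2

private theorem dg_cIso {A B : Type*} (φ : A ≃ B) (D : A →₀ ℤ) :
    dg (Finsupp.equivMapDomain φ D) = dg D := by
  rw [Finsupp.equivMapDomain_eq_mapDomain]
  unfold dg
  rw [Finsupp.liftAddHom_apply, Finsupp.liftAddHom_apply,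
    Finsupp.sum_mapDomain_index_addMonoidHom]

end

/-- the genus is invariant under (semilinear) isomorphisms. -/
theorem gen_eq {k F k' F' : Type*} [Field k] [Field F] [Algebra k F] [CFF k F]
    [Field k'] [Field F'] [Algebra k' F'] [CFF k' F'] (e : F ≃+* F') (e₀ : k ≃+* k')
    (h : ∀ a, e (algebraMap k F a) = algebraMap k' F' (e₀ a)) : gen k F = gen k' F' := by
  have key : ((gen k F : ℕ) : ℤ) = gen k' F' := by
    refine gen_unique (c := dg (can k F) + 1) fun D hD => ?_
    have h1 := dg_cIso (cIsoEquiv e e₀ h).symm D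
    rw [← finrank_cIso e e₀ h D, ← h1]
    exact RR_large (by rw [h1]; omega)
  exact_mod_cast key

end Vale.Agent.P019P
end
end

section

section

/-!
# Semilinear isomorphisms act on places and divisors
-/

namespace Vale.Agent.P019P

open Polynomial IntermediateField

namespace AuxFAct

section

variable {F : Type*} [Field F] {O : ValuationSubring F} {f g : F → ℤ}

theorem f_one (hf : IsOrd O f) : f 1 = 0 := by
  have h := hf.mul 1 1 one_ne_zero one_ne_zero
  rw [mul_one] at h
  omega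

theorem f_inv (hf : IsOrd O f) {z : F} (hz : z ≠ 0) : f z⁻¹ = - f z := by
  have h := hf.mul z z⁻¹ hz (inv_ne_zero hz)
  rw [mul_inv_cancel₀ hz, f_one hf] at h
  omega

theorem f_pow (hf : IsOrd O f) {z : F} (hz : z ≠ 0) (n : ℕ) : f (z ^ n) = n * f z := by
  induction n with
  | zero => rw [pow_zero, f_one hf]; simp
  | succ n ih =>
    rw [pow_succ, hf.mul _ _ (pow_ne_zero n hz) hz, ih]
    push_cast
    ring

theorem f_zpow (hf : IsOrd O f) {z : F} (hz : z ≠ 0) (n : ℤ) : f (z ^ n) = n * f z := by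
  rcases Int.eq_nat_or_neg n with ⟨m, rfl | rfl⟩
  · rw [zpow_natCast, f_pow hf hz]
  · rw [zpow_neg, zpow_natCast, f_inv hf (pow_ne_zero m hz), f_pow hf hz]
    ring

theorem nonneg_iff (hf : IsOrd O f) (hg : IsOrd O g) {z : F} (hz : z ≠ 0) :
    0 ≤ f z ↔ 0 ≤ g z := by
  have h1 := hf.mem z
  have h2 := hg.mem z
  constructor
  · intro h
    exact (h2.1 (h1.2 (Or.inr h))).resolve_left hz
  · intro h
    exact (h1.1 (h2.2 (Or.inr h))).resolve_left hz

theorem zero_iff (hf : IsOrd O f) (hg : IsOrd O g) {z : F} (hz : z ≠ 0) (h : f z = 0) :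
    g z = 0 := by
  have h1 := (nonneg_iff hf hg hz).1 h.ge
  have h2 := (nonneg_iff hf hg (inv_ne_zero hz)).1 (by rw [f_inv hf hz, h]; simp)
  rw [f_inv hg hz] at h2
  omega

end

end AuxFAct

open AuxFAct in
/-- the normalised valuation is unique. -/
theorem IsOrd.ext {F : Type*} [Field F] {O : ValuationSubring F} {f g : F → ℤ}
    (hf : IsOrd O f) (hg : IsOrd O g) : f = g := by
  obtain ⟨π, hπ⟩ := hf.one
  obtain ⟨π', hπ'⟩ := hg.one
  have hπ0 : π ≠ 0 := by
    rintro rfl
    rw [hf.zero] at hπ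
    exact zero_ne_one hπ
  have hπ0' : π' ≠ 0 := by
    rintro rfl
    rw [hg.zero] at hπ'
    exact zero_ne_one hπ'
  have key : ∀ z, z ≠ 0 → g z = f z * g π := by
    intro z hz
    have h1 : z * π ^ (-f z) ≠ 0 := mul_ne_zero hz (zpow_ne_zero _ hπ0)
    have h2 : f (z * π ^ (-f z)) = 0 := by
      rw [hf.mul _ _ hz (zpow_ne_zero _ hπ0), f_zpow hf hπ0, hπ]
      ring
    have h3 := zero_iff hf hg h1 h2
    rw [hg.mul _ _ hz (zpow_ne_zero _ hπ0), f_zpow hg hπ0] at h3
    linarith
  have h0 : 0 ≤ g π := (nonneg_iff hf hg hπ0).1 (by rw [hπ]; exact zero_le_one)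
  have h1 := key π' hπ0'
  rw [hπ'] at h1
  have h2 : g π = 1 := Int.eq_one_of_mul_eq_one_left h0 h1.symm
  funext z
  by_cases hz : z = 0
  · rw [hz, hf.zero, hg.zero]
  · rw [key z hz, h2, mul_one]

section

variable {k F k' F' : Type*} [Field k] [Field F] [Algebra k F] [CFF k F]
  [Field k'] [Field F'] [Algebra k' F'] [CFF k' F']

/-- the action of a semilinear isomorphism on places. -/
noncomputable def plEquiv (e : F ≃+* F') (e₀ : k ≃+* k')
    (h : ∀ a, e (algebraMap k F a) = algebraMap k' F' (e₀ a)) : Plk k F ≃ Plk k' F' where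
  toFun P := ⟨P.1.comap (e.symm : F' →+* F), by
    refine ⟨fun b => ?_, fun hP => P.2.2 ?_⟩
    · rw [ValuationSubring.mem_comap]
      have h1 : (e.symm : F' →+* F) (algebraMap k' F' b) = algebraMap k F (e₀.symm b) := by
        have h2 := h (e₀.symm b)
        rw [RingEquiv.apply_symm_apply] at h2
        rw [← h2]
        exact e.symm_apply_apply _
      rw [h1]
      exact P.2.1 _
    · ext z
      refine ⟨fun _ => ValuationSubring.mem_top z, fun _ => ?_⟩
      have h1 : e z ∈ P.1.comap (e.symm : F' →+* F) := by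
        rw [hP]; exact ValuationSubring.mem_top _
      rw [ValuationSubring.mem_comap] at h1
      have h2 : (e.symm : F' →+* F) (e z) = z := e.symm_apply_apply z
      rwa [h2] at h1⟩
  invFun P := ⟨P.1.comap (e : F →+* F'), by
    refine ⟨fun b => ?_, fun hP => P.2.2 ?_⟩
    · rw [ValuationSubring.mem_comap]
      have h1 : (e : F →+* F') (algebraMap k F b) = algebraMap k' F' (e₀ b) := h b
      rw [h1]
      exact P.2.1 _
    · ext z
      refine ⟨fun _ => ValuationSubring.mem_top z, fun _ => ?_⟩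
      have h1 : e.symm z ∈ P.1.comap (e : F →+* F') := by
        rw [hP]; exact ValuationSubring.mem_top _
      rw [ValuationSubring.mem_comap] at h1
      have h2 : (e : F →+* F') (e.symm z) = z := e.apply_symm_apply z
      rwa [h2] at h1⟩
  left_inv := by
    intro P
    refine Subtype.ext (ValuationSubring.ext _ _ fun z => ?_)
    change (e.symm : F' →+* F) ((e : F →+* F') z) ∈ P.1 ↔ z ∈ P.1
    rw [show (e.symm : F' →+* F) ((e : F →+* F') z) = z from e.symm_apply_apply z]
  right_inv := by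
    intro P
    refine Subtype.ext (ValuationSubring.ext _ _ fun z => ?_)
    change (e : F →+* F') ((e.symm : F' →+* F) z) ∈ P.1 ↔ z ∈ P.1
    rw [show (e : F →+* F') ((e.symm : F' →+* F) z) = z from e.apply_symm_apply z]

theorem AuxFAct.mem_plEquiv (e : F ≃+* F') (e₀ : k ≃+* k')
    (h : ∀ a, e (algebraMap k F a) = algebraMap k' F' (e₀ a)) (P : Plk k F) (z : F') :
    z ∈ (plEquiv e e₀ h P).1 ↔ e.symm z ∈ P.1 := Iff.rfl

theorem ord_plEquiv (e : F ≃+* F') (e₀ : k ≃+* k')
    (h : ∀ a, e (algebraMap k F a) = algebraMap k' F' (e₀ a)) (P : Plk k F) (z : F) :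
    ord (plEquiv e e₀ h P) (e z) = ord P z := by
  have hP := ord_spec P
  have h1 : IsOrd (plEquiv e e₀ h P).1 (fun z => ord P (e.symm z)) := by
    have hne : ∀ x : F', x ≠ 0 → e.symm x ≠ 0 := fun x hx h0 =>
      hx ((map_eq_zero_iff e.symm e.symm.injective).1 h0)
    refine ⟨?_, ?_, ?_, ?_, ?_⟩
    · change ord P (e.symm 0) = 0
      rw [map_zero]
      exact hP.zero
    · intro x y hx hy
      change ord P (e.symm (x * y)) = ord P (e.symm x) + ord P (e.symm y)
      rw [map_mul]
      exact hP.mul _ _ (hne x hx) (hne y hy)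
    · intro x y hx hy hxy
      change min (ord P (e.symm x)) (ord P (e.symm y)) ≤ ord P (e.symm (x + y))
      have h3 := hne _ hxy
      rw [map_add] at h3 ⊢
      exact hP.add _ _ (hne x hx) (hne y hy) h3
    · intro x
      rw [AuxFAct.mem_plEquiv, hP.mem, map_eq_zero_iff e.symm e.symm.injective]
    · obtain ⟨π, hπ⟩ := hP.one
      exact ⟨e π, by change ord P (e.symm (e π)) = 1; rw [e.symm_apply_apply]; exact hπ⟩
  have h2 := IsOrd.ext (ord_spec (plEquiv e e₀ h P)) h1
  rw [h2]
  change ord P (e.symm (e z)) = ord P z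
  rw [e.symm_apply_apply]

theorem dv_plEquiv (e : F ≃+* F') (e₀ : k ≃+* k')
    (h : ∀ a, e (algebraMap k F a) = algebraMap k' F' (e₀ a)) (z : F) :
    dv k' (e z) = (dv k z).mapDomain (plEquiv e e₀ h) := by
  ext Q
  obtain ⟨P, rfl⟩ := (plEquiv e e₀ h).surjective Q
  rw [Finsupp.mapDomain_apply (plEquiv e e₀ h).injective, dv_apply, dv_apply, ord_plEquiv]

end

section

variable {k F : Type*} [Field k] [Field F] [Algebra k F] [CFF k F]

theorem semi_pow {e : F ≃+* F} {e₀ : k ≃+* k}
    (h : ∀ a, e (algebraMap k F a) = algebraMap k F (e₀ a)) (n : ℕ) (a : k) :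
    (e ^ n) (algebraMap k F a) = algebraMap k F ((e₀ ^ n) a) := by
  induction n generalizing a with
  | zero => rfl
  | succ n ih =>
    rw [pow_succ, pow_succ, RingAut.mul_apply, RingAut.mul_apply, h, ih]

theorem plEquiv_pow (e : F ≃+* F) (e₀ : k ≃+* k)
    (h : ∀ a, e (algebraMap k F a) = algebraMap k F (e₀ a)) (n : ℕ) :
    (plEquiv e e₀ h : Equiv.Perm (Plk k F)) ^ n = plEquiv (e ^ n) (e₀ ^ n) (semi_pow h n) := by
  induction n with
  | zero =>
    ext P
    rfl
  | succ n ih =>
    refine Equiv.ext fun P => ?_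
    refine Subtype.ext (ValuationSubring.ext _ _ fun z => ?_)
    have h1 : ((plEquiv e e₀ h : Equiv.Perm (Plk k F)) ^ (n + 1)) P =
        plEquiv e e₀ h (((plEquiv e e₀ h : Equiv.Perm (Plk k F)) ^ n) P) := by
      rw [pow_succ', Equiv.Perm.mul_apply]
    rw [h1, AuxFAct.mem_plEquiv, AuxFAct.mem_plEquiv, ih, AuxFAct.mem_plEquiv]
    have h2 : (e ^ (n + 1)).symm z = (e ^ n).symm (e.symm z) := by
      rw [RingEquiv.symm_apply_eq, pow_succ', RingAut.mul_apply, RingEquiv.apply_symm_apply,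
        RingEquiv.apply_symm_apply]
    rw [h2]

end

end Vale.Agent.P019P
end
end

section

section

/-!
# Periodic places
-/

namespace Vale.Agent.P019P

open Polynomial IntermediateField

variable {k F : Type*} [Field k] [Field F] [Algebra k F] [CFF k F] {p m : ℕ} [Fact p.Prime]
  [CharP k p]

namespace AuxFPer

theorem const_unique {P : Plk k F} {x : F} {c c' : k} (h : 0 < ord P (x - algebraMap k F c))
    (h' : 0 < ord P (x - algebraMap k F c')) : c = c' := by
  by_contra hne
  have h1 : x - algebraMap k F c ≠ 0 := by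
    intro h0
    rw [h0, (ord_spec P).zero] at h
    exact lt_irrefl _ h
  have h2 : x - algebraMap k F c' ≠ 0 := by
    intro h0
    rw [h0, (ord_spec P).zero] at h'
    exact lt_irrefl _ h'
  have h3 : (x - algebraMap k F c') + -(x - algebraMap k F c) = algebraMap k F (c - c') := by
    rw [map_sub]; ring
  have h4 : algebraMap k F (c - c') ≠ 0 := by
    rw [Ne, map_eq_zero, sub_eq_zero]
    exact hne
  have h5 := ord_le_add P h2 (neg_ne_zero.2 h1) (by rw [h3]; exact h4)
  rw [h3, ord_const, ord_neg] at h5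
  rcases min_le_iff.1 h5 with h6 | h6
  · exact absurd h' (not_lt.2 h6)
  · exact absurd h (not_lt.2 h6)

theorem pow_x {σ : F ≃+* F} {x : F} (hσ : σ x = x) (n : ℕ) : (σ ^ n) x = x := by
  induction n with
  | zero => rfl
  | succ n ih => rw [pow_succ, RingAut.mul_apply, hσ, ih]

theorem pow_c {σ₀ : k ≃+* k} (h0 : ∀ a : k, σ₀ a = a ^ p ^ m) (n : ℕ) (a : k) :
    (σ₀ ^ n) a = a ^ p ^ (m * n) := by
  induction n generalizing a with
  | zero => simp
  | succ n ih =>
    rw [pow_succ, RingAut.mul_apply, ih, h0, ← pow_mul, ← pow_add, mul_add, mul_one, add_comm]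

theorem ord_pow_sub (σ : F ≃+* F) (σ₀ : k ≃+* k) (h0 : ∀ a : k, σ₀ a = a ^ p ^ m)
    (h : ∀ a, σ (algebraMap k F a) = algebraMap k F (σ₀ a)) {x : F} (hσ : σ x = x) (n : ℕ)
    (P : Plk k F) (c : k) :
    ord (((plEquiv σ σ₀ h : Equiv.Perm (Plk k F)) ^ n) P)
      (x - algebraMap k F (c ^ p ^ (m * n))) = ord P (x - algebraMap k F c) := by
  have h1 := ord_plEquiv (σ ^ n) (σ₀ ^ n) (semi_pow h n) P (x - algebraMap k F c)
  rw [← plEquiv_pow, map_sub, pow_x hσ, semi_pow h n, pow_c h0] at h1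
  exact h1

theorem ord_pow_x (σ : F ≃+* F) (σ₀ : k ≃+* k)
    (h : ∀ a, σ (algebraMap k F a) = algebraMap k F (σ₀ a)) {x : F} (hσ : σ x = x) (n : ℕ)
    (P : Plk k F) :
    ord (((plEquiv σ σ₀ h : Equiv.Perm (Plk k F)) ^ n) P) x = ord P x := by
  have h1 := ord_plEquiv (σ ^ n) (σ₀ ^ n) (semi_pow h n) P x
  rw [← plEquiv_pow, pow_x hσ] at h1
  exact h1

theorem per_of_finite {α : Type*} (s : Equiv.Perm α) {A : Set α} (hA : A.Finite)
    (hs : ∀ a ∈ A, s a ∈ A) {a : α} (ha : a ∈ A) : ∃ n : ℕ, 0 < n ∧ (s ^ n) a = a := by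
  have h1 : ∀ n : ℕ, (s ^ n) a ∈ A := by
    intro n
    induction n with
    | zero => exact ha
    | succ n ih => rw [pow_succ', Equiv.Perm.mul_apply]; exact hs _ ih
  obtain ⟨i, j, hij, h2⟩ := hA.exists_lt_map_eq_of_forall_mem h1
  refine ⟨j - i, Nat.sub_pos_of_lt hij, ?_⟩
  have h3 : s ^ j = s ^ i * s ^ (j - i) := by rw [← pow_add, Nat.add_sub_cancel' hij.le]
  rw [h3, Equiv.Perm.mul_apply] at h2
  exact ((s ^ i).injective h2).symm

end AuxFPer

open AuxFPer

/-- there are only finitely many `q ^ n`-rational places. -/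
theorem pl_fin (hm : 0 < m) (σ : F ≃+* F) (σ₀ : k ≃+* k) (h0 : ∀ a : k, σ₀ a = a ^ p ^ m)
    (h : ∀ a, σ (algebraMap k F a) = algebraMap k F (σ₀ a)) {x : F}
    (hx : ∀ a : k, x ≠ algebraMap k F a) (hσ : σ x = x) {n : ℕ} (hn : 0 < n) :
    {P : Plk k F | ((plEquiv σ σ₀ h : Equiv.Perm (Plk k F)) ^ n) P = P}.Finite := by
  classical
  have hx0 : x ≠ 0 := fun h1 => hx 0 (by rw [h1, map_zero])
  have hp : 1 < p := (Fact.out : p.Prime).one_lt
  have hq : 1 < p ^ (m * n) := Nat.one_lt_pow (Nat.mul_pos hm hn).ne' hp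
  let R : Finset k := (X ^ p ^ (m * n) - X : k[X]).roots.toFinset
  refine Set.Finite.subset (Set.Finite.union (dv_finite hx0)
    (Set.Finite.biUnion R.finite_toSet fun c _ => fib_finite hx c)) ?_
  intro P hP
  change ((plEquiv σ σ₀ h : Equiv.Perm (Plk k F)) ^ n) P = P at hP
  by_cases hxP : x ∈ P.1
  · right
    obtain ⟨c, hc⟩ := exists_cst P hxP
    have hc := hc.resolve_left (hx c)
    have h1 := ord_pow_sub σ σ₀ h0 h hσ n P c
    rw [hP] at h1
    rw [← h1] at hc
    have h2 : 0 < ord P (x - algebraMap k F c) := by rw [← h1]; exact hc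
    have h3 : c ^ p ^ (m * n) = c := const_unique hc h2
    have h4 : c ∈ R := by
      rw [Multiset.mem_toFinset, mem_roots (FiniteField.X_pow_card_sub_X_ne_zero k hq),
        IsRoot.def, eval_sub, eval_pow, eval_X, h3, sub_self]
    exact Set.mem_biUnion (Finset.mem_coe.2 h4) h2
  · left
    change ord P x ≠ 0
    intro h1
    exact hxP (((ord_spec P).mem x).2 (Or.inr h1.ge))

/-- every place is rational over a finite field. -/
theorem pl_per (hf : ∀ a : k, a ≠ 0 → ∃ n : ℕ, 0 < n ∧ a ^ n = 1)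
    (σ : F ≃+* F) (σ₀ : k ≃+* k) (h0 : ∀ a : k, σ₀ a = a ^ p ^ m)
    (h : ∀ a, σ (algebraMap k F a) = algebraMap k F (σ₀ a)) {x : F}
    (hx : ∀ a : k, x ≠ algebraMap k F a) (hσ : σ x = x) (P : Plk k F) :
    ∃ n : ℕ, 0 < n ∧ ((plEquiv σ σ₀ h : Equiv.Perm (Plk k F)) ^ n) P = P := by
  classical
  have hx0 : x ≠ 0 := fun h1 => hx 0 (by rw [h1, map_zero])
  by_cases hxP : x ∈ P.1
  · obtain ⟨c, hc⟩ := exists_cst P hxP
    have hc := hc.resolve_left (hx c)
    obtain ⟨r, hr, hcr⟩ := exists_pow_fix (p := p) hf {c}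
    have hcr := hcr c (Finset.mem_singleton_self c)
    have h1 : ∀ j : ℕ, c ^ p ^ (j * r) = c := by
      intro j
      induction j with
      | zero => simp
      | succ j ih => rw [add_mul, one_mul, pow_add, pow_mul, ih, hcr]
    obtain ⟨n, hn, hPn⟩ := per_of_finite ((plEquiv σ σ₀ h : Equiv.Perm (Plk k F)) ^ r)
      (fib_finite hx c) (fun Q hQ => by
        have h2 := ord_pow_sub σ σ₀ h0 h hσ r Q c
        rw [h1 m] at h2
        change 0 < ord _ _
        rw [h2]
        exact hQ) hc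
    exact ⟨r * n, Nat.mul_pos hr hn, by rw [pow_mul]; exact hPn⟩
  · have h1 : ord P x ≠ 0 := fun h1 => hxP (((ord_spec P).mem x).2 (Or.inr h1.ge))
    refine per_of_finite _ (dv_finite hx0) (fun Q hQ => ?_) h1
    have h2 := ord_pow_x σ σ₀ h hσ 1 Q
    rw [pow_one] at h2
    change ord _ x ≠ 0
    rw [h2]
    exact hQ

end Vale.Agent.P019P
end
end

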