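import Vale.Agent.P025.R2.H816.J03
import Vale.Agent.P025.R2.H816.J06

/-! Carved out of `Vale.Agent.P019.Bd4` (function fields of one variable); generated file. -/

set_option linter.all false

attribute [local instance] O19.fr O19.tf O19.pj O19.fl

section

section

/-!
# Functions with poles at one place
-/

namespace Vale.Agent.P019P

open Polynomial IntermediateField

variable {k F : Type*} [Field k] [Field F] [Algebra k F] [CFF k F]

omit [CFF k F] in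
theorem h4RRA_dg_single (P : Plk k F) (n : ℤ) : dg (Finsupp.single P n) = n := by
  simp [dg]

omit [CFF k F] in
theorem h4RRA_single_self (P : Plk k F) (n : ℤ) : (Finsupp.single P n : Plk k F →₀ ℤ) P = n :=
  Finsupp.single_eq_same

omit [CFF k F] in
theorem h4RRA_single_ne {P Q : Plk k F} (h : Q ≠ P) (n : ℤ) :
    (Finsupp.single P n : Plk k F →₀ ℤ) Q = 0 := by
  classical
  rw [Finsupp.single_apply, if_neg (fun e => h e.symm)]

variable (k F) in
theorem h4_dg_can : dg (can k F) = 2 * (gen k F : ℤ) - 2 := by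
  have h1 := RR (0 : Plk k F →₀ ℤ)
  have h2 := RR (can k F)
  rw [l_zero, sub_zero, map_zero] at h1
  rw [sub_self, l_zero] at h2
  push_cast at h1 h2
  linarith

theorem h4_l_eq {D : Plk k F →₀ ℤ} (h : 2 * (gen k F : ℤ) - 1 ≤ dg D) :
    (Module.finrank k (LL k D) : ℤ) = dg D + 1 - gen k F :=
  RR_large (by rw [h4_dg_can]; linarith)

/-- functions with given order at a place. -/
theorem h4_exact {D : Plk k F →₀ ℤ} (P : Plk k F) (h : 2 * (gen k F : ℤ) ≤ dg D) :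
    ∃ z : F, z ≠ 0 ∧ (∀ Q, -D Q ≤ ord Q z) ∧ ord P z = -D P := by
  by_contra hcon
  push Not at hcon
  have hle : LL k D ≤ LL k (D - Finsupp.single P 1) := by
    intro z hz
    rcases mem_LL.1 hz with h0 | h1
    · exact mem_LL.2 (Or.inl h0)
    · by_cases hz0 : z = 0
      · exact mem_LL.2 (Or.inl hz0)
      refine mem_LL.2 (Or.inr fun Q => ?_)
      have h2 := hcon z hz0 h1
      by_cases hQ : Q = P
      · subst hQ
        rw [Finsupp.sub_apply, h4RRA_single_self]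
        have h3 := h1 Q
        omega
      · rw [Finsupp.sub_apply, h4RRA_single_ne hQ]
        have h3 := h1 Q
        omega
  have h1 := h4_l_eq (D := D) (by linarith)
  have hdg : dg (D - Finsupp.single P 1) = dg D - 1 := by
    rw [map_sub, h4RRA_dg_single]
  have h2 := h4_l_eq (D := D - Finsupp.single P 1) (by rw [hdg]; linarith)
  have h3 : Module.finrank k (LL k D) ≤ Module.finrank k (LL k (D - Finsupp.single P 1)) :=
    Submodule.finrank_mono hle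
  rw [hdg] at h2
  omega

theorem mem_LP {P₀ : Plk k F} {n : ℕ} {z : F} :
    z ∈ LP P₀ n ↔ z ∈ RO P₀ ∧ (z = 0 ∨ -(n : ℤ) ≤ ord P₀ z) := by
  constructor
  · intro h
    rcases mem_LL.1 h with h0 | h1
    · exact ⟨mem_RO.2 fun P _ => Or.inl h0, Or.inl h0⟩
    · refine ⟨mem_RO.2 fun P hP => Or.inr ?_, Or.inr ?_⟩
      · have h2 := h1 P
        rw [h4RRA_single_ne hP] at h2
        omega
      · have h2 := h1 P₀
        rwa [h4RRA_single_self] at h2
  · rintro ⟨h1, h2⟩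
    rcases h2 with h0 | h2
    · exact mem_LL.2 (Or.inl h0)
    by_cases hz : z = 0
    · exact mem_LL.2 (Or.inl hz)
    refine mem_LL.2 (Or.inr fun P => ?_)
    by_cases hP : P = P₀
    · subst hP
      rwa [h4RRA_single_self]
    · rw [h4RRA_single_ne hP, neg_zero]
      exact (mem_RO.1 h1 P hP).resolve_left hz

theorem LP_mono (P₀ : Plk k F) {m n : ℕ} (h : m ≤ n) : LP P₀ m ≤ LP P₀ n := by
  intro z hz
  obtain ⟨h1, h2⟩ := mem_LP.1 hz
  refine mem_LP.2 ⟨h1, h2.imp_right fun h3 => ?_⟩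
  omega

theorem LP_mul {P₀ : Plk k F} {m n : ℕ} {z w : F} (hz : z ∈ LP P₀ m) (hw : w ∈ LP P₀ n) :
    z * w ∈ LP P₀ (m + n) := by
  obtain ⟨h1, h2⟩ := mem_LP.1 hz
  obtain ⟨h3, h4⟩ := mem_LP.1 hw
  refine mem_LP.2 ⟨mul_mem h1 h3, ?_⟩
  rcases h2 with h2 | h2
  · left; rw [h2, zero_mul]
  rcases h4 with h4 | h4
  · left; rw [h4, mul_zero]
  by_cases hz0 : z = 0
  · left; rw [hz0, zero_mul]
  by_cases hw0 : w = 0
  · left; rw [hw0, mul_zero]
  right
  rw [ord_mul P₀ hz0 hw0]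
  push_cast
  linarith

theorem LP_pow {P₀ : Plk k F} {m : ℕ} {z : F} (hz : z ∈ LP P₀ m) (n : ℕ) :
    z ^ n ∈ LP P₀ (n * m) := by
  obtain ⟨h1, h2⟩ := mem_LP.1 hz
  refine mem_LP.2 ⟨pow_mem h1 n, ?_⟩
  rcases h2 with h2 | h2
  · rcases Nat.eq_zero_or_pos n with rfl | hn
    · right
      rw [pow_zero, ord_one]
      simp
    · left; rw [h2, zero_pow hn.ne']
  · right
    rw [ord_pow]
    push_cast
    have h3 : (0 : ℤ) ≤ n := Int.natCast_nonneg _
    have h4 := mul_le_mul_of_nonneg_left h2 h3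
    linarith

theorem LP_one (P₀ : Plk k F) (n : ℕ) : (1 : F) ∈ LP P₀ n := by
  refine mem_LP.2 ⟨one_mem _, Or.inr ?_⟩
  rw [ord_one]
  simp

theorem exists_mem_LP {P₀ : Plk k F} {z : F} (hz : z ∈ RO P₀) : ∃ n : ℕ, z ∈ LP P₀ n := by
  refine ⟨(-(ord P₀ z)).toNat, mem_LP.2 ⟨hz, Or.inr ?_⟩⟩
  have := Int.self_le_toNat (-(ord P₀ z))
  linarith

theorem h4_const {P₀ : Plk k F} {z : F} (hz : z ∈ RO P₀) (h : 0 ≤ ord P₀ z) :
    ∃ c : k, z = algebraMap k F c := by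
  apply LL_zero_le
  by_cases hz0 : z = 0
  · exact mem_LL.2 (Or.inl hz0)
  refine mem_LL.2 (Or.inr fun P => ?_)
  rw [Finsupp.zero_apply, neg_zero]
  by_cases hP : P = P₀
  · rw [hP]; exact h
  · exact (mem_RO.1 hz P hP).resolve_left hz0

theorem h4_ord_le (P₀ : Plk k F) {z : F} (hz : z ∈ RO P₀) (hz0 : z ≠ 0) : ord P₀ z ≤ 0 := by
  by_contra hcon
  push Not at hcon
  obtain ⟨c, hc⟩ := h4_const hz hcon.le
  rw [hc, ord_const] at hcon
  exact lt_irrefl _ hcon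

theorem h4RRA_RO_ord (P₀ : Plk k F) {n : ℕ} (h : 2 * gen k F ≤ n) :
    ∃ z : F, z ∈ RO P₀ ∧ z ≠ 0 ∧ ord P₀ z = -(n : ℤ) := by
  obtain ⟨z, hz0, h1, h2⟩ := h4_exact (D := Finsupp.single P₀ (n : ℤ)) P₀ (by
    rw [h4RRA_dg_single]; exact_mod_cast h)
  have h3 : z ∈ LP P₀ n := mem_LL.2 (Or.inr h1)
  rw [h4RRA_single_self] at h2
  exact ⟨z, (mem_LP.1 h3).1, hz0, h2⟩

theorem exists_ne_place (P₀ : Plk k F) : ∃ P : Plk k F, P ≠ P₀ := by
  obtain ⟨z, _, hz0, h2⟩ := h4RRA_RO_ord P₀ (n := 2 * gen k F + 1) (by omega)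
  have h3 : ord P₀ z < 0 := by
    rw [h2]; push_cast; omega
  obtain ⟨P, hP⟩ := exists_zero (k := k) (z := z) (by
    intro a ha
    rw [ha, ord_const] at h3
    exact lt_irrefl _ h3)
  refine ⟨P, fun h => ?_⟩
  rw [h] at hP
  exact lt_asymm hP h3

theorem exists_RO_ord (P₀ : Plk k F) {n : ℕ} (h : 2 * gen k F ≤ n) :
    ∃ z : F, z ∈ RO P₀ ∧ z ≠ 0 ∧ ord P₀ z = -(n : ℤ) :=
  h4RRA_RO_ord P₀ h

theorem l_LP (P₀ : Plk k F) {n : ℕ} (h : 2 * gen k F ≤ n + 1) :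
    (Module.finrank k (LP P₀ n) : ℤ) = n + 1 - gen k F := by
  have h1 := h4_l_eq (D := Finsupp.single P₀ (n : ℤ)) (by
    rw [h4RRA_dg_single]; omega)
  rwa [h4RRA_dg_single] at h1

/-- the dimension of the functions of bounded degree is at most `n + 1`. -/
theorem l_LP_le (P₀ : Plk k F) (n : ℕ) : Module.finrank k (LP P₀ n) ≤ n + 1 := by
  have h0 : (0 : Plk k F →₀ ℤ) ≤ Finsupp.single P₀ (n : ℤ) := by
    intro P
    by_cases hP : P = P₀
    · rw [hP, h4RRA_single_self, Finsupp.zero_apply]; exact Int.natCast_nonneg _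
    · rw [h4RRA_single_ne hP, Finsupp.zero_apply]
  have h1 := l_sub_le h0
  rw [l_zero, map_zero, h4RRA_dg_single] at h1
  push_cast at h1
  have h2 : (Module.finrank k (LL k (Finsupp.single P₀ (n : ℤ))) : ℤ) ≤ n + 1 := by linarith
  exact_mod_cast h2

end Vale.Agent.P019P
end
end

section

section

/-!
# Models: rings with a degree basis which consist of all functions with poles only at infinity
-/

namespace Vale.Agent.P019P

open Polynomial IntermediateField TensorProduct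

/-- models of function fields. -/
structure HM {K R F : Type*} [Field K] [CommRing R] [Algebra K R] [Field F] [Algebra R F]
    [Algebra K F] [CFF K F] {S : Set ℕ} (b : Module.Basis S K R) (g : ℕ) (P₀ : Plk K F) :
    Prop where
  db : IsDB b
  sg : Sgp g S
  ord : ∀ z : R, z ≠ 0 → ord P₀ (algebraMap R F z) = -(dgr b z : ℤ)
  full : ∀ w : F, w ∈ RO P₀ → ∃ z : R, algebraMap R F z = w

variable {K R F : Type*} [Field K] [IsAlgClosed K] [CommRing R] [Algebra K R] [Field F]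
  [Algebra R F] [IsFractionRing R F] [Algebra K F] [IsScalarTower K R F] {S : Set ℕ} {g : ℕ}
  {b : Module.Basis S K R} [CFF K F] {P₀ : Plk K F}

theorem HM.mem_RO (h : HM b g P₀) (z : R) : algebraMap R F z ∈ RO P₀ :=
  h4_RO h.db h.sg h.ord z

theorem HM.mem_LP_iff (h : HM b g P₀) {n : ℕ} (w : F) :
    w ∈ LP P₀ n ↔ ∃ z ∈ fil b n, algebraMap R F z = w := by
  have hinj : Function.Injective (algebraMap R F) := IsFractionRing.injective R F
  rw [mem_LP]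
  constructor
  · rintro ⟨h1, h2⟩
    obtain ⟨z, rfl⟩ := h.full w h1
    refine ⟨z, ?_, rfl⟩
    by_cases hz : z = 0
    · rw [hz]
      exact Submodule.zero_mem _
    · have hw : algebraMap R F z ≠ 0 := (map_ne_zero_iff _ hinj).2 hz
      have h3 := h2.resolve_left hw
      rw [h.ord z hz] at h3
      exact mem_fil_iff.2 (by omega)
  · rintro ⟨z, hz, rfl⟩
    refine ⟨h.mem_RO z, ?_⟩
    by_cases hz0 : z = 0
    · left
      rw [hz0, map_zero]
    · right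
      rw [h.ord z hz0]
      have h3 := mem_fil_iff.1 hz
      omega

theorem HM.mem_LP (h : HM b g P₀) {n : ℕ} {z : R} (hz : z ∈ fil b n) :
    algebraMap R F z ∈ LP P₀ n := (h.mem_LP_iff _).2 ⟨z, hz, rfl⟩

/-- the genus of a model. -/
theorem HM.gen_eq (h : HM b g P₀) : gen K F = g := by
  have hinj : Function.Injective (algebraMap R F) := IsFractionRing.injective R F
  have h1 := l_LP P₀ (n := 2 * g + 2 * gen K F) (by omega)
  have h2 := finrank_fil b h.sg (n := 2 * g + 2 * gen K F) (by omega)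
  let T : fil b (2 * g + 2 * gen K F) →ₗ[K] LP P₀ (2 * g + 2 * gen K F) :=
    ((IsScalarTower.toAlgHom K R F).toLinearMap).restrict fun z hz => h.mem_LP hz
  have hT : Function.Bijective T := by
    constructor
    · intro z w hzw
      exact Subtype.ext (hinj (congrArg Subtype.val hzw))
    · rintro ⟨w, hw⟩
      obtain ⟨z, hz, hzw⟩ := (h.mem_LP_iff w).1 hw
      exact ⟨⟨z, hz⟩, Subtype.ext hzw⟩
  have h3 := (LinearEquiv.ofBijective T hT).finrank_eq
  rw [← h3] at h1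
  omega

end Vale.Agent.P019P
end
end

section

section

/-!
# Representatives and generators of bounded degree
-/

namespace Vale.Agent.P019P

open Polynomial IntermediateField

variable {k F : Type*} [Field k] [Field F] [Algebra k F] [CFF k F]

/-- representatives of classes with divisor divisible by `ℓ`. -/
theorem h4_rep {ℓ : ℕ} (hℓ : ℓ ≠ 0) (P₀ : Plk k F) {z : F} (hz : z ≠ 0)
    (hd : ∀ P : Plk k F, (ℓ : ℤ) ∣ ord P z) : ∃ h : F, h ≠ 0 ∧ z * h ^ ℓ ∈ RO P₀ ∧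
      ord P₀ (z * h ^ ℓ) = -((2 * gen k F * ℓ : ℕ) : ℤ) := by
  classical
  have hℓ' : (ℓ : ℤ) ≠ 0 := by exact_mod_cast hℓ
  set D₁ : Plk k F →₀ ℤ := (dv k z).mapRange (fun a => a / (ℓ : ℤ)) (by simp) with hD₁
  have h1 : ∀ P, (ℓ : ℤ) * D₁ P = ord P z := by
    intro P
    rw [hD₁, Finsupp.mapRange_apply, dv_apply]
    exact Int.mul_ediv_cancel' (hd P)
  have h2 : dg D₁ = 0 := by
    have e1 : ℓ • D₁ = dv k z := by
      ext P
      rw [Finsupp.smul_apply, nsmul_eq_mul, h1, dv_apply]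
    have e2 : ℓ • dg D₁ = 0 := by rw [← map_nsmul, e1, dg_dv]
    rw [nsmul_eq_mul] at e2
    exact (mul_eq_zero.1 e2).resolve_left hℓ'
  set D : Plk k F →₀ ℤ := D₁ + Finsupp.single P₀ (2 * (gen k F : ℤ)) with hD
  have h3 : 2 * (gen k F : ℤ) ≤ dg D := by
    rw [hD, map_add, h2, dg_sgl, zero_add]
  obtain ⟨h, hh0, hh, hhP⟩ := h4_exact P₀ h3
  refine ⟨h, hh0, ?_, ?_⟩
  · rw [mem_RO]
    intro Q hQ
    right
    rw [ord_mul Q hz (pow_ne_zero _ hh0), ord_pow, ← h1 Q]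
    have h4 := hh Q
    have h5 : D Q = D₁ Q := by
      rw [hD, Finsupp.add_apply, Finsupp.single_eq_of_ne (by exact hQ), add_zero]
    rw [h5] at h4
    have h6 : (ℓ : ℤ) * -D₁ Q ≤ ℓ * ord Q h := mul_le_mul_of_nonneg_left h4 (by positivity)
    linarith
  · rw [ord_mul P₀ hz (pow_ne_zero _ hh0), ord_pow, ← h1 P₀, hhP]
    have h5 : D P₀ = D₁ P₀ + 2 * (gen k F : ℤ) := by
      rw [hD, Finsupp.add_apply, Finsupp.single_eq_same]
    rw [h5]
    push_cast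
    ring

/-- effective divisors are greatest common divisors of two functions of bounded degree. -/
theorem h4_gens (P₀ : Plk k F) {E : Plk k F →₀ ℤ} (hE : 0 ≤ E) (hE0 : E P₀ = 0) {n : ℕ}
    (hn : dg E + 2 * gen k F ≤ n) : ∃ a : Fin 2 → F, (∀ j, a j ≠ 0 ∧ a j ∈ LP P₀ n) ∧
      ∀ P, P ≠ P₀ → (∀ j, E P ≤ ord P (a j)) ∧ ∃ j, ord P (a j) = E P := by
  classical
  have : IsAlgClosed k := CFF.ac F
  have hg : (0 : ℤ) ≤ gen k F := Int.natCast_nonneg _
  set D₀ : Plk k F →₀ ℤ := Finsupp.single P₀ (n : ℤ) - E with hD₀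
  have hD₀P : ∀ P, P ≠ P₀ → D₀ P = - E P := by
    intro P hP
    rw [hD₀, Finsupp.sub_apply, Finsupp.single_eq_of_ne (by exact hP), zero_sub]
  have hdg : dg D₀ = n - dg E := by rw [hD₀, map_sub, dg_sgl]
  have hfr : (Module.finrank k (LL k D₀) : ℤ) = dg D₀ + 1 - gen k F := h4_l_eq (by omega)
  -- the first function
  obtain ⟨a₀, ha₀, ha₀0⟩ : ∃ z ∈ LL k D₀, z ≠ 0 := by
    apply Submodule.exists_mem_ne_zero_of_ne_bot
    intro hb
    rw [hb, finrank_bot] at hfr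
    push_cast at hfr
    omega
  have hLE : LL k D₀ ≤ LP P₀ n := by
    refine LL_mono ?_
    rw [hD₀]
    exact sub_le_self _ hE
  have hord : ∀ z ∈ LL k D₀, z ≠ 0 → ∀ P, P ≠ P₀ → E P ≤ ord P z := by
    intro z hz hz0 P hP
    have h1 := ((mem_LL.1 hz).resolve_left hz0) P
    rw [hD₀P P hP, neg_neg] at h1
    exact h1
  set T : Set (Plk k F) := {P | P ≠ P₀ ∧ E P < ord P a₀} with hT
  have hTfin : T.Finite := by
    refine (dv_finite ha₀0).subset fun P hP => ?_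
    have h1 : 0 ≤ E P := hE P
    have h2 : E P < ord P a₀ := hP.2
    show ord P a₀ ≠ 0
    omega
  have hTf : Finite T := hTfin
  -- the second function
  obtain ⟨a₁, ha₁, ha₁0, ha₁T⟩ : ∃ z ∈ LL k D₀, z ≠ 0 ∧ ∀ P ∈ T, ord P z = E P := by
    by_cases hTe : T = ∅
    · refine ⟨a₀, ha₀, ha₀0, fun P hP => ?_⟩
      rw [hTe] at hP
      exact absurd hP (Set.notMem_empty P)
    · let W : T → Submodule k (LL k D₀) := fun P =>
        (LL k (D₀ - Finsupp.single P.1 1)).comap (LL k D₀).subtype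
      have hW : ∀ P, W P ≠ ⊤ := by
        intro P hP
        have h1 : LL k D₀ ≤ LL k (D₀ - Finsupp.single P.1 1) := by
          intro z hz
          have h2 : (⟨z, hz⟩ : LL k D₀) ∈ W P := by rw [hP]; trivial
          exact h2
        have h2 := Submodule.finrank_mono h1
        have h3 : dg (D₀ - Finsupp.single P.1 1) = dg D₀ - 1 := by rw [map_sub, dg_sgl]
        have h4 : (Module.finrank k (LL k (D₀ - Finsupp.single P.1 1)) : ℤ) =
            dg (D₀ - Finsupp.single P.1 1) + 1 - gen k F := h4_l_eq (by omega)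
        omega
      have h1 : (⋃ P, (W P : Set (LL k D₀))) ≠ Set.univ := by
        intro h1
        obtain ⟨P, hP⟩ := Subspace.exists_eq_top_of_iUnion_eq_univ h1
        exact hW P hP
      rw [Set.ne_univ_iff_exists_notMem] at h1
      obtain ⟨⟨z, hz⟩, hzW⟩ := h1
      rw [Set.mem_iUnion, not_exists] at hzW
      have hz2 : ∀ P ∈ T, z ∉ LL k (D₀ - Finsupp.single P 1) := fun P hP h => hzW ⟨P, hP⟩ h
      have hz0 : z ≠ 0 := by
        obtain ⟨P, hP⟩ := Set.nonempty_iff_ne_empty.2 hTe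
        rintro rfl
        exact hz2 P hP (Submodule.zero_mem _)
      refine ⟨z, hz, hz0, fun P hP => ?_⟩
      refine le_antisymm ?_ (hord z hz hz0 P hP.1)
      by_contra hlt
      push Not at hlt
      refine hz2 P hP (mem_LL.2 (Or.inr fun Q => ?_))
      rw [Finsupp.sub_apply]
      by_cases hQ : Q = P
      · subst hQ
        rw [Finsupp.single_eq_same, hD₀P Q hP.1]
        omega
      · rw [Finsupp.single_eq_of_ne (by exact hQ), sub_zero]
        exact ((mem_LL.1 hz).resolve_left hz0) Q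
  refine ⟨![a₀, a₁], ?_, ?_⟩
  · intro j
    fin_cases j
    · exact ⟨ha₀0, hLE ha₀⟩
    · exact ⟨ha₁0, hLE ha₁⟩
  · intro P hP
    have h0 := hord a₀ ha₀ ha₀0 P hP
    have h1 := hord a₁ ha₁ ha₁0 P hP
    refine ⟨fun j => ?_, ?_⟩
    · fin_cases j
      · exact h0
      · exact h1
    · by_cases hPT : P ∈ T
      · exact ⟨1, ha₁T P hPT⟩
      · refine ⟨0, le_antisymm ?_ h0⟩
        by_contra hlt
        push Not at hlt
        exact hPT ⟨hP, hlt⟩

end Vale.Agent.P019P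
end
end

section

section

/-!
# Bounded Bezout identities
-/

namespace Vale.Agent.P019P

open Polynomial IntermediateField

variable {k F : Type*} [Field k] [Field F] [Algebra k F] [CFF k F]

/-- the quotient of two solutions has a bounded pole. -/
theorem h4RRC_mem (P₀ : Plk k F) {r r' s s' : F} {d d' g : ℕ} (h0 : r ≠ 0) (h0' : r' ≠ 0)
    (hd' : ord P₀ r' = -(d' : ℤ)) (h : ∀ P, P ≠ P₀ → ord P r = 0 ∨ ord P r' = 0)
    (hs : s ∈ LP P₀ (d' + g)) (hs' : s' ∈ LP P₀ (d + g)) (he : s * r + s' * r' = 0) :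
    s * r'⁻¹ ∈ LP P₀ g := by
  by_cases hs0 : s = 0
  · rw [hs0, zero_mul]; exact Submodule.zero_mem _
  have hi : r'⁻¹ ≠ 0 := inv_ne_zero h0'
  have hs1 := mem_LP.1 hs
  have hs1' := mem_LP.1 hs'
  have he' : s * r = (-s') * r' := by rw [neg_mul]; exact eq_neg_of_add_eq_zero_left he
  have hs0' : s' ≠ 0 := by
    intro h3
    rw [h3, neg_zero, zero_mul] at he'
    exact mul_ne_zero hs0 h0 he'
  refine mem_LP.2 ⟨mem_RO.2 fun P hP => Or.inr ?_, Or.inr ?_⟩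
  · rw [ord_mul P hs0 hi, ord_inv]
    have h4 : 0 ≤ ord P s := (mem_RO.1 hs1.1 P hP).resolve_left hs0
    have h5 : 0 ≤ ord P s' := (mem_RO.1 hs1'.1 P hP).resolve_left hs0'
    rcases h P hP with h6 | h6
    · have h7 := congrArg (ord P) he'
      rw [ord_mul P hs0 h0, ord_mul P (neg_ne_zero.2 hs0') h0', ord_neg, h6] at h7
      omega
    · rw [h6]; omega
  · rw [ord_mul P₀ hs0 hi, ord_inv, hd']
    have h8 := hs1.2.resolve_left hs0
    push_cast at h8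
    omega

theorem h4_bezout2 (P₀ : Plk k F) {r r' : F} {D D' : ℕ} (hr : r ∈ LP P₀ D)
    (hr' : r' ∈ LP P₀ D') (h0 : r ≠ 0) (h0' : r' ≠ 0)
    (h : ∀ P, P ≠ P₀ → ord P r = 0 ∨ ord P r' = 0) :
    ∃ s s' : F, s ∈ LP P₀ (D' + 2 * gen k F) ∧ s' ∈ LP P₀ (D + 2 * gen k F) ∧
      s * r + s' * r' = 1 := by
  have hR := (mem_LP.1 hr).1
  have hR' := (mem_LP.1 hr').1
  have h1 := h4_ord_le P₀ hR h0
  have h1' := h4_ord_le P₀ hR' h0'
  have h2 := (mem_LP.1 hr).2.resolve_left h0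
  have h2' := (mem_LP.1 hr').2.resolve_left h0'
  obtain ⟨d, hd⟩ : ∃ d : ℕ, ord P₀ r = -(d : ℤ) := ⟨(-ord P₀ r).toNat, by omega⟩
  obtain ⟨d', hd'⟩ : ∃ d : ℕ, ord P₀ r' = -(d : ℤ) := ⟨(-ord P₀ r').toNat, by omega⟩
  have hdD : d ≤ D := by omega
  have hdD' : d' ≤ D' := by omega
  have hrd : r ∈ LP P₀ d := mem_LP.2 ⟨hR, Or.inr hd.ge⟩
  have hrd' : r' ∈ LP P₀ d' := mem_LP.2 ⟨hR', Or.inr hd'.ge⟩
  obtain ⟨g, hg⟩ : ∃ g, g = gen k F := ⟨_, rfl⟩
  rw [← hg]
  have hμ : ∀ x : LP P₀ (d' + 2 * g) × LP P₀ (d + 2 * g),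
      (((LinearMap.mulRight k r) ∘ₗ (LP P₀ (d' + 2 * g)).subtype).coprod
        ((LinearMap.mulRight k r') ∘ₗ (LP P₀ (d + 2 * g)).subtype)) x ∈
        LP P₀ (d + d' + 2 * g) := by
    rintro ⟨⟨s, hs⟩, ⟨s', hs'⟩⟩
    have h3 := LP_mul hs hrd
    have h4 := LP_mul hs' hrd'
    rw [show d' + 2 * g + d = d + d' + 2 * g by ring] at h3
    rw [show d + 2 * g + d' = d + d' + 2 * g by ring] at h4
    exact Submodule.add_mem _ h3 h4
  let μ : LP P₀ (d' + 2 * g) × LP P₀ (d + 2 * g) →ₗ[k] LP P₀ (d + d' + 2 * g) :=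
    LinearMap.codRestrict _ _ hμ
  have hμv : ∀ x, ((μ x : LP P₀ (d + d' + 2 * g)) : F) = (x.1 : F) * r + (x.2 : F) * r' :=
    fun x => rfl
  have hker : ∀ x : LinearMap.ker μ, ((x.1.1 : F) * r + (x.1.2 : F) * r') = 0 := fun x => by
    rw [← hμv, LinearMap.mem_ker.1 x.2]; rfl
  have hκ : ∀ x : LinearMap.ker μ,
      ((LinearMap.mulRight k r'⁻¹) ∘ₗ (LP P₀ (d' + 2 * g)).subtype ∘ₗ
        (LinearMap.fst k _ _) ∘ₗ (LinearMap.ker μ).subtype) x ∈ LP P₀ (2 * g) := by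
    intro x
    exact h4RRC_mem P₀ h0 h0' hd' h x.1.1.2 x.1.2.2 (hker x)
  let κ : LinearMap.ker μ →ₗ[k] LP P₀ (2 * g) := LinearMap.codRestrict _ _ hκ
  have hκv : ∀ x, ((κ x : LP P₀ (2 * g)) : F) = (x.1.1 : F) * r'⁻¹ := fun x => rfl
  have hinj : Function.Injective κ := by
    intro x y hxy
    have h3 : (x.1.1 : F) = y.1.1 := by
      have h4 : (x.1.1 : F) * r'⁻¹ = (y.1.1 : F) * r'⁻¹ := by rw [← hκv, ← hκv, hxy]
      exact mul_right_cancel₀ (inv_ne_zero h0') h4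
    have h5 := hker x
    have h6 := hker y
    rw [h3] at h5
    have h7 : (x.1.2 : F) = y.1.2 :=
      mul_right_cancel₀ h0' (add_left_cancel (h5.trans h6.symm))
    exact Subtype.ext (Prod.ext (Subtype.ext h3) (Subtype.ext h7))
  have hk1 := LinearMap.finrank_le_finrank_of_injective hinj
  have hk2 := LinearMap.finrank_range_add_finrank_ker μ
  rw [Module.finrank_prod] at hk2
  have hl1 := l_LP P₀ (n := 2 * g) (by omega)
  have hl2 := l_LP P₀ (n := d' + 2 * g) (by omega)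
  have hl3 := l_LP P₀ (n := d + 2 * g) (by omega)
  have hl4 := l_LP P₀ (n := d + d' + 2 * g) (by omega)
  rw [← hg] at hl1 hl2 hl3 hl4
  push_cast at hl1 hl2 hl3 hl4
  have hle := Submodule.finrank_le (LinearMap.range μ)
  have htop : LinearMap.range μ = ⊤ := Submodule.eq_top_of_finrank_eq (by omega)
  obtain ⟨x, hx⟩ := LinearMap.range_eq_top.1 htop ⟨1, LP_one P₀ _⟩
  refine ⟨x.1, x.2, LP_mono P₀ (by omega) x.1.2, LP_mono P₀ (by omega) x.2.2, ?_⟩
  rw [← hμv, hx]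

theorem h4_bezout {ι : Type} [Fintype ι] (P₀ : Plk k F) {r : ι → F} {D : ℕ}
    (hr : ∀ i, r i ∈ LP P₀ D) (h : ∀ P, P ≠ P₀ → ∃ i, r i ≠ 0 ∧ ord P (r i) = 0) :
    ∃ s : ι → F, (∀ i, s i ∈ LP P₀ (D + 2 * gen k F)) ∧ ∑ i, s i * r i = 1 := by
  classical
  have : IsAlgClosed k := CFF.ac F
  have hinf : Infinite k := IsAlgClosed.instInfinite
  obtain ⟨P₁, hP₁⟩ := exists_ne_place P₀
  obtain ⟨i₀, hi₀, -⟩ := h P₁ hP₁
  have hT : {P : Plk k F | ord P (r i₀) ≠ 0}.Finite := dv_finite hi₀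
  let T : Type _ := {P : Plk k F // ord P (r i₀) ≠ 0 ∧ P ≠ P₀}
  have hTf : Finite T := Set.Finite.to_subtype
    (s := {P : Plk k F | ord P (r i₀) ≠ 0 ∧ P ≠ P₀}) (hT.subset fun P hP => hP.1)
  let L : (ι → k) →ₗ[k] F := Fintype.linearCombination k r
  have hL : ∀ c, L c = ∑ i, c i • r i := fun c => Fintype.linearCombination_apply k r c
  have hLs : ∀ i, L (Pi.single i 1) = r i := fun i => by
    rw [Fintype.linearCombination_apply_single, one_smul]
  let V : Option T → Submodule k (ι → k) := fun x =>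
    match x with
    | none => LinearMap.ker L
    | some P => (Mge P.1 1).comap L
  have hV : ∀ x, V x ≠ ⊤ := by
    rintro (_ | P) hx
    · have h1 : Pi.single i₀ (1 : k) ∈ V none := by rw [hx]; trivial
      rw [LinearMap.mem_ker, hLs] at h1
      exact hi₀ h1
    · obtain ⟨i, hi, hPi⟩ := h P.1 P.2.2
      have h1 : Pi.single i (1 : k) ∈ V (some P) := by rw [hx]; trivial
      rw [Submodule.mem_comap, hLs, mem_Mge] at h1
      rcases h1 with h1 | h1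
      · exact hi h1
      · omega
  obtain ⟨c, hc⟩ : ∃ c, ∀ x, c ∉ V x := by
    by_contra hcon
    push Not at hcon
    obtain ⟨x, hx⟩ := Subspace.exists_eq_top_of_iUnion_eq_univ (k := k) (p := V)
      (Set.eq_univ_of_forall fun c => Set.mem_iUnion.2 (hcon c))
    exact hV x hx
  have hc0 : L c ≠ 0 := fun h1 => hc none (LinearMap.mem_ker.2 h1)
  have hcD : L c ∈ LP P₀ D := by
    rw [hL]
    exact Submodule.sum_mem _ fun i _ => Submodule.smul_mem _ _ (hr i)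
  obtain ⟨s, s', hs, hs', he⟩ := h4_bezout2 P₀ (hr i₀) hcD hi₀ hc0 (by
    intro P hP
    by_cases h1 : ord P (r i₀) = 0
    · exact Or.inl h1
    right
    have h2 := hc (some ⟨P, h1, hP⟩)
    have h3 : 0 ≤ ord P (L c) := (mem_RO.1 (mem_LP.1 hcD).1 P hP).resolve_left hc0
    have h4 : ¬ 1 ≤ ord P (L c) := fun h5 => h2 (Or.inr h5)
    omega)
  refine ⟨fun i => c i • s' + if i = i₀ then s else 0, fun i => ?_, ?_⟩
  · refine Submodule.add_mem _ (Submodule.smul_mem _ _ hs') ?_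
    split_ifs
    · exact hs
    · exact Submodule.zero_mem _
  · rw [← he, hL, Finset.mul_sum, add_comm]
    simp_rw [add_mul]
    rw [Finset.sum_add_distrib]
    congr 1
    · exact Finset.sum_congr rfl fun i _ => by rw [smul_mul_assoc, mul_smul_comm]
    · simp_rw [ite_mul, zero_mul]
      rw [Finset.sum_ite_eq' Finset.univ i₀ fun i => s * r i, if_pos (Finset.mem_univ _)]

end Vale.Agent.P019P
end
end

section

section

/-!
# Bounded data
-/

namespace Vale.Agent.P019P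

open Polynomial IntermediateField

variable {k F : Type*} [Field k] [Field F] [Algebra k F] [CFF k F]

theorem h4RRD_ord_quot (P : Plk k F) {x a f : F} (hx : x ≠ 0) (ha : a ≠ 0) (hf : f ≠ 0) (ℓ : ℕ) :
    ord P (x * a ^ ℓ / f) = ord P x + ℓ * ord P a - ord P f := by
  rw [div_eq_mul_inv, ord_mul P (mul_ne_zero hx (pow_ne_zero ℓ ha)) (inv_ne_zero hf),
    ord_mul P hx (pow_ne_zero ℓ ha), ord_pow, ord_inv]
  ring

theorem h4RRD_quot_mem {ℓ : ℕ} {P₀ : Plk k F} {x a f : F} {D n : ℕ} {E : Plk k F →₀ ℤ}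
    (hx : x ∈ LP P₀ D) (ha0 : a ≠ 0) (ha : a ∈ LP P₀ n) (hf : f ≠ 0) (hfR : f ∈ RO P₀)
    (hE : ∀ P, P ≠ P₀ → E P ≤ ord P a)
    (h1 : ∀ P, P ≠ P₀ → x ≠ 0 → ord P f ≤ ord P x + ℓ * E P) :
    x * a ^ ℓ / f ∈ LP P₀ (D + ℓ * n) := by
  by_cases hx0 : x = 0
  · rw [hx0, zero_mul, zero_div]
    exact Submodule.zero_mem _
  have hxR := ((mem_LP.1 hx).2).resolve_left hx0
  have haR := ((mem_LP.1 ha).2).resolve_left ha0
  have hf0 := h4_ord_le P₀ hfR hf
  refine mem_LP.2 ⟨?_, ?_⟩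
  · refine mem_RO.2 fun P hP => Or.inr ?_
    rw [h4RRD_ord_quot P hx0 ha0 hf]
    have h2 := h1 P hP hx0
    have h3 := hE P hP
    have h4 : (ℓ : ℤ) * E P ≤ ℓ * ord P a := mul_le_mul_of_nonneg_left h3 (Int.natCast_nonneg ℓ)
    linarith
  · right
    rw [h4RRD_ord_quot P₀ hx0 ha0 hf]
    have h4 : (ℓ : ℤ) * (-(n : ℤ)) ≤ ℓ * ord P₀ a :=
      mul_le_mul_of_nonneg_left haR (Int.natCast_nonneg ℓ)
    push_cast
    linarith

/-- existence of bounded data. -/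
theorem h4_data {ℓ : ℕ} (hℓ : ℓ ≠ 0) (P₀ : Plk k F) {ι : Type} [Fintype ι] {p : ι → F} {D : ℕ}
    (hp : ∀ i, p i ∈ LP P₀ D) {f : F} (hf : f ≠ 0) (hfR : f ∈ RO P₀) {E : Plk k F →₀ ℤ}
    (hE : 0 ≤ E) (hE0 : E P₀ = 0) {e : ℕ} (he : dg E ≤ e)
    (h1 : ∀ P, P ≠ P₀ → ∀ i, p i ≠ 0 → ord P f ≤ ord P (p i) + ℓ * E P)
    (h2 : ∀ P, P ≠ P₀ → ∃ i, p i ≠ 0 ∧ ord P f = ord P (p i) + ℓ * E P) :
    ∃ (a : Fin 2 → F) (r s : ι → Fin 2 → F), JT ℓ p f a r s ∧
      (∀ j, a j ∈ LP P₀ (e + 2 * gen k F)) ∧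
      (∀ i j, r i j ∈ LP P₀ (D + ℓ * (e + 2 * gen k F))) ∧
      ∀ i j, s i j ∈ LP P₀ (D + ℓ * (e + 2 * gen k F) + 2 * gen k F) := by
  obtain ⟨a, ha1, ha2⟩ := h4_gens P₀ hE hE0 (n := e + 2 * gen k F) (by push_cast; linarith)
  have hr : ∀ i j, p i * a j ^ ℓ / f ∈ LP P₀ (D + ℓ * (e + 2 * gen k F)) := fun i j =>
    h4RRD_quot_mem (hp i) (ha1 j).1 (ha1 j).2 hf hfR (fun P hP => (ha2 P hP).1 j)
      fun P hP => h1 P hP i
  obtain ⟨s, hs1, hs2⟩ := h4_bezout P₀ (r := fun q : ι × Fin 2 => p q.1 * a q.2 ^ ℓ / f)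
    (D := D + ℓ * (e + 2 * gen k F)) (fun q => hr q.1 q.2) (by
      intro P hP
      obtain ⟨i, hi0, hi⟩ := h2 P hP
      obtain ⟨j, hj⟩ := (ha2 P hP).2
      refine ⟨(i, j), ?_, ?_⟩
      · exact div_ne_zero (mul_ne_zero hi0 (pow_ne_zero ℓ (ha1 j).1)) hf
      · rw [h4RRD_ord_quot P hi0 (ha1 j).1 hf, hj, hi, sub_self])
  refine ⟨a, fun i j => p i * a j ^ ℓ / f, fun i j => s (i, j), ⟨?_, ?_⟩, fun j => (ha1 j).2, hr,
    fun i j => hs1 (i, j)⟩
  · intro i j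
    rw [mul_div_cancel₀ _ hf]
  · rw [← hs2, Fintype.sum_prod_type]

/-- the minimum of the orders outside of `P₀`. -/
theorem h4RRD_inf (P₀ : Plk k F) {ι : Type} [Fintype ι] {p : ι → F} {D : ℕ}
    (hp : ∀ i, p i ∈ LP P₀ D) (hp0 : ∃ i, p i ≠ 0) :
    ∃ J : Plk k F →₀ ℤ, J P₀ = 0 ∧ (∀ P, 0 ≤ J P) ∧ dg J ≤ D ∧
      (∀ P, P ≠ P₀ → ∀ i, p i ≠ 0 → J P ≤ ord P (p i)) ∧
      ∀ P, P ≠ P₀ → ∃ i, p i ≠ 0 ∧ J P = ord P (p i) := by
  classical
  obtain ⟨i₀, hi₀⟩ := hp0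
  have hT : (Finset.univ.filter fun i => p i ≠ 0).Nonempty :=
    ⟨i₀, Finset.mem_filter.2 ⟨Finset.mem_univ _, hi₀⟩⟩
  have hord : ∀ P, P ≠ P₀ → ∀ i, p i ≠ 0 → 0 ≤ ord P (p i) := fun P hP i hi =>
    ((mem_RO.1 (mem_LP.1 (hp i)).1) P hP).resolve_left hi
  let m : Plk k F → ℤ := fun P =>
    if P = P₀ then 0 else (Finset.univ.filter fun i => p i ≠ 0).inf' hT fun i => ord P (p i)
  have hm0 : m P₀ = 0 := if_pos rfl
  have hmle : ∀ P, P ≠ P₀ → ∀ i, p i ≠ 0 → m P ≤ ord P (p i) := by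
    intro P hP i hi
    have h3 : m P = (Finset.univ.filter fun i => p i ≠ 0).inf' hT fun i => ord P (p i) :=
      if_neg hP
    rw [h3]
    exact Finset.inf'_le (fun i => ord P (p i)) (Finset.mem_filter.2 ⟨Finset.mem_univ i, hi⟩)
  have hmex : ∀ P, P ≠ P₀ → ∃ i, p i ≠ 0 ∧ m P = ord P (p i) := by
    intro P hP
    have h3 : m P = (Finset.univ.filter fun i => p i ≠ 0).inf' hT fun i => ord P (p i) :=
      if_neg hP
    obtain ⟨i, hi, hi'⟩ := Finset.exists_mem_eq_inf' hT fun i => ord P (p i)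
    exact ⟨i, (Finset.mem_filter.1 hi).2, h3.trans hi'⟩
  have hmnn : ∀ P, 0 ≤ m P := by
    intro P
    by_cases hP : P = P₀
    · rw [hP, hm0]
    · obtain ⟨i, hi, hi'⟩ := hmex P hP
      rw [hi']
      exact hord P hP i hi
  have hfin : (Function.support m).Finite := by
    refine (dv_finite (k := k) hi₀).subset fun P hP => ?_
    have hP0 : P ≠ P₀ := by
      rintro rfl
      exact hP hm0
    have h3 := hmle P hP0 i₀ hi₀
    have h4 : 0 < m P := lt_of_le_of_ne (hmnn P) (Ne.symm hP)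
    have h5 : ord P (p i₀) ≠ 0 := by omega
    exact h5
  have hJ : ∀ P, Finsupp.ofSupportFinite m hfin P = m P := fun P => rfl
  refine ⟨Finsupp.ofSupportFinite m hfin, by rw [hJ, hm0], fun P => by rw [hJ]; exact hmnn P, ?_,
    fun P hP i hi => by rw [hJ]; exact hmle P hP i hi, fun P hP => by rw [hJ]; exact hmex P hP⟩
  have hle : Finsupp.ofSupportFinite m hfin ≤ dv k (p i₀) + Finsupp.single P₀ (D : ℤ) := by
    intro P
    rw [hJ, Finsupp.add_apply, dv_apply]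
    by_cases hP : P = P₀
    · rw [hP, hm0, Finsupp.single_eq_same]
      have h3 := ((mem_LP.1 (hp i₀)).2).resolve_left hi₀
      linarith
    · rw [Finsupp.single_eq_of_ne hP, add_zero]
      exact hmle P hP i₀ hi₀
  have h3 := dg_mono hle
  rwa [map_add, dg_dv, dg_sgl, zero_add] at h3

/-- the data of an ideal if the class group is `ℓ`-divisible. -/
theorem h4_div {ℓ : ℕ} (hℓ : ℓ ≠ 0) (hdiv : ∀ D : Plk k F →₀ ℤ, dg D = 0 →
      ∃ E : Plk k F →₀ ℤ, dg E = 0 ∧ D - ℓ • E ∈ prn k F) (P₀ : Plk k F) {ι : Type}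
    [Fintype ι] {p : ι → F} {D : ℕ} (hp : ∀ i, p i ∈ LP P₀ D) (hp0 : ∃ i, p i ≠ 0) :
    ∃ (f : F) (E : Plk k F →₀ ℤ), f ≠ 0 ∧ f ∈ LP P₀ (D + 2 * gen k F * ℓ) ∧ 0 ≤ E ∧
      E P₀ = 0 ∧ dg E = 2 * gen k F ∧
      (∀ P, P ≠ P₀ → ∀ i, p i ≠ 0 → ord P f ≤ ord P (p i) + ℓ * E P) ∧
      ∀ P, P ≠ P₀ → ∃ i, p i ≠ 0 ∧ ord P f = ord P (p i) + ℓ * E P := by
  obtain ⟨J, hJ0, hJn, hJd, hJ1, hJ2⟩ := h4RRD_inf P₀ hp hp0
  obtain ⟨E₁, hE₁, hz⟩ := hdiv (J - Finsupp.single P₀ (dg J)) (by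
    rw [map_sub, dg_sgl, sub_self])
  obtain ⟨z, hz0, hz⟩ := hz
  have hzP : ∀ P : Plk k F, ord P z = J P - Finsupp.single P₀ (dg J) P - ℓ * E₁ P := by
    intro P
    rw [← dv_apply (k := k), ← hz, Finsupp.sub_apply, Finsupp.sub_apply, Finsupp.smul_apply,
      nsmul_eq_mul]
  obtain ⟨h, hh0, hh1, hh2⟩ := h4_exact (D := Finsupp.single P₀ (2 * (gen k F : ℤ)) - E₁) P₀ (by
    rw [map_sub, dg_sgl, hE₁, sub_zero])
  have hfP : ∀ P : Plk k F, ord P (z * h ^ ℓ) = ord P z + ℓ * ord P h := by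
    intro P
    rw [ord_mul P hz0 (pow_ne_zero ℓ hh0), ord_pow]
  have hEP : ∀ P : Plk k F, (dv k h + (Finsupp.single P₀ (2 * (gen k F : ℤ)) - E₁)) P =
      ord P h + (Finsupp.single P₀ (2 * (gen k F : ℤ)) P - E₁ P) := by
    intro P
    rw [Finsupp.add_apply, Finsupp.sub_apply, dv_apply]
  have hne : ∀ P : Plk k F, P ≠ P₀ → ord P (z * h ^ ℓ) =
      J P + ℓ * (dv k h + (Finsupp.single P₀ (2 * (gen k F : ℤ)) - E₁)) P := by
    intro P hP
    rw [hfP, hzP, hEP, Finsupp.single_eq_of_ne hP, Finsupp.single_eq_of_ne hP]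
    ring
  have hEnn : ∀ P : Plk k F, 0 ≤ (dv k h + (Finsupp.single P₀ (2 * (gen k F : ℤ)) - E₁)) P := by
    intro P
    have h3 := hh1 P
    rw [Finsupp.sub_apply] at h3
    rw [hEP]
    linarith
  refine ⟨z * h ^ ℓ, dv k h + (Finsupp.single P₀ (2 * (gen k F : ℤ)) - E₁),
    mul_ne_zero hz0 (pow_ne_zero ℓ hh0), ?_, hEnn, ?_, ?_, ?_, ?_⟩
  · refine mem_LP.2 ⟨mem_RO.2 fun P hP => Or.inr ?_, Or.inr ?_⟩
    · rw [hne P hP]
      exact add_nonneg (hJn P) (mul_nonneg (Int.natCast_nonneg ℓ) (hEnn P))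
    · rw [hfP, hzP, hh2, Finsupp.sub_apply, Finsupp.single_eq_same, Finsupp.single_eq_same, hJ0]
      push_cast
      linarith
  · rw [hEP, hh2, Finsupp.sub_apply]
    ring
  · rw [map_add, map_sub, dg_dv, dg_sgl, hE₁]
    ring
  · intro P hP i hi
    rw [hne P hP]
    have h3 := hJ1 P hP i hi
    linarith
  · intro P hP
    obtain ⟨i, hi, hi'⟩ := hJ2 P hP
    exact ⟨i, hi, by rw [hne P hP, hi']⟩

end Vale.Agent.P019P
end
end

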