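import Vale.Agent.P025.R2.H816.J07

/-! Carved out of `Vale.Agent.P019.Bd4` (function fields of one variable); generated file. -/

set_option linter.all false

attribute [local instance] O19.fr O19.tf O19.pj O19.fl

section

section

/-!
# A basis of the functions with poles at one place, with finitely many structure constants
-/

namespace Vale.Agent.P019P

open Polynomial IntermediateField

variable {k F : Type*} [Field k] [Field F] [Algebra k F] [CFF k F]

theorem h4ModA_mem_S {P₀ : Plk k F} {z : F} (hz : z ∈ RO P₀) (hz0 : z ≠ 0) :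
    ∃ j : ℕ, ord P₀ z = -(j : ℤ) := by
  have h := h4_ord_le P₀ hz hz0
  exact ⟨(-ord P₀ z).toNat, by rw [Int.toNat_of_nonneg (by omega)]; omega⟩

/-- the dimension of `LP P₀ n` is the number of degrees up to `n`. -/
theorem h4ModA_card (P₀ : Plk k F) {S : Set ℕ}
    (hS : S = {n : ℕ | ∃ z : F, z ∈ RO P₀ ∧ z ≠ 0 ∧ ord P₀ z = -(n : ℤ)}) (n : ℕ) :
    Module.finrank k (LP P₀ n) = {d : ℕ | d ∈ S ∧ d ≤ n}.ncard := by
  induction n with
  | zero =>
    have h1 : (LP P₀ 0 : Submodule k F) = LL k 0 := by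
      unfold LP
      simp
    have h2 : {d : ℕ | d ∈ S ∧ d ≤ 0} = {0} := by
      ext d
      simp only [Set.mem_ofPred_eq, Set.mem_singleton_iff]
      constructor
      · rintro ⟨_, h⟩
        omega
      · rintro rfl
        refine ⟨?_, le_refl 0⟩
        rw [hS]
        exact ⟨1, one_mem _, one_ne_zero, by rw [ord_one]; simp⟩
    rw [h1, h2, Set.ncard_singleton]
    exact l_zero
  | succ n ih =>
    have h1 : Finsupp.single P₀ (((n + 1 : ℕ) : ℤ)) =
        Finsupp.single P₀ (n : ℤ) + Finsupp.single P₀ 1 := by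
      rw [← Finsupp.single_add]
      push_cast
      rfl
    have hfin : ∀ N : ℕ, {d : ℕ | d ∈ S ∧ d ≤ N}.Finite := fun N =>
      (Set.finite_Iic N).subset fun d hd => hd.2
    by_cases hmem : n + 1 ∈ S
    · have hm2 := hmem
      rw [hS] at hm2
      obtain ⟨z, hz, hz0, hzo⟩ := hm2
      have hz1 : z ∈ LP P₀ (n + 1) := mem_LP.2 ⟨hz, Or.inr hzo.ge⟩
      have hz2 : z ∉ LP P₀ n := by
        intro h
        have h3 := (mem_LP.1 h).2.resolve_left hz0
        rw [hzo] at h3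
        push_cast at h3
        omega
      have h4 : z ∈ LL k (Finsupp.single P₀ (n : ℤ) + Finsupp.single P₀ 1) := by
        rw [← h1]; exact hz1
      have h5 := l_step_of_mem h4 hz2
      rw [← h1] at h5
      have h6 : {d : ℕ | d ∈ S ∧ d ≤ n + 1} = insert (n + 1) {d : ℕ | d ∈ S ∧ d ≤ n} := by
        ext d
        simp only [Set.mem_ofPred_eq, Set.mem_insert_iff]
        constructor
        · rintro ⟨h7, h8⟩
          rcases Nat.lt_or_ge n d with h9 | h9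
          · left; omega
          · right; exact ⟨h7, h9⟩
        · rintro (rfl | ⟨h7, h8⟩)
          · exact ⟨hmem, le_refl _⟩
          · exact ⟨h7, by omega⟩
      rw [h6, Set.ncard_insert_of_notMem _ (hfin n), ← ih]
      · exact h5
      · rintro ⟨_, h⟩
        omega
    · have h4 : LL k (Finsupp.single P₀ (n : ℤ) + Finsupp.single P₀ 1) ≤
          LL k (Finsupp.single P₀ (n : ℤ)) := by
        rw [← h1]
        intro z hz
        have hz1 : z ∈ LP P₀ (n + 1) := hz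
        obtain ⟨hz2, hz3⟩ := mem_LP.1 hz1
        have : z ∈ LP P₀ n := by
          refine mem_LP.2 ⟨hz2, ?_⟩
          by_cases hz0 : z = 0
          · exact Or.inl hz0
          right
          have h5 := hz3.resolve_left hz0
          obtain ⟨j, hj⟩ := h4ModA_mem_S hz2 hz0
          have h6 : j ∈ S := by
            rw [hS]; exact ⟨z, hz2, hz0, hj⟩
          have h7 : j ≠ n + 1 := fun h => hmem (h ▸ h6)
          rw [hj] at h5 ⊢
          push_cast at h5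
          omega
        exact this
      have h5 := l_step_of_eq h4
      rw [← h1] at h5
      have h6 : {d : ℕ | d ∈ S ∧ d ≤ n + 1} = {d : ℕ | d ∈ S ∧ d ≤ n} := by
        ext d
        simp only [Set.mem_ofPred_eq]
        constructor
        · rintro ⟨h7, h8⟩
          refine ⟨h7, ?_⟩
          have h9 : d ≠ n + 1 := fun h => hmem (h ▸ h7)
          omega
        · rintro ⟨h7, h8⟩
          exact ⟨h7, by omega⟩
      rw [h6, ← ih]
      exact h5

/-- the semigroup of a place. -/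
theorem exists_sgp (P₀ : Plk k F) :
    Sgp (gen k F) {n : ℕ | ∃ z : F, z ∈ RO P₀ ∧ z ≠ 0 ∧ ord P₀ z = -(n : ℤ)} := by
  have hadd : ∀ {a b : ℕ}, (∃ z : F, z ∈ RO P₀ ∧ z ≠ 0 ∧ ord P₀ z = -(a : ℤ)) →
      (∃ z : F, z ∈ RO P₀ ∧ z ≠ 0 ∧ ord P₀ z = -(b : ℤ)) →
      ∃ z : F, z ∈ RO P₀ ∧ z ≠ 0 ∧ ord P₀ z = -((a + b : ℕ) : ℤ) := by
    rintro a b ⟨z, hz, hz0, hzo⟩ ⟨w, hw, hw0, hwo⟩
    refine ⟨z * w, mul_mem hz hw, mul_ne_zero hz0 hw0, ?_⟩
    rw [ord_mul P₀ hz0 hw0, hzo, hwo]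
    push_cast
    ring
  refine ⟨⟨1, one_mem _, one_ne_zero, by rw [ord_one]; simp⟩, fun ha hb => hadd ha hb,
    fun n hn => exists_RO_ord P₀ hn, ?_⟩
  obtain ⟨S, hS⟩ : ∃ S : Set ℕ, S = {n : ℕ | ∃ z : F, z ∈ RO P₀ ∧ z ≠ 0 ∧
    ord P₀ z = -(n : ℤ)} := ⟨_, rfl⟩
  rw [← hS]
  have hlarge : ∀ n, 2 * gen k F ≤ n → n ∈ S := fun n hn => by
    rw [hS]; exact exists_RO_ord P₀ hn
  have h1 := h4ModA_card P₀ hS (2 * gen k F)
  have h2 := l_LP P₀ (n := 2 * gen k F) (by omega)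
  have h3 : Sᶜ ⊆ Set.Iic (2 * gen k F) := fun d hd => by
    by_contra h
    exact hd (hlarge d (by rw [Set.mem_Iic] at h; omega))
  have h4 : Set.Iic (2 * gen k F) \ Sᶜ = {d : ℕ | d ∈ S ∧ d ≤ 2 * gen k F} := by
    ext d
    simp only [Set.mem_sdiff, Set.mem_Iic, Set.mem_compl_iff, not_not, Set.mem_ofPred_eq]
    exact and_comm
  have h5 := Set.ncard_sdiff_add_ncard_of_subset h3 (Set.finite_Iic _)
  rw [h4, ← h1] at h5
  have h6 : (Set.Iic (2 * gen k F)).ncard = 2 * gen k F + 1 := by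
    rw [← Nat.card_coe_set_eq]
    simp
  rw [h6] at h5
  have h7 : (Module.finrank k (LP P₀ (2 * gen k F)) : ℤ) = gen k F + 1 := by
    rw [h2]; push_cast; ring
  omega

section

variable {P₀ : Plk k F} {S : Set ℕ}

/-- subtracting a multiple of a function with the same order. -/
theorem h4ModA_step {z y : F} {n : ℕ} (hz : z ∈ RO P₀) (hzo : ord P₀ z = -(n : ℤ)) (hz0 : z ≠ 0)
    (hy : y ∈ RO P₀) (hy0 : y ≠ 0) (hyo : ord P₀ y = -(n : ℤ)) :
    ∃ a : k, a ≠ 0 ∧ z - a • y ∈ RO P₀ ∧ (z - a • y = 0 ∨ -(n : ℤ) + 1 ≤ ord P₀ (z - a • y)) := by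
  obtain ⟨a, ha⟩ := exists_sub_mem (P := P₀) (n := -(n : ℤ)) hy0 hyo
    (mem_Mge.2 (Or.inr hzo.ge) : z ∈ Mge P₀ (-(n : ℤ)))
  refine ⟨a, ?_, sub_mem hz ((RO P₀).smul_mem hy a), mem_Mge.1 ha⟩
  rintro rfl
  rw [zero_smul, sub_zero] at ha
  rcases mem_Mge.1 ha with h | h
  · exact hz0 h
  · rw [hzo] at h
    omega

/-- expansions with control of the degree. -/
theorem h4ModA_exp (β : S → F) (hβ : ∀ d, β d ∈ RO P₀ ∧ β d ≠ 0 ∧ ord P₀ (β d) = -((d : ℕ) : ℤ))
    (hS : ∀ (n : ℕ) (z : F), z ∈ RO P₀ → z ≠ 0 → ord P₀ z = -(n : ℤ) → n ∈ S) (n : ℕ) :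
    ∀ z : F, z ∈ RO P₀ → (z = 0 ∨ -(n : ℤ) ≤ ord P₀ z) →
      ∃ c : S →₀ k, z = c.sum (fun f x => x • β f) ∧ (∀ f : S, n < (f : ℕ) → c f = 0) ∧
        (z ≠ 0 → ord P₀ z = -(n : ℤ) → ∀ f : S, (f : ℕ) = n → c f ≠ 0) := by
  classical
  induction n using Nat.strong_induction_on with
  | _ n ih =>
    intro z hz hzn
    by_cases hz0 : z = 0
    · exact ⟨0, by rw [hz0, Finsupp.sum_zero_index], fun _ _ => rfl, fun h => absurd hz0 h⟩
    have hzn := hzn.resolve_left hz0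
    obtain ⟨j, hj⟩ := h4ModA_mem_S hz hz0
    have hjn : j ≤ n := by rw [hj] at hzn; omega
    rcases hjn.lt_or_eq with hlt | heq
    · obtain ⟨c, h1, h2, _⟩ := ih j hlt z hz (Or.inr hj.ge)
      refine ⟨c, h1, fun f hf => h2 f (hlt.trans hf), fun _ h => ?_⟩
      rw [hj] at h
      omega
    · subst heq
      have hjS : j ∈ S := hS j z hz hz0 hj
      obtain ⟨a, ha0, ha1, ha2⟩ := h4ModA_step (y := β ⟨j, hjS⟩) hz hj hz0 (hβ _).1 (hβ _).2.1
        (hβ _).2.2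
      obtain ⟨c, h1, h2⟩ : ∃ c : S →₀ k, z - a • β ⟨j, hjS⟩ = c.sum (fun f x => x • β f) ∧
          ∀ f : S, j ≤ (f : ℕ) → c f = 0 := by
        by_cases hr : z - a • β ⟨j, hjS⟩ = 0
        · exact ⟨0, by rw [hr, Finsupp.sum_zero_index], fun _ _ => rfl⟩
        · have h3 := ha2.resolve_left hr
          have h4 := h4_ord_le P₀ ha1 hr
          have hj1 : 1 ≤ j := by omega
          obtain ⟨c, h5, h6, _⟩ := ih (j - 1) (by omega) _ ha1 (Or.inr (by
            rw [Nat.cast_sub hj1]; push_cast; omega))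
          exact ⟨c, h5, fun f hf => h6 f (by omega)⟩
      refine ⟨c + Finsupp.single ⟨j, hjS⟩ a, ?_, fun f hf => ?_, fun _ _ f hf => ?_⟩
      · rw [Finsupp.sum_add_index' (h := fun (f : S) (x : k) => x • β f) (fun _ => zero_smul _ _)
            (fun _ _ _ => add_smul _ _ _), ← h1,
          Finsupp.sum_single_index (h := fun (f : S) (x : k) => x • β f) (zero_smul _ _),
          sub_add_cancel]
      · rw [Finsupp.add_apply, h2 f hf.le, Finsupp.single_apply, if_neg, add_zero]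
        rintro rfl
        exact lt_irrefl _ hf
      · have h3 : (⟨j, hjS⟩ : S) = f := Subtype.ext hf.symm
        rw [Finsupp.add_apply, h2 f hf.ge, ← h3, Finsupp.single_eq_same, zero_add]
        exact ha0

end

/-- a multiplicative basis with finitely many structure constants. -/
theorem exists_DB (P₀ : Plk k F) : ∃ (S : Set ℕ) (β : S → F) (Y : Finset k),
    Sgp (gen k F) S ∧ (∀ d, β d ∈ RO P₀ ∧ β d ≠ 0 ∧ ord P₀ (β d) = -((d : ℕ) : ℤ)) ∧
    (∀ d : S, (d : ℕ) = 0 → β d = 1) ∧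
    (∀ w : F, w ∈ RO P₀ → w ∈ Submodule.span k (Set.range β)) ∧
    ∀ A₀ : Subalgebra ℤ k, (Y : Set k) ⊆ A₀ → ∀ d e : S, ∃ c : S →₀ A₀,
      β d * β e = c.sum (fun f x => (x : k) • β f) ∧ (∀ f : S, (d : ℕ) + e < f → c f = 0) ∧
      ∀ f : S, (f : ℕ) = d + e → IsUnit (c f) := by
  classical
  have hsg := exists_sgp (k := k) P₀
  obtain ⟨S, hSd⟩ : ∃ S : Set ℕ, S = {n : ℕ | ∃ z : F, z ∈ RO P₀ ∧ z ≠ 0 ∧
    ord P₀ z = -(n : ℤ)} := ⟨_, rfl⟩
  rw [← hSd] at hsg
  have hS1 : ∀ n ∈ S, ∃ z : F, z ∈ RO P₀ ∧ z ≠ 0 ∧ ord P₀ z = -(n : ℤ) := fun n hn => by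
    rw [hSd] at hn; exact hn
  have hS2 : ∀ (n : ℕ) (z : F), z ∈ RO P₀ → z ≠ 0 → ord P₀ z = -(n : ℤ) → n ∈ S :=
    fun n z h1 h2 h3 => by rw [hSd]; exact ⟨z, h1, h2, h3⟩
  obtain ⟨m, hm⟩ : ∃ m, m = 2 * gen k F + 1 := ⟨_, rfl⟩
  have hm0 : 0 < m := by omega
  obtain ⟨x, hx, hx0, hxo⟩ := exists_RO_ord P₀ (n := m) (by omega)
  -- least elements of the residue classes
  have hw : ∀ r : ℕ, ∃ w : ℕ, w ∈ S ∧ w % m = r % m ∧ ∀ d ∈ S, d % m = r % m → w ≤ d := by
    intro r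
    have hex : ∃ w, w ∈ S ∧ w % m = r % m :=
      ⟨m + r, hsg.large _ (by omega), by rw [Nat.add_mod_left]⟩
    exact ⟨Nat.find hex, (Nat.find_spec hex).1, (Nat.find_spec hex).2,
      fun d hd hdr => Nat.find_min' hex ⟨hd, hdr⟩⟩
  choose w hwS hwr hwm using hw
  have hmS : ∀ l : ℕ, ∀ d ∈ S, d + m * l ∈ S := by
    intro l d hd
    induction l with
    | zero => simpa using hd
    | succ l ih =>
      have := hsg.add ih (hsg.large m (by omega))
      rwa [show d + m * l + m = d + m * (l + 1) by ring] at this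
  have hy : ∀ r : ℕ, ∃ y : F, y ∈ RO P₀ ∧ y ≠ 0 ∧ ord P₀ y = -(w r : ℤ) ∧ (w r = 0 → y = 1) := by
    intro r
    by_cases h : w r = 0
    · exact ⟨1, one_mem _, one_ne_zero, by rw [ord_one, h]; simp, fun _ => rfl⟩
    · obtain ⟨z, h1, h2, h3⟩ := hS1 (w r) (hwS r)
      exact ⟨z, h1, h2, h3, fun h4 => absurd h4 h⟩
  choose y hyR hy0 hyo hy1 using hy
  obtain ⟨β, hβd⟩ : ∃ β : S → F, ∀ d : S, β d = x ^ (((d : ℕ) - w (d % m)) / m) * y (d % m) :=
    ⟨_, fun _ => rfl⟩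
  have hle : ∀ d : S, w (d % m) ≤ d := fun d => hwm _ d d.2 (by rw [Nat.mod_mod])
  have hdec : ∀ d : S, (d : ℕ) = w (d % m) + m * (((d : ℕ) - w (d % m)) / m) := by
    intro d
    have h1 : (d : ℕ) % m = w (d % m) % m := by rw [hwr, Nat.mod_mod]
    have h2 : m ∣ (d : ℕ) - w (d % m) := (Nat.modEq_iff_dvd' (hle d)).1 (Eq.symm h1)
    rw [Nat.mul_div_cancel' h2]
    have := hle d
    omega
  have hβ : ∀ d, β d ∈ RO P₀ ∧ β d ≠ 0 ∧ ord P₀ (β d) = -((d : ℕ) : ℤ) := by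
    intro d
    rw [hβd]
    refine ⟨mul_mem (pow_mem hx _) (hyR _), mul_ne_zero (pow_ne_zero _ hx0) (hy0 _), ?_⟩
    rw [ord_mul P₀ (pow_ne_zero _ hx0) (hy0 _), ord_pow, hxo, hyo]
    have h1 := hdec d
    have h2 : ((d : ℕ) : ℤ) = w (d % m) + m * ((((d : ℕ) - w (d % m)) / m : ℕ) : ℤ) := by
      exact_mod_cast h1
    rw [h2]
    ring
  have hexp := h4ModA_exp β hβ hS2
  -- structure constants
  have hc : ∀ r s : ℕ, ∃ c : S →₀ k, y r * y s = c.sum (fun f x => x • β f) ∧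
      (∀ f : S, w r + w s < (f : ℕ) → c f = 0) ∧ ∀ f : S, (f : ℕ) = w r + w s → c f ≠ 0 := by
    intro r s
    have h1 : ord P₀ (y r * y s) = -((w r + w s : ℕ) : ℤ) := by
      rw [ord_mul P₀ (hy0 r) (hy0 s), hyo, hyo]
      push_cast
      ring
    obtain ⟨c, h2, h3, h4⟩ := hexp (w r + w s) (y r * y s) (mul_mem (hyR r) (hyR s))
      (Or.inr h1.ge)
    exact ⟨c, h2, h3, h4 (mul_ne_zero (hy0 r) (hy0 s)) h1⟩
  choose c hc1 hc2 hc3 using hc
  obtain ⟨Y, hY⟩ : ∃ Y : Finset k, ∀ r < m, ∀ s < m, ∀ f : S, c r s f ≠ 0 →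
      c r s f ∈ Y ∧ (c r s f)⁻¹ ∈ Y := by
    refine ⟨(Finset.range m).biUnion fun r => (Finset.range m).biUnion fun s =>
      (c r s).support.image (fun f => c r s f) ∪ (c r s).support.image (fun f => (c r s f)⁻¹),
      fun r hr s hs f hf => ?_⟩
    simp only [Finset.mem_biUnion, Finset.mem_range, Finset.mem_union, Finset.mem_image]
    exact ⟨⟨r, hr, s, hs, Or.inl ⟨f, Finsupp.mem_support_iff.2 hf, rfl⟩⟩,
      ⟨r, hr, s, hs, Or.inr ⟨f, Finsupp.mem_support_iff.2 hf, rfl⟩⟩⟩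
  refine ⟨S, β, Y, hsg, hβ, fun d hd => ?_, fun z hz => ?_, fun A₀ hA d e => ?_⟩
  · have h1 : w (d % m) = 0 := by
      have := hle d
      omega
    rw [hβd, h1, hy1 _ h1, hd]
    simp
  · obtain ⟨n, hn⟩ := exists_mem_LP hz
    obtain ⟨c', h1, _⟩ := hexp n z hz (mem_LP.1 hn).2
    rw [h1]
    exact Submodule.sum_mem _ fun f _ => Submodule.smul_mem _ _ (Submodule.subset_span ⟨f, rfl⟩)
  · obtain ⟨r, hr⟩ : ∃ r, r = (d : ℕ) % m := ⟨_, rfl⟩
    obtain ⟨s, hs⟩ : ∃ s, s = (e : ℕ) % m := ⟨_, rfl⟩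
    have hrm : r < m := by rw [hr]; exact Nat.mod_lt _ hm0
    have hsm : s < m := by rw [hs]; exact Nat.mod_lt _ hm0
    obtain ⟨i, hi⟩ : ∃ i, i = ((d : ℕ) - w r) / m := ⟨_, rfl⟩
    obtain ⟨j, hj⟩ : ∃ j, j = ((e : ℕ) - w s) / m := ⟨_, rfl⟩
    have hd' : (d : ℕ) = w r + m * i := by rw [hi, hr]; exact hdec d
    have he' : (e : ℕ) = w s + m * j := by rw [hj, hs]; exact hdec e
    have hmemA : ∀ f : S, c r s f ∈ A₀ := by
      intro f
      by_cases h : c r s f = 0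
      · rw [h]; exact zero_mem _
      · exact hA (hY r hrm s hsm f h).1
    obtain ⟨c', hc'⟩ : ∃ c' : S →₀ A₀, ∀ f, ((c' f : A₀) : k) = c r s f := by
      refine ⟨⟨(c r s).support, fun f => ⟨c r s f, hmemA f⟩, fun f => ?_⟩, fun f => rfl⟩
      rw [Finsupp.mem_support_iff, Ne, Ne, Subtype.ext_iff]
      rfl
    obtain ⟨σ, hσ⟩ : ∃ σ : S → S, ∀ f : S, ((σ f : S) : ℕ) = (f : ℕ) + m * (i + j) :=
      ⟨fun f => ⟨(f : ℕ) + m * (i + j), hmS _ _ f.2⟩, fun _ => rfl⟩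
    have hσi : Function.Injective σ := fun f g h => Subtype.ext (by
      have h1 := hσ f
      rw [h, hσ g] at h1
      omega)
    have hshift : ∀ f : S, β (σ f) = x ^ (i + j) * β f := by
      intro f
      rw [hβd, hβd, hσ, Nat.add_mul_mod_self_left]
      have h1 : ((f : ℕ) + m * (i + j) - w ((f : ℕ) % m)) / m =
          ((f : ℕ) - w ((f : ℕ) % m)) / m + (i + j) := by
        rw [Nat.add_comm (f : ℕ), Nat.add_sub_assoc (hle f), Nat.mul_add_div hm0, Nat.add_comm]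
      rw [h1, pow_add]
      ring
    refine ⟨c'.mapDomain σ, ?_, fun f hf => ?_, fun f hf => ?_⟩
    · rw [Finsupp.sum_mapDomain_index (fun _ => by rw [ZeroMemClass.coe_zero, zero_smul])
        (fun _ _ _ => by rw [AddMemClass.coe_add, add_smul])]
      have h1 : c'.sum (fun f x => (x : k) • β (σ f)) =
          x ^ (i + j) * (c r s).sum (fun f x => x • β f) := by
        rw [Finsupp.sum, Finsupp.sum, Finset.mul_sum]
        have h2 : c'.support = (c r s).support := by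
          ext f
          rw [Finsupp.mem_support_iff, Finsupp.mem_support_iff, ← hc' f, Ne, Ne,
            ZeroMemClass.coe_eq_zero]
        rw [h2]
        refine Finset.sum_congr rfl fun f _ => ?_
        rw [hc', hshift, mul_smul_comm]
      rw [h1, ← hc1, hβd d, hβd e, ← hr, ← hs, ← hi, ← hj, pow_add]
      ring
    · by_cases hfr : f ∈ Set.range σ
      · obtain ⟨g, rfl⟩ := hfr
        rw [Finsupp.mapDomain_apply hσi]
        have h1 := hσ g
        apply Subtype.ext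
        rw [hc' g]
        refine hc2 r s g ?_
        rw [h1, hd', he'] at hf
        have h2 : m * (i + j) = m * i + m * j := Nat.mul_add _ _ _
        omega
      · rw [Finsupp.mapDomain_of_notMem_range _ _ hfr]
    · have hg : w r + w s ∈ S := hsg.add (hwS r) (hwS s)
      have hfg : f = σ ⟨w r + w s, hg⟩ := Subtype.ext (by
        rw [hσ, hf, hd', he']
        have h2 : m * (i + j) = m * i + m * j := Nat.mul_add _ _ _
        simp only
        omega)
      rw [hfg, Finsupp.mapDomain_apply hσi]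
      have h1 : c r s ⟨w r + w s, hg⟩ ≠ 0 := hc3 r s _ rfl
      have h2 := hY r hrm s hsm _ h1
      refine IsUnit.of_mul_eq_one ⟨(c r s ⟨w r + w s, hg⟩)⁻¹, hA h2.2⟩ (Subtype.ext ?_)
      rw [MulMemClass.coe_mul, hc', OneMemClass.coe_one]
      exact mul_inv_cancel₀ h1

end Vale.Agent.P019P
end
end

section

section

/-!
# A model over a finitely generated ring
-/

namespace Vale.Agent.P019P

open Polynomial IntermediateField

variable {k F : Type*} [Field k] [Field F] [Algebra k F] [CFF k F]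

/-- functions with pairwise distinct orders are linearly independent. -/
theorem h4ModB_li {P₀ : Plk k F} {S : Set ℕ} {β : S → F}
    (hβ : ∀ d, β d ∈ RO P₀ ∧ β d ≠ 0 ∧ ord P₀ (β d) = -((d : ℕ) : ℤ)) :
    LinearIndependent k β := by
  classical
  rw [linearIndependent_iff']
  intro s g hg
  by_contra hcon
  push Not at hcon
  obtain ⟨i₀, hi₀, hgi₀⟩ := hcon
  -- the terms with nonzero coefficient
  obtain ⟨i, hi, hmax⟩ := Finset.exists_max_image (s.filter fun i => g i ≠ 0)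
    (fun i => ((i : S) : ℕ)) ⟨i₀, Finset.mem_filter.2 ⟨hi₀, hgi₀⟩⟩
  obtain ⟨his, hgi⟩ := Finset.mem_filter.1 hi
  have hord : ∀ j : S, g j ≠ 0 → g j • β j ≠ 0 ∧ ord P₀ (g j • β j) = -((j : ℕ) : ℤ) := by
    intro j hj
    have h3 : algebraMap k F (g j) ≠ 0 := by rwa [Ne, map_eq_zero]
    rw [Algebra.smul_def, ord_mul P₀ h3 (hβ j).2.1, ord_const, zero_add, (hβ j).2.2]
    exact ⟨mul_ne_zero h3 (hβ j).2.1, rfl⟩
  have h := ord_sum_of_lt (P := P₀) (s := s) (f := fun j => g j • β j) (i := i) his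
    (hord i hgi).1 (by
      intro j hj hji
      by_cases h0 : g j = 0
      · left
        show g j • β j = 0
        rw [h0, zero_smul]
      right
      show ord P₀ (g i • β i) + 1 ≤ ord P₀ (g j • β j)
      rw [(hord i hgi).2, (hord j h0).2]
      have h1 : ((j : S) : ℕ) ≤ (i : ℕ) := hmax j (Finset.mem_filter.2 ⟨hj, h0⟩)
      have h2 : ((j : S) : ℕ) ≠ (i : ℕ) := fun h => hji (Subtype.ext h)
      omega)
  exact h.1 hg

/-- a model over a finitely generated subring of the constants which contains given functions. -/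
theorem h4_model_ring (P₀ : Plk k F) (Z : Finset F) (hZ : ∀ z ∈ Z, z ∈ RO P₀) :
    ∃ (A₀ : Subalgebra ℤ k) (R₀ : Subalgebra A₀ F) (S : Set ℕ) (b : Module.Basis S A₀ R₀),
      A₀.FG ∧ Sgp (gen k F) S ∧ IsDB b ∧
      (∀ d : S, (b d : F) ∈ RO P₀ ∧ (b d : F) ≠ 0 ∧ ord P₀ (b d : F) = -((d : ℕ) : ℤ)) ∧
      (∀ w : F, w ∈ RO P₀ → w ∈ Submodule.span k (Set.range fun d : S => (b d : F))) ∧
      ∀ z ∈ Z, z ∈ R₀ := by
  classical
  obtain ⟨S, β, Y, hsg, hβ, hβ1, hspan, hmul⟩ := exists_DB P₀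
  -- coefficients of the given functions
  have hc : ∀ z : F, ∃ c : S →₀ k, z ∈ Z → (c.sum fun i a => a • β i) = z := by
    intro z
    by_cases hz : z ∈ Z
    · obtain ⟨c, hc⟩ := Finsupp.mem_span_range_iff_exists_finsupp.1 (hspan z (hZ z hz))
      exact ⟨c, fun _ => hc⟩
    · exact ⟨0, fun h => absurd h hz⟩
  choose c hc using hc
  obtain ⟨Y', hY'⟩ : ∃ Y' : Finset k, Y' = Y ∪ Z.biUnion fun z => (c z).support.image (c z) :=
    ⟨_, rfl⟩
  obtain ⟨A₀, hA₀⟩ : ∃ A₀ : Subalgebra ℤ k, A₀ = Algebra.adjoin ℤ (Y' : Set k) := ⟨_, rfl⟩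
  have hFG : A₀.FG := by
    rw [hA₀]
    exact Subalgebra.fg_adjoin_finset Y'
  have hsub : (Y' : Set k) ⊆ A₀ := by
    rw [hA₀]
    exact Algebra.subset_adjoin
  have hYA : (Y : Set k) ⊆ A₀ := fun y hy => hsub (by
    rw [hY']
    exact Finset.mem_coe.2 (Finset.mem_union_left _ (Finset.mem_coe.1 hy)))
  have hcA : ∀ z ∈ Z, ∀ i : S, c z i ∈ A₀ := by
    intro z hz i
    by_cases h0 : c z i = 0
    · rw [h0]; exact zero_mem _
    · refine hsub ?_
      rw [hY']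
      refine Finset.mem_coe.2 (Finset.mem_union_right _ ?_)
      rw [Finset.mem_biUnion]
      exact ⟨z, hz, Finset.mem_image.2 ⟨i, Finsupp.mem_support_iff.2 h0, rfl⟩⟩
  have hmul' := hmul A₀ hYA
  -- the span
  obtain ⟨p, hp⟩ : ∃ p : Submodule A₀ F, p = Submodule.span A₀ (Set.range β) := ⟨_, rfl⟩
  have hβp : ∀ d, β d ∈ p := fun d => by
    rw [hp]; exact Submodule.subset_span ⟨d, rfl⟩
  have h1p : (1 : F) ∈ p := by
    have := hβp ⟨0, hsg.zero⟩
    rwa [hβ1 _ rfl] at this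
  have hmulp : ∀ x y : F, x ∈ p → y ∈ p → x * y ∈ p := by
    intro x y hx hy
    rw [hp] at hx hy
    induction hx, hy using Submodule.span_induction₂ with
    | mem_mem x y hx hy =>
      obtain ⟨d, rfl⟩ := hx
      obtain ⟨e, rfl⟩ := hy
      obtain ⟨c', h1, _⟩ := hmul' d e
      rw [h1]
      exact Submodule.sum_mem _ fun f _ => p.smul_mem (c' f) (hβp f)
    | zero_left y hy => rw [zero_mul]; exact zero_mem _
    | zero_right x hx => rw [mul_zero]; exact zero_mem _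
    | add_left x y z hx hy hz h1 h2 => rw [add_mul]; exact add_mem h1 h2
    | add_right x y z hx hy hz h1 h2 => rw [mul_add]; exact add_mem h1 h2
    | smul_left r x y hx hy h => rw [smul_mul_assoc]; exact p.smul_mem r h
    | smul_right r x y hx hy h => rw [mul_smul_comm]; exact p.smul_mem r h
  -- independence
  have hli : LinearIndependent A₀ β := by
    have h1 := h4ModB_li hβ
    exact h1.restrict_scalars (R := A₀) (fun a b h => Subtype.ext (by
      simpa [Algebra.smul_def] using h))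
  obtain ⟨R₀, hR₀⟩ : ∃ R₀ : Subalgebra A₀ F, R₀ = p.toSubalgebra h1p hmulp := ⟨_, rfl⟩
  have hmemR : ∀ x : F, x ∈ R₀ ↔ x ∈ p := fun x => by
    rw [hR₀]; exact Iff.rfl
  -- the basis
  obtain ⟨b, hb⟩ : ∃ b : Module.Basis S A₀ R₀, ∀ d, (b d : F) = β d := by
    have hli' : LinearIndependent A₀ (fun d : S => (⟨β d, (hmemR _).2 (hβp d)⟩ : R₀)) := by
      refine LinearIndependent.of_comp R₀.val.toLinearMap ?_
      exact hli
    refine ⟨Module.Basis.mk hli' ?_, fun d => ?_⟩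
    · rintro ⟨x, hx⟩ _
      have hx' := (hmemR x).1 hx
      rw [hp, Finsupp.mem_span_range_iff_exists_finsupp] at hx'
      obtain ⟨c', hc'⟩ := hx'
      rw [Finsupp.mem_span_range_iff_exists_finsupp]
      refine ⟨c', Subtype.ext ?_⟩
      refine Eq.trans ?_ hc'
      rw [Finsupp.sum, Finsupp.sum, AddSubmonoidClass.coe_finsetSum]
      rfl
    · rw [Module.Basis.mk_apply]
  have hrange : (Set.range fun d : S => (b d : F)) = Set.range β := by
    congr 1
    funext d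
    exact hb d
  have hrepr : ∀ d e : S, ∃ c' : S →₀ A₀, b.repr (b d * b e) = c' ∧
      (∀ f : S, (d : ℕ) + e < f → c' f = 0) ∧ ∀ f : S, (f : ℕ) = d + e → IsUnit (c' f) := by
    intro d e
    obtain ⟨c', h1, h2, h3⟩ := hmul' d e
    refine ⟨c', ?_, h2, h3⟩
    have h4 : b d * b e = Finsupp.linearCombination A₀ b c' := by
      apply Subtype.ext
      rw [Subalgebra.coe_mul, hb, hb, h1, Finsupp.linearCombination_apply, Finsupp.sum,
        Finsupp.sum, AddSubmonoidClass.coe_finsetSum]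
      refine Finset.sum_congr rfl fun f _ => ?_
      rw [Subalgebra.coe_smul, hb]
      rfl
    rw [h4, Module.Basis.repr_linearCombination]
  refine ⟨A₀, R₀, S, b, hFG, hsg, ⟨fun d hd => ?_, fun d e f hf => ?_, fun d e f hf => ?_⟩,
    fun d => ?_, fun w hw => ?_, fun z hz => ?_⟩
  · apply Subtype.ext
    rw [hb, hβ1 d hd]
    rfl
  · obtain ⟨c', h1, h2, h3⟩ := hrepr d e
    rw [h1]
    exact h3 f hf
  · obtain ⟨c', h1, h2, h3⟩ := hrepr d e
    rw [h1]
    exact h2 f hf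
  · rw [hb]
    exact hβ d
  · rw [hrange]
    exact hspan w hw
  · rw [hmemR, ← hc z hz]
    exact Submodule.sum_mem _ fun f _ => p.smul_mem (⟨c z f, hcA z hz f⟩ : A₀) (hβp f)

end Vale.Agent.P019P
end
end

section

section

/-!
# Models over finitely generated rings
-/

universe u

namespace Vale.Agent.P019P

open Polynomial IntermediateField TensorProduct

variable {k F : Type u} [Field k] [Field F] [Algebra k F] [CFF k F]

/-- every function of a function field is a quotient of functions with poles only at `P₀`. -/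
theorem h4_frac (P₀ : Plk k F) (w : F) : ∃ c : F, c ∈ RO P₀ ∧ c ≠ 0 ∧ c * w ∈ RO P₀ := by
  classical
  by_cases hw : w = 0
  · exact ⟨1, one_mem _, one_ne_zero, by rw [hw, mul_zero]; exact zero_mem _⟩
  let E : Plk k F →₀ ℤ := ((dv k w).mapRange (fun n => max (-n) 0) (by simp)).erase P₀
  have hE : ∀ Q, Q ≠ P₀ → E Q = max (-ord Q w) 0 := by
    intro Q hQ
    change Finsupp.erase P₀ _ Q = _
    rw [Finsupp.erase_ne hQ, Finsupp.mapRange_apply, dv_apply]
  have hE0 : ∀ Q, 0 ≤ E Q := by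
    intro Q
    by_cases hQ : Q = P₀
    · rw [hQ]
      change 0 ≤ Finsupp.erase P₀ _ P₀
      rw [Finsupp.erase_same]
    · rw [hE Q hQ]
      exact le_max_right _ _
  have hdg : 0 ≤ dg E := by
    have h1 : (0 : Plk k F →₀ ℤ) ≤ E := fun Q => by simpa using hE0 Q
    have h2 := dg_mono h1
    rwa [map_zero] at h2
  let n : ℕ := (dg E).toNat + 2 * gen k F
  obtain ⟨z, hz0, hz1, -⟩ := h4_exact (D := Finsupp.single P₀ (n : ℤ) - E) P₀ (by
    rw [map_sub, h4RRA_dg_single]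
    have h3 := Int.toNat_of_nonneg hdg
    have h4 : (n : ℤ) = ((dg E).toNat : ℤ) + 2 * (gen k F : ℤ) := by
      simp only [n]; push_cast; ring
    rw [h4, h3]
    linarith)
  have hz2 : ∀ Q, Q ≠ P₀ → E Q ≤ ord Q z := by
    intro Q hQ
    have h1 := hz1 Q
    rw [Finsupp.sub_apply, h4RRA_single_ne hQ] at h1
    linarith
  refine ⟨z, mem_RO.2 fun Q hQ => Or.inr ((hE0 Q).trans (hz2 Q hQ)), hz0,
    mem_RO.2 fun Q hQ => Or.inr ?_⟩
  rw [ord_mul Q hz0 hw]
  have h1 := hz2 Q hQ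
  rw [hE Q hQ] at h1
  have h2 := le_max_left (-ord Q w) 0
  linarith

section

variable {A₀ : Type u} [CommRing A₀] [Algebra A₀ k] {R₀ : Type u} [CommRing R₀] [Algebra A₀ R₀]
  {S : Set ℕ} (b : Module.Basis S A₀ R₀) (μ : (k ⊗[A₀] R₀) →ₐ[k] F)

omit [CFF k F] in
theorem h4ModC_eq (z : k ⊗[A₀] R₀) :
    μ z = ∑ d ∈ ((b.baseChange k).repr z).support,
      (b.baseChange k).repr z d • μ (1 ⊗ₜ b d) := by
  conv_lhs => rw [← (b.baseChange k).linearCombination_repr z]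
  rw [Finsupp.linearCombination_apply, Finsupp.sum, map_sum]
  refine Finset.sum_congr rfl fun d _ => ?_
  rw [map_smul, Module.Basis.baseChange_apply]

theorem h4ModC_ord {P₀ : Plk k F} (hμ : ∀ d : S, μ (1 ⊗ₜ b d) ≠ 0 ∧
      ord P₀ (μ (1 ⊗ₜ b d)) = -((d : ℕ) : ℤ)) {z : k ⊗[A₀] R₀} (hz : z ≠ 0) :
    μ z ≠ 0 ∧ ord P₀ (μ z) = -(dgr (b.baseChange k) z : ℤ) := by
  obtain ⟨d, hd, hd2⟩ := exists_lead (b := b.baseChange k) hz
  have hc : ∀ (c : k) (f : S), c ≠ 0 → c • μ (1 ⊗ₜ b f) ≠ 0 ∧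
      ord P₀ (c • μ (1 ⊗ₜ b f)) = -((f : ℕ) : ℤ) := by
    intro c f hc
    have h1 : algebraMap k F c ≠ 0 := by rwa [Ne, map_eq_zero]
    refine ⟨smul_ne_zero hc (hμ f).1, ?_⟩
    rw [Algebra.smul_def, ord_mul P₀ h1 (hμ f).1, ord_const, zero_add, (hμ f).2]
  rw [h4ModC_eq b μ z]
  have h1 := ord_sum_of_lt (P := P₀) (s := ((b.baseChange k).repr z).support)
    (f := fun d => (b.baseChange k).repr z d • μ (1 ⊗ₜ b d)) (i := d)
    (Finsupp.mem_support_iff.2 hd2) (hc _ d hd2).1 (by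
      intro f hf hfd
      have hf2 := Finsupp.mem_support_iff.1 hf
      have h2 : (f : ℕ) ≤ dgr (b.baseChange k) z :=
        Finset.le_sup (f := fun f : S => (f : ℕ)) hf
      have h3 : (f : ℕ) ≠ d := fun h => hfd (Subtype.ext h)
      refine Or.inr ?_
      rw [(hc _ d hd2).2, (hc _ f hf2).2]
      omega)
  refine ⟨h1.1, ?_⟩
  rw [h1.2, (hc _ d hd2).2, hd]

end

/-- a model from a ring of functions. -/
theorem h4_model_gen {A₀ : Type u} [CommRing A₀] [Algebra A₀ k] [Algebra A₀ F]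
    [IsScalarTower A₀ k F] {R₀ : Type u} [CommRing R₀] [Algebra A₀ R₀] {S : Set ℕ}
    (b : Module.Basis S A₀ R₀) (P₀ : Plk k F) (v : R₀ →ₐ[A₀] F) (hSg : Sgp (gen k F) S)
    (hDB : IsDB b) (hb : ∀ d : S, v (b d) ≠ 0 ∧ ord P₀ (v (b d)) = -((d : ℕ) : ℤ))
    (hspan : ∀ w : F, w ∈ RO P₀ → w ∈ Submodule.span k (Set.range fun d : S => v (b d))) :
    ∃ (_ : Algebra (k ⊗[A₀] R₀) F)
      (_ : IsFractionRing (k ⊗[A₀] R₀) F) (_ : IsScalarTower k (k ⊗[A₀] R₀) F),
      HM (b.baseChange k) (gen k F) P₀ ∧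
      ∀ r : R₀, algebraMap (k ⊗[A₀] R₀) F (1 ⊗ₜ r) = v r := by
  let μ : (k ⊗[A₀] R₀) →ₐ[k] F :=
    Algebra.TensorProduct.lift (Algebra.ofId k F) v (fun _ _ => Commute.all _ _)
  have hμ : ∀ r : R₀, μ (1 ⊗ₜ r) = v r := by
    intro r
    simp only [μ, Algebra.TensorProduct.lift_tmul, map_one, one_mul]
  have hμb : ∀ d : S, μ (1 ⊗ₜ b d) ≠ 0 ∧ ord P₀ (μ (1 ⊗ₜ b d)) = -((d : ℕ) : ℤ) := by
    intro d
    rw [hμ]
    exact hb d
  have hinj : Function.Injective μ := by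
    rw [injective_iff_map_eq_zero]
    intro z hz
    by_contra hne
    exact (h4ModC_ord b μ hμb hne).1 hz
  have hfull : ∀ w : F, w ∈ RO P₀ → ∃ z, μ z = w := by
    intro w hw
    have h1 : Submodule.span k (Set.range fun d : S => v (b d)) ≤ LinearMap.range μ.toLinearMap := by
      rw [Submodule.span_le]
      rintro _ ⟨d, rfl⟩
      exact ⟨1 ⊗ₜ b d, hμ (b d)⟩
    exact h1 (hspan w hw)
  let alg : Algebra (k ⊗[A₀] R₀) F := μ.toRingHom.toAlgebra
  have halg : ∀ z, algebraMap (k ⊗[A₀] R₀) F z = μ z := fun z => rfl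
  have hST : IsScalarTower k (k ⊗[A₀] R₀) F := by
    refine IsScalarTower.of_algebraMap_eq (R := k) (S := k ⊗[A₀] R₀) (A := F) fun x => ?_
    rw [halg, AlgHom.commutes]
  have hfs : FaithfulSMul (k ⊗[A₀] R₀) F :=
    (faithfulSMul_iff_algebraMap_injective _ _).2 hinj
  have hFR : IsFractionRing (k ⊗[A₀] R₀) F := by
    refine IsFractionRing.of_field _ _ fun w => ?_
    obtain ⟨c, hc, hc0, hcw⟩ := h4_frac P₀ w
    obtain ⟨x, hx⟩ := hfull _ hcw
    obtain ⟨y, hy⟩ := hfull _ hc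
    refine ⟨x, y, ?_⟩
    rw [halg, halg, hx, hy, mul_div_cancel_left₀ _ hc0]
  refine ⟨alg, hFR, hST, ⟨hDB.baseChange k, hSg, fun z hz => ?_, fun w hw => ?_⟩, fun r => ?_⟩
  · rw [halg]
    exact (h4ModC_ord b μ hμb hz).2
  · exact hfull w hw
  · rw [halg]
    exact hμ _

/-- models over finitely generated rings. -/
theorem h4_model (P₀ : Plk k F) (Z : Finset F) (hZ : ∀ z ∈ Z, z ∈ RO P₀) :
    ∃ (A₀ : Type u) (_ : CommRing A₀) (_ : IsDomain A₀) (_ : Algebra.FiniteType ℤ A₀)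
      (_ : Algebra A₀ k) (R₀ : Type u) (_ : CommRing R₀) (_ : Algebra A₀ R₀) (S : Set ℕ)
      (b : Module.Basis S A₀ R₀) (_ : Algebra (k ⊗[A₀] R₀) F)
      (_ : IsFractionRing (k ⊗[A₀] R₀) F) (_ : IsScalarTower k (k ⊗[A₀] R₀) F),
      Function.Injective (algebraMap A₀ k) ∧ IsDB b ∧
      HM (b.baseChange k) (gen k F) P₀ ∧
      ∀ z ∈ Z, ∃ r : R₀, algebraMap (k ⊗[A₀] R₀) F (1 ⊗ₜ r) = z := by
  obtain ⟨A₀, R₀, S, b, hFG, hSg, hDB, hb, hspan, hZR⟩ := h4_model_ring P₀ Z hZ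
  obtain ⟨i1, i2, i3, hHM, hv⟩ := h4_model_gen b P₀ R₀.val hSg hDB (fun d => (hb d).2) hspan
  exact ⟨A₀, inferInstance, inferInstance, (Subalgebra.fg_iff_finiteType A₀).1 hFG, inferInstance,
    R₀, inferInstance, inferInstance, S, b, i1, i2, i3, Subtype.val_injective, hDB,
    hHM, fun z hz => ⟨⟨z, hZR z hz⟩, hv _⟩⟩

end Vale.Agent.P019P
end
end

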