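import Vale.Agent.P025.R2.H816.J07
import Vale.Agent.P025.R2.H816.J09

/-! Carved out of `Vale.Agent.P019.Bd4` (function fields of one variable); generated file. -/

set_option linter.all false

attribute [local instance] O19.fr O19.tf O19.pj O19.fl

section

section

/-!
# Bounded data for rings which are not models
-/

namespace Vale.Agent.P019P

open Polynomial IntermediateField TensorProduct

/-- a linear map into a smaller space has a kernel. -/
theorem h4FrE_ker {K V F : Type*} [Field K] [AddCommGroup V] [Module K V] [AddCommGroup F]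
    [Module K F] [FiniteDimensional K V] (W : Submodule K F) [FiniteDimensional K W]
    (f : V →ₗ[K] F) (hf : ∀ v, f v ∈ W) (h : Module.finrank K W < Module.finrank K V) :
    ∃ v, v ≠ 0 ∧ f v = 0 := by
  have h1 : LinearMap.ker (f.codRestrict W hf) ≠ ⊥ := LinearMap.ker_ne_bot_of_finrank_lt h
  obtain ⟨v, hv, hv0⟩ := Submodule.exists_mem_ne_zero_of_ne_bot h1
  refine ⟨v, hv0, ?_⟩
  exact congrArg Subtype.val (LinearMap.mem_ker.1 hv)

section

variable {K R F : Type*} [Field K] [CommRing R] [Algebra K R] [Field F]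
    [Algebra R F] [Algebra K F] [IsScalarTower K R F]

theorem h4FrE_smul (c : K) (x : R) : algebraMap R F (c • x) = c • algebraMap R F x :=
  (IsScalarTower.toAlgHom K R F).toLinearMap.map_smul c x

/-- the coefficients of the monic equation. -/
noncomputable def h4FrE_co (g J : ℕ) (lam : ℕ → K) (ρ : R) (t : ℕ) : R :=
  if t < g - J then 0 else if t = g - J then -((lam J)⁻¹ • ρ) else
        ((lam J)⁻¹ * lam (t - (g - J) - 1)) • (1 : R)

/-- the monic equation. -/
theorem h4FrE_monic {g J : ℕ} (hJ : J ≤ g) (lam : ℕ → K)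
    (hlam : lam J ≠ 0) (z : F) (ρ : R)
    (h : ∑ j ∈ Finset.range (J + 1), lam j • z ^ (j + 1) = algebraMap R F ρ) :
    z ^ (g + 1) + ∑ t ∈ Finset.range (g + 1), algebraMap R F (h4FrE_co g J lam ρ t) * z ^ t
      = 0 := by
  obtain ⟨e, rfl⟩ := Nat.exists_eq_add_of_le' hJ
  rw [show e + J + 1 = e + (J + 1) by ring, Finset.sum_range_add, Finset.sum_range_succ' _ J]
  have h1 : ∑ t ∈ Finset.range e, algebraMap R F (h4FrE_co (e + J) J lam ρ t) * z ^ t = 0 := by
    refine Finset.sum_eq_zero fun t ht => ?_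
    rw [h4FrE_co, Nat.add_sub_cancel, if_pos (Finset.mem_range.1 ht), map_zero, zero_mul]
  have h2 : ∑ k ∈ Finset.range J,
      algebraMap R F (h4FrE_co (e + J) J lam ρ (e + (k + 1))) * z ^ (e + (k + 1)) =
      ((lam J)⁻¹ • ∑ k ∈ Finset.range J, lam k • z ^ (k + 1)) * z ^ e := by
    rw [Finset.smul_sum, Finset.sum_mul]
    refine Finset.sum_congr rfl fun k _ => ?_
    rw [h4FrE_co, Nat.add_sub_cancel, if_neg (by omega), if_neg (by omega),
      show e + (k + 1) - e - 1 = k by omega, h4FrE_smul, map_one, smul_mul_assoc, one_mul,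
      smul_smul, smul_mul_assoc, ← pow_add, add_comm e]
  have h3 : algebraMap R F (h4FrE_co (e + J) J lam ρ (e + 0)) * z ^ (e + 0) =
      -((lam J)⁻¹ • algebraMap R F ρ) * z ^ e := by
    rw [h4FrE_co, Nat.add_sub_cancel, if_neg (by omega), if_pos (by omega), map_neg, h4FrE_smul,
      Nat.add_zero]
  have h4 : (lam J)⁻¹ • (∑ k ∈ Finset.range J, lam k • z ^ (k + 1) + lam J • z ^ (J + 1)) =
      (lam J)⁻¹ • ∑ k ∈ Finset.range J, lam k • z ^ (k + 1) + z ^ (J + 1) := by
    rw [smul_add, smul_smul, inv_mul_cancel₀ hlam, one_smul]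
  rw [h1, h2, h3, ← h, Finset.sum_range_succ, h4]
  ring

theorem h4FrE_co_mem {S : Set ℕ} {b : Module.Basis S K R} {N : ℕ} (h1 : (1 : R) ∈ fil b N)
    (g J : ℕ) (lam : ℕ → K) {ρ : R} (hρ : ρ ∈ fil b N) (t : ℕ) :
    h4FrE_co g J lam ρ t ∈ fil b N := by
  rw [h4FrE_co]
  split_ifs
  · exact zero_mem _
  · exact neg_mem (Submodule.smul_mem _ _ hρ)
  · exact Submodule.smul_mem _ _ h1

end

variable {K R F : Type*} [Field K] [IsAlgClosed K] [CommRing R] [Algebra K R] [Field F]
  [Algebra R F] [IsFractionRing R F] [Algebra K F] [IsScalarTower K R F] {S : Set ℕ} {g : ℕ}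
  {b : Module.Basis S K R} [CFF K F] {P₀ : Plk K F}

/-- the filtration is the one of the pole orders. -/
theorem h4FrE_mem_LP (h : IsDB b) (hS : Sgp g S)
    (hP₀ : ∀ z : R, z ≠ 0 → ord P₀ (algebraMap R F z) = -(dgr b z : ℤ)) {n : ℕ} {z : R}
    (hz : z ∈ fil b n) : algebraMap R F z ∈ LP P₀ n := by
  refine mem_LP.2 ⟨h4_RO h hS hP₀ z, ?_⟩
  by_cases h0 : z = 0
  · left; rw [h0, map_zero]
  · right
    rw [hP₀ z h0]
    have := mem_fil_iff.1 hz
    omega

/-- a missing function of smallest degree. -/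
theorem h4FrE_missing (h : IsDB b) (hS : Sgp g S)
    (hP₀ : ∀ z : R, z ≠ 0 → ord P₀ (algebraMap R F z) = -(dgr b z : ℤ))
    (hn : ¬ ∀ w : F, w ∈ RO P₀ → ∃ z : R, algebraMap R F z = w) :
    1 ≤ g ∧ ∃ w : F, w ∈ LP P₀ (2 * g - 1) ∧ ∀ z : R, algebraMap R F z ≠ w := by
  classical
  have hex : ∃ n : ℕ, ∃ w : F, w ∈ LP P₀ n ∧ ∀ z : R, algebraMap R F z ≠ w := by
    push Not at hn
    obtain ⟨w, hw, hw2⟩ := hn
    obtain ⟨n, hn⟩ := exists_mem_LP hw
    exact ⟨n, w, hn, hw2⟩
  obtain ⟨w, hw, hw2⟩ := Nat.find_spec hex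
  have hmin := fun m (hm : m < Nat.find hex) => Nat.find_min hex hm
  set d := Nat.find hex with hd
  have hd0 : d ≠ 0 := by
    intro h0
    rw [h0] at hw
    obtain ⟨h1, h2⟩ := mem_LP.1 hw
    have h3 : 0 ≤ ord P₀ w := by
      rcases h2 with h2 | h2
      · rw [h2, ord_zero]
      · simpa using h2
    obtain ⟨c, hc⟩ := h4_const h1 h3
    refine hw2 (algebraMap K R c) ?_
    rw [hc, ← IsScalarTower.algebraMap_apply]
  have hdS : d ∉ S := by
    intro hdS
    have hb0 : b ⟨d, hdS⟩ ≠ 0 := b.ne_zero _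
    have hb1 : algebraMap R F (b ⟨d, hdS⟩) ≠ 0 := by
      intro h0
      exact hb0 ((injective_iff_map_eq_zero _).1 (IsFractionRing.injective R F) _ h0)
    have hb2 : ord P₀ (algebraMap R F (b ⟨d, hdS⟩)) = -(d : ℤ) := by
      rw [hP₀ _ hb0, dgr_basis]
    obtain ⟨h1, h2⟩ := mem_LP.1 hw
    obtain ⟨c, hc⟩ := exists_sub_mem hb1 hb2 (mem_Mge.2 h2)
    have h3 : w - c • algebraMap R F (b ⟨d, hdS⟩) ∈ LP P₀ (d - 1) := by
      refine mem_LP.2 ⟨sub_mem h1 (Subalgebra.smul_mem _ (h4_RO h hS hP₀ _) c), ?_⟩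
      rcases mem_Mge.1 hc with h4 | h4
      · exact Or.inl h4
      · right
        have : ((d - 1 : ℕ) : ℤ) = (d : ℤ) - 1 := by
          have := Nat.pos_of_ne_zero hd0
          omega
        omega
    refine hmin (d - 1) (by omega) ⟨_, h3, fun z hz => ?_⟩
    refine hw2 (z + c • b ⟨d, hdS⟩) ?_
    rw [map_add, hz, h4FrE_smul, sub_add_cancel]
  have hlt : d < 2 * g := by
    by_contra hc
    exact hdS (hS.large d (not_lt.1 hc))
  exact ⟨by omega, w, LP_mono P₀ (by omega) hw, hw2⟩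

/-- if some function with poles only at infinity is missing, there is one with bounded data. -/
theorem h4_notFull (h : IsDB b) (hS : Sgp g S)
    (hP₀ : ∀ z : R, z ≠ 0 → ord P₀ (algebraMap R F z) = -(dgr b z : ℤ))
    (hn : ¬ ∀ w : F, w ∈ RO P₀ → ∃ z : R, algebraMap R F z = w) :
    ∃ (a q : R) (ρ : Fin (g + 1) → R), a ∈ fil b (4 * g) ∧ q ∈ fil b (2 * g) ∧
      (∀ t, ρ t ∈ fil b (2 * g * (g + 1))) ∧
      a ^ (g + 1) + ∑ t, ρ t * a ^ (t : ℕ) * q ^ (g + 1 - (t : ℕ)) = 0 ∧
      ∀ w : R, a ≠ q * w := by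
  obtain ⟨hg, z, hz, hz2⟩ := h4FrE_missing h hS hP₀ hn
  have hinj : Function.Injective (algebraMap R F) := IsFractionRing.injective R F
  have := fil_finite b (2 * g)
  have := fil_finite b (4 * g - 1)
  have := fil_finite b (2 * g * (g + 1))
  let Φ : R →ₗ[K] F := (IsScalarTower.toAlgHom K R F).toLinearMap
  have hΦ : ∀ x, Φ x = algebraMap R F x := fun x => rfl
  -- the denominator
  obtain ⟨⟨⟨q, hq⟩, ⟨a, ha⟩⟩, hne, hqa⟩ := h4FrE_ker (LP P₀ (4 * g - 1))
    (((LinearMap.mulRight K z).comp (Φ.comp (fil b (2 * g)).subtype)).coprod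
      (-(Φ.comp (fil b (4 * g - 1)).subtype))) (by
        rintro ⟨⟨q, hq⟩, ⟨a, ha⟩⟩
        have h1 := LP_mul (h4FrE_mem_LP h hS hP₀ hq) hz
        have h2 := h4FrE_mem_LP h hS hP₀ ha
        rw [show 2 * g + (2 * g - 1) = 4 * g - 1 by omega] at h1
        exact add_mem h1 (neg_mem h2)) (by
        have h1 := l_LP_le P₀ (4 * g - 1)
        have h2 := finrank_fil b hS (n := 2 * g) le_rfl
        have h3 := finrank_fil b hS (n := 4 * g - 1) (by omega)
        rw [Module.finrank_prod]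
        omega)
  have hqa : algebraMap R F q * z + -algebraMap R F a = 0 := hqa
  have hqa : algebraMap R F q * z = algebraMap R F a := by
    rw [← sub_eq_add_neg] at hqa
    exact sub_eq_zero.1 hqa
  have hq0 : q ≠ 0 := by
    rintro rfl
    rw [map_zero, zero_mul] at hqa
    have h0 : a = 0 := hinj (by rw [← hqa, map_zero])
    subst h0
    exact hne rfl
  -- the equation
  have hN : ∀ j : Fin (g + 1), z ^ ((j : ℕ) + 1) ∈ LP P₀ (2 * g * (g + 1)) := by
    intro j
    refine LP_mono P₀ ?_ (LP_pow hz ((j : ℕ) + 1))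
    rw [mul_comm (2 * g) (g + 1)]
    exact Nat.mul_le_mul (by omega) (by omega)
  obtain ⟨⟨lam, ⟨ρ, hρ⟩⟩, hne2, hlr⟩ := h4FrE_ker (LP P₀ (2 * g * (g + 1)))
    ((Fintype.linearCombination K (fun j : Fin (g + 1) => z ^ ((j : ℕ) + 1))).coprod
      (-(Φ.comp (fil b (2 * g * (g + 1))).subtype))) (by
        rintro ⟨lam, ⟨ρ, hρ⟩⟩
        have h2 := h4FrE_mem_LP h hS hP₀ hρ
        have h1 : Fintype.linearCombination K (fun j : Fin (g + 1) => z ^ ((j : ℕ) + 1)) lam ∈
            LP P₀ (2 * g * (g + 1)) := by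
          rw [Fintype.linearCombination_apply]
          exact Submodule.sum_mem _ fun j _ => Submodule.smul_mem _ _ (hN j)
        exact add_mem h1 (neg_mem h2)) (by
        have h1 := l_LP_le P₀ (2 * g * (g + 1))
        have h3 := finrank_fil b hS (n := 2 * g * (g + 1)) (Nat.le_mul_of_pos_right _ (by omega))
        rw [Module.finrank_prod, Module.finrank_fin_fun]
        omega)
  have hlr : ∑ j : Fin (g + 1), lam j • z ^ ((j : ℕ) + 1) + -algebraMap R F ρ = 0 := hlr
  have hlr : ∑ j : Fin (g + 1), lam j • z ^ ((j : ℕ) + 1) = algebraMap R F ρ := by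
    rw [← sub_eq_add_neg] at hlr
    exact sub_eq_zero.1 hlr
  have hlam : ∃ j, lam j ≠ 0 := by
    by_contra hc
    push Not at hc
    have h1 : lam = 0 := funext hc
    have h2 : ρ = 0 := by
      apply hinj
      rw [← hlr, map_zero]
      exact Finset.sum_eq_zero fun j _ => by rw [hc, zero_smul]
    subst h2
    subst h1
    exact hne2 rfl
  classical
  obtain ⟨J, hJ, hJmax⟩ := Finset.exists_max_image (Finset.univ.filter fun j => lam j ≠ 0)
    (fun j : Fin (g + 1) => (j : ℕ)) (by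
      obtain ⟨j, hj⟩ := hlam
      exact ⟨j, by simpa using hj⟩)
  have hJ : lam J ≠ 0 := by simpa using hJ
  let mu : ℕ → K := fun j => if hj : j < g + 1 then lam ⟨j, hj⟩ else 0
  have hmu : ∀ j : Fin (g + 1), mu j = lam j := fun j => dif_pos j.2
  have hmuJ : mu J ≠ 0 := by rw [hmu]; exact hJ
  have hmu0 : ∀ j, (J : ℕ) < j → mu j = 0 := by
    intro j hj
    by_cases hj2 : j < g + 1
    · have h1 : mu j = lam ⟨j, hj2⟩ := hmu ⟨j, hj2⟩
      rw [h1]
      by_contra hc
      have h2 := hJmax ⟨j, hj2⟩ (by simpa using hc)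
      simp only at h2
      omega
    · exact dif_neg hj2
  have hJg : (J : ℕ) ≤ g := Nat.lt_succ_iff.1 J.2
  have hsum : ∑ j ∈ Finset.range ((J : ℕ) + 1), mu j • z ^ (j + 1) = algebraMap R F ρ := by
    rw [← hlr]
    have h1 : ∑ j : Fin (g + 1), lam j • z ^ ((j : ℕ) + 1) =
        ∑ j ∈ Finset.range (g + 1), mu j • z ^ (j + 1) := by
      rw [← Fin.sum_univ_eq_sum_range (fun j => mu j • z ^ (j + 1)) (g + 1)]
      exact Finset.sum_congr rfl fun j _ => by rw [hmu]
    rw [h1]
    refine Finset.sum_subset (Finset.range_mono (by omega)) fun j _ hj => ?_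
    rw [hmu0 j (by simpa using hj), zero_smul]
  have hmon := h4FrE_monic hJg mu hmuJ z ρ hsum
  refine ⟨a, q, fun t => h4FrE_co g J mu ρ t, fil_mono b (by omega) ha, hq, fun t =>
    h4FrE_co_mem (fil_one h hS.zero _) g J mu hρ t, ?_, ?_⟩
  · apply hinj
    rw [map_zero, map_add, map_pow, map_sum, ← hqa]
    have h1 : ∑ t : Fin (g + 1), algebraMap R F
          (h4FrE_co g J mu ρ t * a ^ (t : ℕ) * q ^ (g + 1 - (t : ℕ))) =
        (algebraMap R F q) ^ (g + 1) * ∑ t ∈ Finset.range (g + 1),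
          algebraMap R F (h4FrE_co g J mu ρ t) * z ^ t := by
      rw [← Fin.sum_univ_eq_sum_range
        (fun t => algebraMap R F (h4FrE_co g J mu ρ t) * z ^ t) (g + 1), Finset.mul_sum]
      refine Finset.sum_congr rfl fun t _ => ?_
      have h2 : algebraMap R F q ^ (g + 1) =
          algebraMap R F q ^ (t : ℕ) * algebraMap R F q ^ (g + 1 - (t : ℕ)) := by
        rw [← pow_add]
        congr 1
        have := t.2
        omega
      rw [map_mul, map_mul, map_pow, map_pow, ← hqa, h2, mul_pow]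
      ring
    rw [h1, mul_pow, ← mul_add, hmon, mul_zero]
  · rintro w rfl
    rw [map_mul] at hqa
    refine hz2 w ?_
    have h1 : algebraMap R F q ≠ 0 := by
      intro h0
      exact hq0 ((injective_iff_map_eq_zero _).1 hinj _ h0)
    exact (mul_left_cancel₀ h1 hqa).symm

/-- no such data if all functions are there. -/
theorem h4_full_of (h : IsDB b) (hS : Sgp g S)
    (hP₀ : ∀ z : R, z ≠ 0 → ord P₀ (algebraMap R F z) = -(dgr b z : ℤ))
    (hf : ∀ w : F, w ∈ RO P₀ → ∃ z : R, algebraMap R F z = w) {a q : R}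
    {ρ : Fin (g + 1) → R}
    (heq : a ^ (g + 1) + ∑ t, ρ t * a ^ (t : ℕ) * q ^ (g + 1 - (t : ℕ)) = 0) :
    ∃ w : R, a = q * w := by
  have hinj : Function.Injective (algebraMap R F) := IsFractionRing.injective R F
  have hdom := h4_domain h hS
  by_cases hq : q = 0
  · subst hq
    refine ⟨0, ?_⟩
    have h1 : ∑ t : Fin (g + 1), ρ t * a ^ (t : ℕ) * (0 : R) ^ (g + 1 - (t : ℕ)) = 0 := by
      refine Finset.sum_eq_zero fun t _ => ?_
      rw [zero_pow (by have := t.2; omega), mul_zero]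
    rw [h1, add_zero] at heq
    rw [mul_zero]
    exact eq_zero_of_pow_eq_zero heq
  have hq1 : algebraMap R F q ≠ 0 := by
    intro h0
    exact hq ((injective_iff_map_eq_zero _).1 hinj _ h0)
  obtain ⟨z, hz⟩ : ∃ z : F, algebraMap R F q * z = algebraMap R F a :=
    ⟨(algebraMap R F q)⁻¹ * algebraMap R F a, by rw [mul_inv_cancel_left₀ hq1]⟩
  have hmon : z ^ (g + 1) + ∑ t : Fin (g + 1), algebraMap R F (ρ t) * z ^ (t : ℕ) = 0 := by
    have h0 := congrArg (algebraMap R F) heq
    rw [map_zero, map_add, map_pow, map_sum, ← hz] at h0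
    have h1 : ∑ t : Fin (g + 1), algebraMap R F
          (ρ t * a ^ (t : ℕ) * q ^ (g + 1 - (t : ℕ))) =
        (algebraMap R F q) ^ (g + 1) * ∑ t : Fin (g + 1),
          algebraMap R F (ρ t) * z ^ (t : ℕ) := by
      rw [Finset.mul_sum]
      refine Finset.sum_congr rfl fun t _ => ?_
      have h2 : algebraMap R F q ^ (g + 1) =
          algebraMap R F q ^ (t : ℕ) * algebraMap R F q ^ (g + 1 - (t : ℕ)) := by
        rw [← pow_add]
        congr 1
        have := t.2
        omega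
      rw [map_mul, map_mul, map_pow, map_pow, ← hz, h2, mul_pow]
      ring
    rw [h1, mul_pow, ← mul_add] at h0
    exact (mul_eq_zero.1 h0).resolve_left (pow_ne_zero _ hq1)
  have hRO : z ∈ RO P₀ := by
    refine mem_RO.2 fun P hP => ?_
    by_contra hc
    rw [not_or, not_le] at hc
    obtain ⟨hz0, hneg⟩ := hc
    have h1 : ∑ t : Fin (g + 1), algebraMap R F (ρ t) * z ^ (t : ℕ) ∈
        Mge P ((g : ℤ) * ord P z) := by
      refine Submodule.sum_mem _ fun t _ => ?_
      have h2 : algebraMap R F (ρ t) ∈ Mge P 0 := mem_Mge.2 (mem_RO.1 (h4_RO h hS hP₀ _) P hP)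
      have h3 : z ^ (t : ℕ) ∈ Mge P ((g : ℤ) * ord P z) := by
        right
        rw [ord_pow]
        have h4 : ((t : ℕ) : ℤ) ≤ g := by
          have := t.2
          omega
        nlinarith
      have h5 := mul_mem_Mge h2 h3
      rwa [zero_add] at h5
    have h2 : z ^ (g + 1) ∈ Mge P ((g : ℤ) * ord P z) := by
      rw [eq_neg_of_add_eq_zero_left hmon]
      exact neg_mem h1
    have h3 := (mem_Mge.1 h2).resolve_left (pow_ne_zero _ hz0)
    rw [ord_pow] at h3
    push_cast at h3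
    linarith
  obtain ⟨w, hw⟩ := hf z hRO
  refine ⟨w, hinj ?_⟩
  rw [map_mul, hw, hz]

end Vale.Agent.P019P
end
end

section

section

/-!
# Missing functions
-/

namespace Vale.Agent.P019P

open Polynomial IntermediateField TensorProduct

section

variable {K R : Type*} [Field K] [CommRing R] [Algebra K R] {S : Set ℕ}

/-- elements of the bounded part with the same coordinates are equal. -/
theorem h4NA_ext {b : Module.Basis S K R} {D : ℕ} {z w : R} (hz : z ∈ fil b D)
    (hw : w ∈ fil b D) (h : ∀ d : SD S D, b.repr z d.ix = b.repr w d.ix) : z = w := by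
  apply b.ext_elem
  intro f
  by_cases hf : (f : ℕ) ≤ D
  · exact h ⟨⟨f, by omega⟩, f.2⟩
  · rw [hz f (by omega), hw f (by omega)]

theorem h4NA_repr_mul_el (b : Module.Basis S K R) {D : ℕ} (q : R) (x : SD S D → K) (f : S) :
    b.repr (q * el b x) f = ∑ e : SD S D, x e * b.repr (q * b e.ix) f := by
  rw [el, Finset.mul_sum, map_sum, Finsupp.finsetSum_apply]
  refine Finset.sum_congr rfl fun e _ => ?_
  rw [mul_smul_comm, map_smul, Finsupp.smul_apply, smul_eq_mul]

/-- the coordinates of the data. -/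
noncomputable def h4NA_t (b : Module.Basis S K R) {g D : ℕ} (a q : R) (ρ : Fin (g + 1) → R)
    (u : SD S (2 * D) → K) : IN S g D → K
  | Sum.inl x => b.repr (if h : (x.1 : ℕ) < g + 1 then ρ ⟨x.1, h⟩ else
      if (x.1 : ℕ) = g + 1 then a else q) x.2.ix
  | Sum.inr d => u d

theorem h4NA_uN (b : Module.Basis S K R) {g D : ℕ} (a q : R) (ρ : Fin (g + 1) → R)
    (u : SD S (2 * D) → K) (m : Fin (g + 3)) {z : R} (hz : z ∈ fil b D)
    (h : (if h : (m : ℕ) < g + 1 then ρ ⟨m, h⟩ else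
      if (m : ℕ) = g + 1 then a else q) = z) : uN b (h4NA_t b a q ρ u) m = z := by
  refine h4NA_ext (el_mem b _) hz fun d => ?_
  rw [uN, repr_el, h4NA_t]
  simp only
  rw [h]

end

variable {K R F : Type*} [Field K] [IsAlgClosed K] [CommRing R] [Algebra K R] [Field F]
  [Algebra R F] [IsFractionRing R F] [Algebra K F] [IsScalarTower K R F] {S : Set ℕ} {g : ℕ}
  {b : Module.Basis S K R} [CFF K F] {P₀ : Plk K F}

/-- if functions are missing there is a solution. -/
theorem QN_of_notFull (h : IsDB b) (hS : Sgp g S)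
    (hP₀ : ∀ z : R, z ≠ 0 → ord P₀ (algebraMap R F z) = -(dgr b z : ℤ)) {D : ℕ}
    (hD : D = 2 * g * (g + 1) + 4 * g)
    (hn : ¬ ∀ w : F, w ∈ RO P₀ → ∃ z : R, algebraMap R F z = w) :
    ∃ t : IN S g D → K, QN b t := by
  obtain ⟨a, q, ρ, ha, hq, hρ, heq, hne⟩ := h4_notFull h hS hP₀ hn
  have ha' : a ∈ fil b D := fil_mono b (by omega) ha
  have hq' : q ∈ fil b D := fil_mono b (by omega) hq
  have hρ' : ∀ t, ρ t ∈ fil b D := fun t => fil_mono b (by omega) (hρ t)
  have hnot : (fun d : SD S (2 * D) => b.repr a d.ix) ∉ Submodule.span K (Set.range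
      fun e : SD S D => fun d : SD S (2 * D) => b.repr (q * b e.ix) d.ix) := by
    intro hmem
    rw [Submodule.mem_span_range_iff_exists_fun] at hmem
    obtain ⟨x, hx⟩ := hmem
    refine hne (el b x) (h4NA_ext (D := 2 * D) (fil_mono b (by omega) ha') ?_ fun d => ?_)
    · rw [two_mul]
      exact fil_mul h hq' (el_mem b x)
    · rw [h4NA_repr_mul_el, ← congrFun hx d, Finset.sum_apply]
      rfl
  obtain ⟨u, hu, hu1⟩ := h4_sep hnot
  have e1 : uN b (h4NA_t b (D := D) a q ρ u) ⟨g + 1, by omega⟩ = a :=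
    h4NA_uN b a q ρ u _ ha' (by simp)
  have e2 : uN b (h4NA_t b (D := D) a q ρ u) ⟨g + 2, by omega⟩ = q :=
    h4NA_uN b a q ρ u _ hq' (by simp)
  have e3 : ∀ m : Fin (g + 1), uN b (h4NA_t b (D := D) a q ρ u) ⟨m, by omega⟩ = ρ m := fun m =>
    h4NA_uN b a q ρ u _ (hρ' m) (by simp [m.2])
  refine ⟨h4NA_t b a q ρ u, ?_, ?_, ?_⟩
  · rw [e1, e2, ← heq]
    congr 1
    exact Finset.sum_congr rfl fun m _ => by rw [e3]
  · intro e
    rw [e2]
    exact hu e
  · rw [e1]
    exact hu1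

/-- models have no solution. -/
theorem not_QN (h : HM b g P₀) {D : ℕ} (t : IN S g D → K) : ¬ QN b t := by
  intro hQ
  have hS := h.sg
  have hdom : IsDomain R := h4_domain h.db hS
  obtain ⟨w, hw⟩ := h4_full_of h.db hS h.ord h.full (a := uN b t ⟨g + 1, by omega⟩)
    (q := uN b t ⟨g + 2, by omega⟩) (ρ := fun m => uN b t ⟨m, by omega⟩) hQ.eq
  set a := uN b t ⟨g + 1, by omega⟩ with ha
  set q := uN b t ⟨g + 2, by omega⟩ with hq
  have ha0 : a ≠ 0 := by
    intro h0
    have h1 := hQ.one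
    rw [← ha, h0, map_zero] at h1
    simp at h1
  have hq0 : q ≠ 0 := by
    intro h0
    exact ha0 (by rw [hw, h0, zero_mul])
  have hw0 : w ≠ 0 := by
    intro h0
    exact ha0 (by rw [hw, h0, mul_zero])
  have haD : dgr b a ≤ D := mem_fil_iff.1 (el_mem b _)
  have hwD : w ∈ fil b D := by
    refine mem_fil_iff.2 ?_
    have h1 := (dgr_mul h.db hS hq0 hw0).2
    rw [← hw] at h1
    omega
  obtain ⟨x, hx⟩ := exists_el hwD
  have h1 := hQ.one
  rw [← ha] at h1
  have h2 : ∑ d : SD S (2 * D), t (Sum.inr d) * b.repr a d.ix = 0 := by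
    have h3 : ∀ d : SD S (2 * D), t (Sum.inr d) * b.repr a d.ix =
        ∑ e : SD S D, x e * (t (Sum.inr d) * b.repr (q * b e.ix) d.ix) := by
      intro d
      rw [hw, hx, h4NA_repr_mul_el, Finset.mul_sum]
      exact Finset.sum_congr rfl fun e _ => by ring
    rw [Finset.sum_congr rfl fun d _ => h3 d, Finset.sum_comm]
    refine Finset.sum_eq_zero fun e _ => ?_
    rw [← Finset.mul_sum, hQ.ann e, mul_zero]
  rw [h2] at h1
  exact zero_ne_one h1

end Vale.Agent.P019P
end
end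

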