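import Vale.Agent.P019.MathlibFull
import Vale.Agent.P019.MathlibUsed

/-! Carved out of `Vale.Agent.P019.Bd4` (function fields of one variable); generated file. -/

set_option linter.all false

attribute [local instance] O19.fr O19.tf O19.pj O19.fl

section

section

/-!
# Locally finite automorphisms: the tower of fixed groups
-/

namespace Vale.Agent.P019P

/-- the orders of the fixed groups grow like those of an abelian variety. -/
structure Grow (ℓ N : ℕ) (h : ℕ → ℕ) : Prop where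
  pos : ∀ n, 0 < n → 0 < h n
  ex : ∃ n0 : ℕ, 0 < n0 ∧
    (∀ n, 0 < n → n0 ∣ n → padicValNat ℓ (h (n * ℓ)) = padicValNat ℓ (h n) + N) ∧
    (∀ n r, 0 < n → n0 ∣ n → ¬ ℓ ∣ r → padicValNat ℓ (h (n * r)) = padicValNat ℓ (h n))

/-- the tower of `ℓ`-primary fixed groups. -/
structure Tower {J : Type*} [AddCommGroup J] (φ : AddMonoid.End J) (ℓ N c : ℕ) : Prop where
  card : ∀ m : ℕ, Nat.card {x : J // (φ ^ ℓ ^ m) x = x ∧ ∃ k : ℕ, ℓ ^ k • x = 0} = ℓ ^ (c + N * m)
  ex : ∀ x : J, (∃ k : ℕ, ℓ ^ k • x = 0) → ∃ m : ℕ, (φ ^ ℓ ^ m) x = x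

/-- the `ℓ`-primary part of a finite abelian group has `ℓ ^ v` elements (multiplicative form). -/
theorem zgA_primary_mul {G : Type*} [CommGroup G] [Finite G] {ℓ : ℕ} (hℓ : ℓ.Prime) :
    Nat.card {x : G // ∃ k : ℕ, x ^ ℓ ^ k = 1} = ℓ ^ padicValNat ℓ (Nat.card G) := by
  have := Fact.mk hℓ
  obtain ⟨P⟩ : Nonempty (Sylow ℓ G) := inferInstance
  have hu := Sylow.unique_of_normal P inferInstance
  have hcard := Sylow.card_eq_multiplicity P
  rw [Nat.factorization_def _ hℓ] at hcard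
  rw [← hcard]
  apply Nat.card_congr
  refine Equiv.subtypeEquivRight fun x => ?_
  constructor
  · rintro ⟨k, hk⟩
    have hz : IsPGroup ℓ (Subgroup.zpowers x) := by
      rintro ⟨y, hy⟩
      obtain ⟨j, rfl⟩ := Subgroup.mem_zpowers_iff.1 hy
      refine ⟨k, ?_⟩
      ext
      simp only [Subgroup.coe_pow, Subgroup.coe_one]
      rw [← zpow_natCast, ← zpow_mul, mul_comm, zpow_mul, zpow_natCast, hk, one_zpow]
    obtain ⟨Q, hQ⟩ := hz.exists_le_sylow
    have hQP : Q = P := Subsingleton.elim _ _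
    rw [← hQP]
    exact hQ (Subgroup.mem_zpowers x)
  · intro hx
    obtain ⟨k, hk⟩ := P.isPGroup' ⟨x, hx⟩
    refine ⟨k, ?_⟩
    have := congrArg Subtype.val hk
    simpa using this

/-- the `ℓ`-primary part of a finite abelian group has `ℓ ^ v` elements. -/
theorem zgA_primary {F : Type*} [AddCommGroup F] [Finite F] {ℓ : ℕ} (hℓ : ℓ.Prime) :
    Nat.card {x : F // ∃ k : ℕ, ℓ ^ k • x = 0} = ℓ ^ padicValNat ℓ (Nat.card F) := by
  have : Finite (Multiplicative F) := inferInstanceAs (Finite F)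
  exact zgA_primary_mul (G := Multiplicative F) hℓ

/-- the fixed points of an endomorphism. -/
def ZgAFixed {J : Type*} [AddCommGroup J] (φ : AddMonoid.End J) : AddSubgroup J where
  carrier := {x | φ x = x}
  zero_mem' := map_zero φ
  add_mem' := by
    intro a b ha hb
    simp only [Set.mem_ofPred_eq] at *
    rw [map_add, ha, hb]
  neg_mem' := by
    intro a ha
    simp only [Set.mem_ofPred_eq] at *
    rw [map_neg, ha]

theorem zgA_fixed_primary {J : Type*} [AddCommGroup J] (φ : AddMonoid.End J) {ℓ : ℕ}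
    (hℓ : ℓ.Prime) (hfin : {x : J | φ x = x}.Finite) :
    Nat.card {x : J // φ x = x ∧ ∃ k : ℕ, ℓ ^ k • x = 0} =
      ℓ ^ padicValNat ℓ (Nat.card {x : J // φ x = x}) := by
  have : Finite (ZgAFixed φ) := hfin
  have h := zgA_primary (F := ZgAFixed φ) hℓ
  have e1 : Nat.card (ZgAFixed φ) = Nat.card {x : J // φ x = x} := rfl
  rw [← e1, ← h]
  refine Nat.card_congr ?_
  refine ⟨fun x => ⟨⟨x.1, x.2.1⟩, ?_⟩, fun y => ⟨y.1.1, y.1.2, ?_⟩, fun x => rfl, fun y => rfl⟩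
  · obtain ⟨k, hk⟩ := x.2.2
    exact ⟨k, Subtype.ext hk⟩
  · obtain ⟨k, hk⟩ := y.2
    exact ⟨k, congrArg Subtype.val hk⟩

theorem zgA_fix_pow {J : Type*} [AddCommGroup J] (φ : AddMonoid.End J) {x : J} (hx : φ x = x)
    (r : ℕ) : (φ ^ r) x = x := by
  induction r with
  | zero => simp
  | succ r ih =>
    rw [pow_succ]
    change (φ ^ r) (φ x) = x
    rw [hx, ih]

theorem exists_tower {J : Type*} [AddCommGroup J] (s : AddMonoid.End J) {ℓ N : ℕ}
    (hℓ : ℓ.Prime) (hper : ∀ x : J, ∃ n : ℕ, 0 < n ∧ (s ^ n) x = x)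
    (hfin : ∀ n : ℕ, 0 < n → {x : J | (s ^ n) x = x}.Finite)
    (hg : Grow ℓ N (fun n => Nat.card {x : J // (s ^ n) x = x})) :
    ∃ n0 c : ℕ, Tower (s ^ n0) ℓ N c := by
  obtain ⟨hpos, n0, hn0, hg1, hg2⟩ := hg
  have hl0 : 0 < ℓ := hℓ.pos
  have hstep : ∀ m : ℕ, padicValNat ℓ (Nat.card {x : J // (s ^ (n0 * ℓ ^ m)) x = x}) =
      padicValNat ℓ (Nat.card {x : J // (s ^ n0) x = x}) + N * m := by
    intro m
    induction m with
    | zero => simp
    | succ m ih =>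
      have h := hg1 (n0 * ℓ ^ m) (by positivity) (Dvd.intro _ rfl)
      rw [pow_succ, ← mul_assoc, h, ih]
      ring
  refine ⟨n0, padicValNat ℓ (Nat.card {x : J // (s ^ n0) x = x}), ?_, ?_⟩
  · intro m
    rw [← pow_mul, zgA_fixed_primary _ hℓ (hfin _ (by positivity)), hstep]
  · rintro x ⟨k, hk⟩
    obtain ⟨n, hn, hx⟩ := hper x
    obtain ⟨m, r, hr, rfl⟩ := Nat.exists_eq_pow_mul_and_not_dvd hn.ne' ℓ hℓ.ne_one
    refine ⟨m, ?_⟩
    rw [← pow_mul]
    have hr0 : 0 < r := Nat.pos_of_ne_zero fun h => hr (h ▸ dvd_zero ℓ)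
    have hv := hg2 (n0 * ℓ ^ m) r (by positivity) (Dvd.intro _ rfl) hr
    have hA := zgA_fixed_primary (s ^ (n0 * ℓ ^ m)) hℓ (hfin _ (by positivity))
    have hB := zgA_fixed_primary (s ^ (n0 * ℓ ^ m * r)) hℓ (hfin _ (by positivity))
    have hsub : {x : J | (s ^ (n0 * ℓ ^ m)) x = x ∧ ∃ k : ℕ, ℓ ^ k • x = 0} ⊆
        {x : J | (s ^ (n0 * ℓ ^ m * r)) x = x ∧ ∃ k : ℕ, ℓ ^ k • x = 0} := by
      rintro y ⟨hy, hk'⟩
      exact ⟨by rw [pow_mul]; exact zgA_fix_pow _ hy r, hk'⟩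
    have hfinB : {x : J | (s ^ (n0 * ℓ ^ m * r)) x = x ∧ ∃ k : ℕ, ℓ ^ k • x = 0}.Finite :=
      (hfin (n0 * ℓ ^ m * r) (by positivity)).subset fun y hy => hy.1
    have heq := Set.eq_of_subset_of_ncard_le hsub (by
      have e1 : {x : J | (s ^ (n0 * ℓ ^ m * r)) x = x ∧ ∃ k : ℕ, ℓ ^ k • x = 0}.ncard =
          Nat.card {x : J // (s ^ (n0 * ℓ ^ m * r)) x = x ∧ ∃ k : ℕ, ℓ ^ k • x = 0} := rfl
      have e2 : {x : J | (s ^ (n0 * ℓ ^ m)) x = x ∧ ∃ k : ℕ, ℓ ^ k • x = 0}.ncard =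
          Nat.card {x : J // (s ^ (n0 * ℓ ^ m)) x = x ∧ ∃ k : ℕ, ℓ ^ k • x = 0} := rfl
      rw [e1, e2, hA, hB, hv]) hfinB
    have hxB : x ∈ {x : J | (s ^ (n0 * ℓ ^ m * r)) x = x ∧ ∃ k : ℕ, ℓ ^ k • x = 0} := by
      refine ⟨?_, k, hk⟩
      have e : n0 * ℓ ^ m * r = (ℓ ^ m * r) * n0 := by ring
      rw [e, pow_mul]
      exact zgA_fix_pow _ hx n0
    rw [← heq] at hxB
    exact hxB.1

end Vale.Agent.P019P
end
end

section

section

/-!
# A companion matrix
-/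

namespace Vale.Agent.P019P

open Polynomial

theorem zm_exists_matrix (N : ℕ) (f : ℤ[X]) (hf : f.natDegree ≤ N) (h0 : f.coeff 0 = 1) :
    ∃ M : Matrix (Fin N) (Fin N) ℤ, M.charpolyRev = f ∧ M.det = (-1) ^ N * f.coeff N := by
  set p : ℤ[X] := reflect N f with hp
  have hpc : p.coeff N = 1 := by
    rw [hp, coeff_reflect, revAt_le (le_refl N), Nat.sub_self, h0]
  have hpd : p.natDegree ≤ N := by
    rw [natDegree_le_iff_coeff_eq_zero]
    intro k hk
    rw [hp, coeff_reflect, revAt_eq_self_of_lt hk]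
    exact coeff_eq_zero_of_natDegree_lt (lt_of_le_of_lt hf hk)
  have hpN : p.natDegree = N :=
    le_antisymm hpd (le_natDegree_of_ne_zero (by rw [hpc]; exact one_ne_zero))
  have hm : p.Monic := by
    rw [Monic, leadingCoeff, hpN, hpc]
  let pb := AdjoinRoot.powerBasis' hm
  have hdim : pb.dim = N := by
    rw [AdjoinRoot.powerBasis'_dim, hpN]
  let b : Module.Basis (Fin N) ℤ (AdjoinRoot p) := pb.basis.reindex (finCongr hdim)
  have : Module.Free ℤ (AdjoinRoot p) := Module.Free.of_basis b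
  have : Module.Finite ℤ (AdjoinRoot p) := Module.Finite.of_basis b
  let T : AdjoinRoot p →ₗ[ℤ] AdjoinRoot p := Algebra.lmul ℤ (AdjoinRoot p) (AdjoinRoot.root p)
  have hTm : T.charpoly.Monic := T.charpoly_monic
  have hTd : T.charpoly.natDegree = N := by
    rw [LinearMap.charpoly_natDegree, Module.finrank_eq_card_basis b, Fintype.card_fin]
  have hT0 : aeval T T.charpoly = 0 := LinearMap.aeval_self_charpoly T
  have hdvd : p ∣ T.charpoly := by
    rw [← AdjoinRoot.mk_eq_zero]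
    have h1 : aeval T T.charpoly = Algebra.lmul ℤ (AdjoinRoot p)
        (aeval (AdjoinRoot.root p) T.charpoly) := by
      rw [← aeval_algHom_apply]
    have h2 : aeval (AdjoinRoot.root p) T.charpoly = 0 := by
      have h3 := congrArg (fun g : AdjoinRoot p →ₗ[ℤ] AdjoinRoot p => g 1) (h1.symm.trans hT0)
      simpa using h3
    rw [← h2, AdjoinRoot.aeval_eq]
  have heq : T.charpoly = p := by
    refine eq_of_monic_of_dvd_of_natDegree_le hm hTm hdvd ?_
    rw [hTd, hpN]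
  let M := LinearMap.toMatrix b b T
  have hM : M.charpoly = p := by
    rw [← heq]
    exact LinearMap.charpoly_toMatrix T b
  refine ⟨M, ?_, ?_⟩
  · rw [← Matrix.reverse_charpoly, hM, reverse, hpN, hp, reflect_reflect]
  · rw [Matrix.det_eq_sign_charpoly_coeff, hM, Fintype.card_fin, hp, coeff_reflect,
      revAt_le (Nat.zero_le N), Nat.sub_zero]

end Vale.Agent.P019P
end
end

section

section

/-!
# The `ℓ`-torsion is finite
-/

namespace Vale.Agent.P019P

/-- The kernel of `(φ - 1)^j` on the `ℓ`-torsion. -/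
private def tK {J : Type*} [AddCommGroup J] (φ : AddMonoid.End J) (ℓ j : ℕ) : AddSubgroup J where
  carrier := {x | ℓ • x = 0 ∧ ((φ - 1) ^ j) x = 0}
  zero_mem' := ⟨smul_zero _, map_zero _⟩
  add_mem' := by
    rintro a b ⟨h1, h2⟩ ⟨h3, h4⟩
    exact ⟨by rw [smul_add, h1, h3, add_zero], by rw [map_add, h2, h4, add_zero]⟩
  neg_mem' := by
    rintro a ⟨h1, h2⟩
    exact ⟨by rw [smul_neg, h1, neg_zero], by rw [map_neg, h2, neg_zero]⟩

private theorem mem_tK {J : Type*} [AddCommGroup J] {φ : AddMonoid.End J} {ℓ j : ℕ} {x : J} :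
    x ∈ tK φ ℓ j ↔ ℓ • x = 0 ∧ ((φ - 1) ^ j) x = 0 := Iff.rfl

private theorem end_mul_apply {J : Type*} [AddCommGroup J] (f g : AddMonoid.End J) (x : J) :
    (f * g) x = f (g x) := rfl

private theorem end_add_apply {J : Type*} [AddCommGroup J] (f g : AddMonoid.End J) (x : J) :
    (f + g) x = f x + g x := rfl

private theorem tK_succ {J : Type*} [AddCommGroup J] (φ : AddMonoid.End J) (ℓ j : ℕ) :
    tK φ ℓ j ≤ tK φ ℓ (j + 1) := by
  intro x hx
  rw [mem_tK] at hx ⊢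
  refine ⟨hx.1, ?_⟩
  rw [pow_succ', end_mul_apply, hx.2, map_zero]

private theorem tK_mono {J : Type*} [AddCommGroup J] (φ : AddMonoid.End J) (ℓ : ℕ) {i j : ℕ}
    (h : i ≤ j) : tK φ ℓ i ≤ tK φ ℓ j :=
  monotone_nat_of_le_succ (tK_succ φ ℓ) h

private theorem pow_apply_tors {J : Type*} [AddCommGroup J] (φ : AddMonoid.End J) {ℓ : ℕ}
    (hℓ : ℓ.Prime) (m : ℕ) {x : J} (hx : ℓ • x = 0) :
    (φ ^ ℓ ^ m) x = ((φ - 1) ^ ℓ ^ m) x + x := by
  obtain ⟨r, hr⟩ := Commute.exists_add_pow_prime_pow_eq hℓ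
    (Commute.sub_left (Commute.one_right φ) (Commute.one_right (1 : AddMonoid.End J))) m
  rw [sub_add_cancel, one_pow, mul_assoc, mul_assoc] at hr
  rw [hr, end_add_apply, end_add_apply, end_mul_apply, AddMonoid.End.natCast_apply,
    ← map_nsmul, hx, map_zero, add_zero, AddMonoid.End.one_apply]

/-- If the chain stabilises at `j`, every element of `K i` lies in `K j`. -/
private theorem tK_stable {J : Type*} [AddCommGroup J] (φ : AddMonoid.End J) (ℓ j : ℕ)
    (hj : tK φ ℓ (j + 1) ≤ tK φ ℓ j) (i : ℕ) : tK φ ℓ (j + i) ≤ tK φ ℓ j := by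
  induction i with
  | zero => exact le_rfl
  | succ i ih =>
    intro x hx
    refine ih ?_
    rw [mem_tK] at hx ⊢
    refine ⟨hx.1, ?_⟩
    have h1 : ((φ - 1) ^ i) x ∈ tK φ ℓ (j + 1) := by
      rw [mem_tK]
      refine ⟨by rw [← map_nsmul, hx.1, map_zero], ?_⟩
      rw [← end_mul_apply, ← pow_add, show j + 1 + i = j + (i + 1) by ring]
      exact hx.2
    have h2 := (mem_tK.1 (hj h1)).2
    rw [← end_mul_apply, ← pow_add] at h2
    exact h2

private theorem tK_finite {J : Type*} [AddCommGroup J] {φ : AddMonoid.End J} {ℓ N c : ℕ}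
    (hℓ : ℓ.Prime) (h : Tower φ ℓ N c) (m : ℕ) :
    Finite (tK φ ℓ (ℓ ^ m)) ∧ Nat.card (tK φ ℓ (ℓ ^ m)) ≤ ℓ ^ (c + N * m) := by
  have hcard := h.card m
  have hpos : 0 < ℓ ^ (c + N * m) := pow_pos hℓ.pos _
  have hfin : Finite {x : J // (φ ^ ℓ ^ m) x = x ∧ ∃ k : ℕ, ℓ ^ k • x = 0} := by
    apply Nat.finite_of_card_ne_zero
    rw [hcard]
    exact hpos.ne'
  let f : tK φ ℓ (ℓ ^ m) → {x : J // (φ ^ ℓ ^ m) x = x ∧ ∃ k : ℕ, ℓ ^ k • x = 0} :=
    fun x => ⟨x.1, by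
      have hx := mem_tK.1 x.2
      refine ⟨?_, 1, by rw [pow_one]; exact hx.1⟩
      rw [pow_apply_tors φ hℓ m hx.1, hx.2, zero_add]⟩
  have hf : Function.Injective f := by
    intro x y hxy
    apply Subtype.ext
    exact congrArg (fun z => z.1) hxy
  refine ⟨Finite.of_injective f hf, ?_⟩
  rw [← hcard]
  exact Nat.card_le_card_of_injective f hf

private theorem tK_fin {J : Type*} [AddCommGroup J] {φ : AddMonoid.End J} {ℓ N c : ℕ}
    (hℓ : ℓ.Prime) (h : Tower φ ℓ N c) (j : ℕ) : Finite (tK φ ℓ j) := by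
  have := (tK_finite hℓ h j).1
  have hle : tK φ ℓ j ≤ tK φ ℓ (ℓ ^ j) := tK_mono φ ℓ (Nat.lt_pow_self hℓ.one_lt).le
  exact Finite.of_injective _ (AddSubgroup.inclusion_injective hle)

private theorem mem_tK_of_tors {J : Type*} [AddCommGroup J] {φ : AddMonoid.End J} {ℓ N c : ℕ}
    (hℓ : ℓ.Prime) (h : Tower φ ℓ N c) {x : J} (hx : ℓ • x = 0) : ∃ m, x ∈ tK φ ℓ (ℓ ^ m) := by
  obtain ⟨m, hm⟩ := h.ex x ⟨1, by rw [pow_one]; exact hx⟩
  refine ⟨m, mem_tK.2 ⟨hx, ?_⟩⟩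
  rw [pow_apply_tors φ hℓ m hx] at hm
  exact left_eq_add.1 (by rw [add_comm]; exact hm.symm)

private theorem two_mul_card_le {J : Type*} [AddCommGroup J] {K L : AddSubgroup J} (h : K < L)
    [Finite L] : 2 * Nat.card K ≤ Nat.card L := by
  have : Finite K := Finite.of_injective _ (AddSubgroup.inclusion_injective h.le)
  have hdvd : Nat.card K ∣ Nat.card L := AddSubgroup.card_dvd_of_le h.le
  obtain ⟨d, hd⟩ := hdvd
  have hL : 0 < Nat.card L := Nat.card_pos
  have hne : Nat.card K ≠ Nat.card L := by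
    intro he
    exact h.ne (AddSubgroup.eq_of_le_of_card_ge h.le he.ge)
  have hd2 : 2 ≤ d := by
    rcases d with _ | _ | d
    · simp at hd; omega
    · simp at hd; omega
    · omega
  rw [hd, mul_comm 2]
  exact Nat.mul_le_mul_left _ hd2

private theorem arith {ℓ N c : ℕ} (hℓ : ℓ.Prime) : ∃ m : ℕ, ℓ ^ (c + N * m) < 2 ^ ℓ ^ m := by
  set k := ℓ * (c + 2 * N) with hk
  refine ⟨2 * k, ?_⟩
  have h1 : ℓ ^ (c + N * (2 * k)) ≤ 2 ^ (ℓ * (c + N * (2 * k))) := by
    rw [pow_mul]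
    exact Nat.pow_le_pow_left Nat.lt_two_pow_self.le _
  refine h1.trans_lt (Nat.pow_lt_pow_right one_lt_two ?_)
  have h2 : k < ℓ ^ k := Nat.lt_pow_self hℓ.one_lt
  have h3 : ℓ ^ (2 * k) = ℓ ^ k * ℓ ^ k := by rw [two_mul, pow_add]
  rw [h3]
  have h4 : (k + 1) * (k + 1) ≤ ℓ ^ k * ℓ ^ k := Nat.mul_le_mul h2 h2
  refine lt_of_lt_of_le ?_ h4
  have hl : 0 < ℓ := hℓ.pos
  rcases Nat.eq_zero_or_pos (c + 2 * N) with h0 | h0
  · have hc : c = 0 := by omega
    have hN : N = 0 := by omega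
    subst hc; subst hN; simp
  · have hk1 : 1 ≤ k := by rw [hk]; exact Nat.mul_pos hl h0
    have h5 : ℓ * (c + N * (2 * k)) ≤ k * k := by
      calc ℓ * (c + N * (2 * k)) ≤ ℓ * (c * k + N * (2 * k)) := by
            apply Nat.mul_le_mul_left
            have : c * 1 ≤ c * k := Nat.mul_le_mul_left _ hk1
            omega
        _ = (ℓ * (c + 2 * N)) * k := by ring
        _ = k * k := by rw [← hk]
    nlinarith

theorem Tower.finite {J : Type*} [AddCommGroup J] {φ : AddMonoid.End J} {ℓ N c : ℕ}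
    (hℓ : ℓ.Prime) (h : Tower φ ℓ N c) : {x : J | ℓ • x = 0}.Finite := by
  by_cases hst : ∃ j, tK φ ℓ (j + 1) ≤ tK φ ℓ j
  · obtain ⟨j, hj⟩ := hst
    have := tK_fin hℓ h j
    refine Set.Finite.subset (Set.toFinite (tK φ ℓ j : Set J)) ?_
    intro x hx
    obtain ⟨m, hm⟩ := mem_tK_of_tors hℓ h hx
    exact tK_stable φ ℓ j hj (ℓ ^ m) (tK_mono φ ℓ (Nat.le_add_left _ _) hm)
  · exfalso
    push Not at hst
    have hlt : ∀ j, tK φ ℓ j < tK φ ℓ (j + 1) := fun j =>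
      lt_of_le_not_ge (tK_succ φ ℓ j) (hst j)
    have hpow : ∀ j, 2 ^ j ≤ Nat.card (tK φ ℓ j) := by
      intro j
      induction j with
      | zero =>
        have := tK_fin hℓ h 0
        rw [pow_zero]
        exact Nat.card_pos
      | succ j ih =>
        have := tK_fin hℓ h (j + 1)
        rw [pow_succ, mul_comm]
        exact (Nat.mul_le_mul_left 2 ih).trans (two_mul_card_le (hlt j))
    obtain ⟨m, hm⟩ := arith (ℓ := ℓ) (N := N) (c := c) hℓ
    exact absurd ((hpow (ℓ ^ m)).trans (tK_finite hℓ h m).2) (not_le.2 hm)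

end Vale.Agent.P019P
end
end

section

section

/-!
# The order of the `ℓ`-torsion of a divisible group
-/

namespace Vale.Agent.P019P

/-- Order of a subgroup through the kernel and the image of an endomorphism. -/
theorem card_ker_map {J : Type*} [AddCommGroup J] (f : J →+ J) (P : AddSubgroup J) :
    Nat.card P = Nat.card (P ⊓ f.ker : AddSubgroup J) * Nat.card (P.map f) := by
  set g : P →+ J := f.comp P.subtype with hg
  have h1 : Nat.card P = Nat.card (P ⧸ g.ker) * Nat.card g.ker :=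
    AddSubgroup.card_eq_card_quotient_mul_card_addSubgroup _
  have h2 : Nat.card (P ⧸ g.ker) = Nat.card (P.map f) := by
    rw [Nat.card_congr (QuotientAddGroup.quotientKerEquivRange g).toEquiv]
    have h3 : g.range = P.map f := by
      ext x
      constructor
      · rintro ⟨y, rfl⟩
        exact ⟨y, y.2, rfl⟩
      · rintro ⟨y, hy, rfl⟩
        exact ⟨⟨y, hy⟩, rfl⟩
    rw [h3]
  have h4 : Nat.card g.ker = Nat.card (P ⊓ f.ker : AddSubgroup J) := by
    refine Nat.card_congr ⟨fun x => ⟨x.1.1, x.1.2, x.2⟩, fun x => ⟨⟨x.1, x.2.1⟩, x.2.2⟩,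
      fun x => rfl, fun x => rfl⟩
  rw [h1, h2, h4, mul_comm]

theorem Tower.card_tors {J : Type*} [AddCommGroup J] {φ : AddMonoid.End J} {ℓ N c : ℕ}
    (hℓ : ℓ.Prime) (h : Tower φ ℓ N c) (hdiv : ∀ x : J, ∃ y, x = ℓ • y) :
    Nat.card {x : J // ℓ • x = 0} = ℓ ^ N := by
  classical
  -- the primary part
  let Jl : AddSubgroup J :=
    { carrier := {x | ∃ k : ℕ, ℓ ^ k • x = 0}
      zero_mem' := ⟨0, smul_zero _⟩
      add_mem' := by
        rintro x y ⟨k, hk⟩ ⟨l, hl⟩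
        refine ⟨k + l, ?_⟩
        rw [smul_add, pow_add, mul_smul, mul_smul, hl, smul_zero, add_zero,
          ← mul_smul, mul_comm, mul_smul, hk, smul_zero]
      neg_mem' := by
        rintro x ⟨k, hk⟩
        exact ⟨k, by rw [smul_neg, hk, neg_zero]⟩ }
  have hJl : ∀ x, x ∈ Jl ↔ ∃ k : ℕ, ℓ ^ k • x = 0 := fun _ => Iff.rfl
  let A : ℕ → AddSubgroup J := fun m =>
    { carrier := {x | (φ ^ ℓ ^ m) x = x ∧ x ∈ Jl}
      zero_mem' := ⟨map_zero _, Jl.zero_mem⟩
      add_mem' := by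
        rintro x y ⟨h1, h2⟩ ⟨h3, h4⟩
        exact ⟨by rw [map_add, h1, h3], Jl.add_mem h2 h4⟩
      neg_mem' := by
        rintro x ⟨h1, h2⟩
        exact ⟨by rw [map_neg, h1], Jl.neg_mem h2⟩ }
  have hA : ∀ m x, x ∈ A m ↔ (φ ^ ℓ ^ m) x = x ∧ x ∈ Jl := fun _ _ => Iff.rfl
  have hcard : ∀ m, Nat.card (A m) = ℓ ^ (c + N * m) := fun m => h.card m
  let V : AddSubgroup J :=
    { carrier := {x | ℓ • x = 0}
      zero_mem' := smul_zero _
      add_mem' := by
        rintro x y (h1 : ℓ • x = 0) (h2 : ℓ • y = 0)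
        show ℓ • (x + y) = 0
        rw [smul_add, h1, h2, add_zero]
      neg_mem' := by
        rintro x (h1 : ℓ • x = 0)
        show ℓ • (-x) = 0
        rw [smul_neg, h1, neg_zero] }
  have hV : ∀ x, x ∈ V ↔ ℓ • x = 0 := fun _ => Iff.rfl
  have hVfin : (V : Set J).Finite := h.finite hℓ
  have hV2fin : {x : J | ℓ • (ℓ • x) = 0}.Finite := by
    have e : {x : J | ℓ • (ℓ • x) = 0} ⊆ ⋃ v ∈ (V : Set J), {x : J | ℓ • x = v} := by
      intro x hx
      exact Set.mem_biUnion (x := ℓ • x) hx rfl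
    refine (hVfin.biUnion fun v _ => ?_).subset e
    by_cases hv : ∃ x0 : J, ℓ • x0 = v
    · obtain ⟨x0, hx0⟩ := hv
      refine (hVfin.image (fun u => x0 + u)).subset ?_
      intro x hx
      refine ⟨x - x0, ?_, add_sub_cancel _ _⟩
      show ℓ • (x - x0) = 0
      rw [smul_sub, hx0]
      exact sub_eq_zero.2 hx
    · convert Set.finite_empty
      ext x
      simp only [Set.mem_empty_iff_false, iff_false]
      exact fun hx => hv ⟨x, hx⟩
  -- powers fixing a point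
  have hpow : ∀ (f : AddMonoid.End J) (x : J), f x = x → ∀ n : ℕ, (f ^ n) x = x := by
    intro f x hx n
    induction n with
    | zero => rfl
    | succ n ih => rw [pow_succ]; show (f ^ n) (f x) = x; rw [hx, ih]
  have hmono : ∀ (x : J) (a b : ℕ), a ≤ b → (φ ^ ℓ ^ a) x = x → (φ ^ ℓ ^ b) x = x := by
    intro x a b hab hx
    have : (φ ^ ℓ ^ b : AddMonoid.End J) = (φ ^ ℓ ^ a) ^ (ℓ ^ (b - a)) := by
      rw [← pow_mul, ← pow_add, Nat.add_sub_cancel' hab]
    rw [this]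
    exact hpow _ _ hx _
  obtain ⟨m, hm⟩ : ∃ m : ℕ, ∀ x : J, ℓ • (ℓ • x) = 0 → (φ ^ ℓ ^ m) x = x := by
    have h1 : ∀ x ∈ hV2fin.toFinset, ∃ m : ℕ, (φ ^ ℓ ^ m) x = x := by
      intro x hx
      rw [Set.Finite.mem_toFinset] at hx
      exact h.ex x ⟨2, by rw [pow_two, mul_smul]; exact hx⟩
    choose! M hM using h1
    refine ⟨hV2fin.toFinset.sup M, fun x hx => ?_⟩
    have hx' : x ∈ hV2fin.toFinset := (Set.Finite.mem_toFinset _).2 hx
    exact hmono x _ _ (Finset.le_sup hx') (hM x hx')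
  set ψ : AddMonoid.End J := φ ^ ℓ ^ m with hψ
  set δ : AddMonoid.End J := ψ - 1 with hδ
  set NN : AddMonoid.End J := ∑ i ∈ Finset.range ℓ, ψ ^ i with hNN
  let D : J →+ J := AddMonoidHom.mk' (fun x => ψ x - x) fun x y => by
    rw [map_add]; abel
  have hD : ∀ x, D x = ψ x - x := fun x => rfl
  have hψl : ψ ^ ℓ = φ ^ ℓ ^ (m + 1) := by rw [hψ, ← pow_mul, ← pow_succ]
  have hgeom : ∀ x, NN (D x) = (φ ^ ℓ ^ (m + 1)) x - x := by
    intro x
    have e : NN * δ = ψ ^ ℓ - 1 := geom_sum_mul ψ ℓ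
    have e2 : (NN * δ) x = (ψ ^ ℓ - 1) x := by rw [e]
    rw [hψl] at e2
    exact e2
  have hNNfix : ∀ w, ψ w = w → NN w = ℓ • w := by
    intro w hw
    have e : NN w = ∑ i ∈ Finset.range ℓ, (ψ ^ i) w :=
      map_sum (AddMonoidHom.eval w : (J →+ J) →+ J) (fun i => (ψ ^ i : AddMonoid.End J)) _
    rw [e, Finset.sum_congr rfl fun i _ => hpow ψ w hw i, Finset.sum_const, Finset.card_range]
  -- step (2)
  have h2 : ∀ y ∈ Jl, NN y = 0 → ℓ • y = 0 := by
    intro y hy hNy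
    by_contra hne
    have hex : ∃ k : ℕ, ℓ ^ k • y = 0 := hy
    set k := Nat.find hex with hk
    have hk0 : ℓ ^ k • y = 0 := Nat.find_spec hex
    have hkm : ∀ j < k, ℓ ^ j • y ≠ 0 := fun j hj => Nat.find_min hex hj
    have hk2 : 2 ≤ k := by
      by_contra hlt
      push Not at hlt
      have : k = 0 ∨ k = 1 := by omega
      rcases this with h0 | h1
      · rw [h0, pow_zero, one_smul] at hk0
        exact hne (by rw [hk0, smul_zero])
      · rw [h1, pow_one] at hk0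
        exact hne hk0
    have e1 : ℓ • (ℓ • (ℓ ^ (k - 2) • y)) = 0 := by
      rw [← mul_smul, ← mul_smul, mul_assoc, ← pow_succ', ← pow_succ',
        show k - 2 + 1 + 1 = k by omega]
      exact hk0
    have e2 : ℓ • (ℓ ^ (k - 2) • y) ≠ 0 := by
      rw [← mul_smul, ← pow_succ']
      exact hkm _ (by omega)
    apply e2
    rw [← hNNfix _ (hm _ e1), map_nsmul, hNy, smul_zero]
  -- the group `B`
  let B : AddSubgroup J :=
    { carrier := {x | x ∈ Jl ∧ ℓ • x ∈ A m}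
      zero_mem' := ⟨Jl.zero_mem, by rw [smul_zero]; exact (A m).zero_mem⟩
      add_mem' := by
        rintro x y ⟨h1, h3⟩ ⟨h4, h5⟩
        exact ⟨Jl.add_mem h1 h4, by rw [smul_add]; exact (A m).add_mem h3 h5⟩
      neg_mem' := by
        rintro x ⟨h1, h3⟩
        exact ⟨Jl.neg_mem h1, by rw [smul_neg]; exact (A m).neg_mem h3⟩ }
  have hB : ∀ x, x ∈ B ↔ x ∈ Jl ∧ ℓ • x ∈ A m := fun _ => Iff.rfl
  have hδJl : ∀ x ∈ Jl, D x ∈ Jl := by
    rintro x ⟨k, hk⟩
    exact ⟨k, by rw [← map_nsmul, hk, map_zero]⟩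
  have hVJl : ∀ x, ℓ • x = 0 → x ∈ Jl := fun x hx => ⟨1, by rw [pow_one]; exact hx⟩
  have hAfin : Finite (A m) := by
    refine Nat.finite_of_card_ne_zero ?_
    rw [hcard]
    exact pow_ne_zero _ hℓ.ne_zero
  have hVfin' : Finite V := hVfin
  have hApos : 0 < Nat.card (A m) := Nat.card_pos
  -- multiplication by `ℓ` on `B`
  have c1 : Nat.card B = Nat.card V * Nat.card (A m) := by
    have e := card_ker_map (nsmulAddMonoidHom ℓ : J →+ J) B
    have e1 : (B ⊓ (nsmulAddMonoidHom ℓ : J →+ J).ker : AddSubgroup J) = V := by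
      ext x
      rw [AddSubgroup.mem_inf, AddMonoidHom.mem_ker, nsmulAddMonoidHom_apply, hV]
      refine ⟨fun hx => hx.2, fun hx => ⟨⟨hVJl x hx, ?_⟩, hx⟩⟩
      rw [hx]
      exact (A m).zero_mem
    have e2 : B.map (nsmulAddMonoidHom ℓ : J →+ J) = A m := by
      ext x
      rw [AddSubgroup.mem_map]
      constructor
      · rintro ⟨y, hy, rfl⟩
        exact hy.2
      · intro hx
        obtain ⟨y, hy⟩ := hdiv x
        obtain ⟨k, hk⟩ := hx.2
        refine ⟨y, ⟨⟨k + 1, ?_⟩, ?_⟩, hy.symm⟩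
        · rw [pow_succ, mul_smul, ← hy, hk]
        · rw [← hy]; exact hx
    rwa [e1, e2] at e
  -- `δ` on `B`
  have hkerA : ∀ P : AddSubgroup J, (∀ x ∈ P, x ∈ Jl) → A m ≤ P →
      (P ⊓ D.ker : AddSubgroup J) = A m := by
    intro P hP hAP
    ext x
    rw [AddSubgroup.mem_inf, AddMonoidHom.mem_ker, hA]
    constructor
    · rintro ⟨h1, h3⟩
      exact ⟨sub_eq_zero.1 h3, hP x h1⟩
    · intro hx
      exact ⟨hAP hx, sub_eq_zero.2 hx.1⟩
  have hAB : A m ≤ B := fun x hx => ⟨hx.2, (A m).nsmul_mem hx ℓ⟩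
  have c2 : Nat.card B = Nat.card (A m) * Nat.card (B.map D) := by
    have e := card_ker_map D B
    rwa [hkerA B (fun x hx => hx.1) hAB] at e
  have hBV : B.map D ≤ V := by
    rintro _ ⟨x, hx, rfl⟩
    rw [hV]
    rw [← map_nsmul]
    exact sub_eq_zero.2 hx.2.1
  have c3 : Nat.card (B.map D) = Nat.card V := by
    have : Nat.card (A m) * Nat.card (B.map D) = Nat.card (A m) * Nat.card V := by
      rw [← c2, c1, mul_comm]
    exact Nat.eq_of_mul_eq_mul_left hApos this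
  have c4 : B.map D = V := AddSubgroup.eq_of_le_of_card_ge hBV c3.ge
  -- `δ` on `A (m + 1)`
  have hAA : A m ≤ A (m + 1) := fun x hx => ⟨hmono x m (m + 1) (Nat.le_succ m) hx.1, hx.2⟩
  have c5 : (A (m + 1)).map D = V := by
    ext y
    rw [AddSubgroup.mem_map]
    constructor
    · rintro ⟨x, hx, rfl⟩
      rw [hV]
      refine h2 _ (hδJl x hx.2) ?_
      have := hgeom x
      rw [hx.1, sub_self] at this
      exact this
    · intro hy
      have hy' : y ∈ B.map D := by rw [c4]; exact hy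
      obtain ⟨x, hx, rfl⟩ := hy'
      refine ⟨x, ⟨?_, hx.1⟩, rfl⟩
      have e1 : ψ (D x) = D x := hm _ (by
        have : ℓ • D x = 0 := hy
        rw [this, smul_zero])
      have e2 := hNNfix _ e1
      rw [hgeom] at e2
      have e3 : ℓ • D x = 0 := hy
      rw [e3] at e2
      exact sub_eq_zero.1 e2
  have c6 : Nat.card (A (m + 1)) = Nat.card (A m) * Nat.card V := by
    have e := card_ker_map D (A (m + 1))
    rwa [hkerA (A (m + 1)) (fun x hx => hx.2) hAA, c5] at e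
  rw [hcard, hcard, mul_add, mul_one, ← add_assoc, pow_add] at c6
  exact (Nat.eq_of_mul_eq_mul_left (pow_pos hℓ.pos _) c6).symm

end Vale.Agent.P019P
end
end

section

section

/-!
# The quotient of a tower group by `ℓ` is finite
-/

namespace Vale.Agent.P019P

theorem fq_pow_fix {J : Type*} [AddCommGroup J] {f : AddMonoid.End J} {x : J}
    (h : f x = x) (n : ℕ) : (f ^ n) x = x := by
  induction n with
  | zero => rfl
  | succ n ih =>
    rw [pow_succ]
    show (f ^ n) (f x) = x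
    rw [h, ih]

theorem fq_mono {J : Type*} [AddCommGroup J] {φ : AddMonoid.End J} {ℓ : ℕ} {x : J}
    {m m' : ℕ} (hm : m ≤ m') (h : (φ ^ ℓ ^ m) x = x) : (φ ^ ℓ ^ m') x = x := by
  obtain ⟨d, rfl⟩ := Nat.exists_eq_add_of_le hm
  rw [pow_add ℓ, pow_mul]
  exact fq_pow_fix h _

/-- the `ℓ`-primary fixed group at level `m`. -/
def fqA {J : Type*} [AddCommGroup J] (φ : AddMonoid.End J) (ℓ m : ℕ) : AddSubgroup J where
  carrier := {x | (φ ^ ℓ ^ m) x = x ∧ ∃ k : ℕ, ℓ ^ k • x = 0}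
  zero_mem' := ⟨map_zero _, 0, smul_zero _⟩
  add_mem' := by
    rintro a b ⟨ha, k, hk⟩ ⟨hb, k', hk'⟩
    refine ⟨by rw [map_add, ha, hb], k + k', ?_⟩
    rw [smul_add, pow_add, mul_smul, smul_comm, hk, smul_zero, mul_smul, hk', smul_zero, add_zero]
  neg_mem' := by
    rintro a ⟨ha, k, hk⟩
    exact ⟨by rw [map_neg, ha], k, by rw [smul_neg, hk, neg_zero]⟩

/-- the map of the level-`m` group to the quotient. -/
def fqF {J : Type*} [AddCommGroup J] (φ : AddMonoid.End J) (ℓ m : ℕ) :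
    fqA φ ℓ m →+ (J ⧸ (nsmulAddMonoidHom ℓ : J →+ J).range) :=
  (QuotientAddGroup.mk' _).comp (fqA φ ℓ m).subtype

theorem fq_card {J : Type*} [AddCommGroup J] {φ : AddMonoid.End J} {ℓ N c : ℕ}
    (hℓ : ℓ.Prime) (h : Tower φ ℓ N c) (m : ℕ) :
    Nat.card (fqF φ ℓ m).range ≤ Nat.card {x : J // ℓ • x = 0} ∧ Finite (fqF φ ℓ m).range := by
  have hV : Finite {x : J // ℓ • x = 0} := (Tower.finite hℓ h).to_subtype
  have hA : Nat.card (fqA φ ℓ m) = ℓ ^ (c + N * m) := h.card m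
  have hAf : Finite (fqA φ ℓ m) := by
    apply Nat.finite_of_card_ne_zero
    rw [hA]
    exact pow_ne_zero _ hℓ.pos.ne'
  have hfr : Finite (fqF φ ℓ m).range :=
    Finite.of_surjective (fqF φ ℓ m).rangeRestrict (fqF φ ℓ m).rangeRestrict_surjective
  refine ⟨?_, hfr⟩
  set g : fqA φ ℓ m →+ fqA φ ℓ m := nsmulAddMonoidHom ℓ with hg
  have h1 := g.range.card_mul_index
  have h2 := g.ker.card_mul_index
  rw [AddSubgroup.index_ker] at h2
  have h3 : g.range.index = Nat.card g.ker := by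
    have hpos : 0 < Nat.card g.range := Nat.card_pos
    have : Nat.card g.range * g.range.index = Nat.card g.range * Nat.card g.ker := by
      rw [h1, ← h2, mul_comm]
    exact Nat.eq_of_mul_eq_mul_left hpos this
  have h4 : g.range ≤ (fqF φ ℓ m).ker := by
    rintro _ ⟨a, rfl⟩
    rw [AddMonoidHom.mem_ker]
    show (QuotientAddGroup.mk' _) (((g a : fqA φ ℓ m)) : J) = 0
    rw [QuotientAddGroup.mk'_apply, QuotientAddGroup.eq_zero_iff]
    exact ⟨(a : J), by simp [hg]⟩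
  have h5 : (fqF φ ℓ m).ker.index ∣ g.range.index := AddSubgroup.index_dvd_of_le h4
  have h6 : g.range.index ≠ 0 := by
    rw [h3]; exact Nat.card_pos.ne'
  have h7 := Nat.le_of_dvd (Nat.pos_of_ne_zero h6) h5
  rw [AddSubgroup.index_ker, h3] at h7
  refine h7.trans ?_
  refine Nat.card_le_card_of_injective
    (fun a : g.ker => (⟨((a : fqA φ ℓ m) : J), ?_⟩ : {x : J // ℓ • x = 0})) ?_
  · have := a.2
    rw [AddMonoidHom.mem_ker] at this
    have h8 := congrArg (fun z : fqA φ ℓ m => (z : J)) this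
    simpa [hg] using h8
  · intro a b hab
    have := congrArg Subtype.val hab
    exact Subtype.ext (Subtype.ext this)

theorem fq_exists {J : Type*} [AddCommGroup J] {φ : AddMonoid.End J} {ℓ N c : ℕ}
    (hℓ : ℓ.Prime) (h : Tower φ ℓ N c) (htor : ∀ x : J, ∃ n : ℕ, 0 < n ∧ n • x = 0)
    (q : J ⧸ (nsmulAddMonoidHom ℓ : J →+ J).range) :
    ∃ m : ℕ, q ∈ (fqF φ ℓ m).range := by
  obtain ⟨x, rfl⟩ := QuotientAddGroup.mk_surjective q
  obtain ⟨n, hn, hnx⟩ := htor x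
  obtain ⟨a, b, hb, rfl⟩ := Nat.exists_eq_pow_mul_and_not_dvd hn.ne' ℓ hℓ.ne_one
  have hcop : Nat.Coprime b ℓ := ((Nat.Prime.coprime_iff_not_dvd hℓ).2 hb).symm
  have hbez := Nat.gcd_eq_gcd_ab b ℓ
  rw [hcop.gcd_eq_one] at hbez
  set u := Nat.gcdA b ℓ
  set v := Nat.gcdB b ℓ
  set y : J := (b : ℤ) • (u • x) with hy
  have hxy : x = y + ℓ • (v • x) := by
    have : ((1 : ℕ) : ℤ) • x = ((b : ℤ) * u + (ℓ : ℤ) * v) • x := by rw [← hbez]
    rw [add_smul, mul_smul, mul_smul, Nat.cast_one, one_smul] at this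
    rw [hy, ← natCast_zsmul (v • x) ℓ]
    exact this
  have hk : ℓ ^ a • y = 0 := by
    have : ℓ ^ a • y = u • ((ℓ ^ a * b) • x) := by
      rw [hy, ← natCast_zsmul _ (ℓ ^ a), ← natCast_zsmul x, ← mul_smul, ← mul_smul, ← mul_smul]
      congr 1
      push_cast
      ring
    rw [this, hnx, smul_zero]
  obtain ⟨m, hm⟩ := h.ex y ⟨a, hk⟩
  refine ⟨m, ⟨⟨y, hm, a, hk⟩, ?_⟩⟩
  show (QuotientAddGroup.mk' _) y = _
  rw [QuotientAddGroup.mk'_apply, QuotientAddGroup.eq]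
  refine ⟨v • x, ?_⟩
  rw [nsmulAddMonoidHom_apply]
  nth_rewrite 2 [hxy]
  abel

theorem Tower.finite_quotA {J : Type*} [AddCommGroup J] {φ : AddMonoid.End J} {ℓ N c : ℕ}
    (hℓ : ℓ.Prime) (h : Tower φ ℓ N c) (htor : ∀ x : J, ∃ n : ℕ, 0 < n ∧ n • x = 0) :
    Finite (J ⧸ (nsmulAddMonoidHom ℓ : J →+ J).range) := by
  by_contra hinf
  have hinf' : Infinite (J ⧸ (nsmulAddMonoidHom ℓ : J →+ J).range) :=
    not_finite_iff_infinite.1 hinf
  obtain ⟨S, hS⟩ := Infinite.exists_subset_card_eq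
    (J ⧸ (nsmulAddMonoidHom ℓ : J →+ J).range) (Nat.card {x : J // ℓ • x = 0} + 1)
  choose M hM using fun q => fq_exists hℓ h htor q
  set m := S.sup M with hm
  have hsub : ∀ q ∈ S, q ∈ (fqF φ ℓ m).range := by
    intro q hq
    obtain ⟨⟨y, hy1, hy2⟩, hyq⟩ := hM q
    exact ⟨⟨y, fq_mono (Finset.le_sup hq) hy1, hy2⟩, hyq⟩
  obtain ⟨hc, hfin⟩ := fq_card hℓ h m
  have hle : S.card ≤ Nat.card (fqF φ ℓ m).range := by
    have := Nat.card_le_card_of_injective
      (fun q : S => (⟨q.1, hsub q.1 q.2⟩ : (fqF φ ℓ m).range))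
      (fun a b hab => Subtype.ext (congrArg (fun z : (fqF φ ℓ m).range => z.1) hab))
    simpa using this
  omega

end Vale.Agent.P019P
end
end

section

section

/-!
# The quotient by `ℓ`, and characters
-/

namespace Vale.Agent.P019P

theorem Tower.finite_quot {J : Type*} [AddCommGroup J] {φ : AddMonoid.End J} {ℓ N c : ℕ}
    (hℓ : ℓ.Prime) (h : Tower φ ℓ N c) (htor : ∀ x : J, ∃ n : ℕ, 0 < n ∧ n • x = 0) :
    Finite (J ⧸ (nsmulAddMonoidHom ℓ : J →+ J).range) :=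
  Tower.finite_quotA hℓ h htor

theorem pow_fix {J : Type*} [AddCommGroup J] (s : AddMonoid.End J) {a : ℕ} {x : J}
    (h : (s ^ a) x = x) (b : ℕ) : (s ^ (a * b)) x = x := by
  induction b with
  | zero => rw [mul_zero, pow_zero]; rfl
  | succ b ih =>
    rw [Nat.mul_succ, pow_add]
    change (s ^ (a * b)) ((s ^ a) x) = x
    rw [h, ih]

theorem exists_char {J : Type*} [AddCommGroup J] (s : AddMonoid.End J) (ℓ : ℕ)
    (hper : ∀ x : J, ∃ n : ℕ, 0 < n ∧ (s ^ n) x = x)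
    (hfin : Finite (J ⧸ (nsmulAddMonoidHom ℓ : J →+ J).range)) (x : J)
    (hx : ¬ ∃ y, x = ℓ • y) :
    ∃ (n : ℕ) (ψ : AddChar J ℂ) (x' : J), 0 < n ∧ (∀ y, ψ ((s ^ n) y) = ψ y) ∧
      (∀ y, ψ (ℓ • y) = 1) ∧ (s ^ n) x' = x' ∧ ψ x' ≠ 1 := by
  classical
  set Q := J ⧸ (nsmulAddMonoidHom ℓ : J →+ J).range with hQ
  have := Fintype.ofFinite Q
  let mk : J →+ Q := QuotientAddGroup.mk' _
  have hmk : ∀ y : J, mk y = 0 ↔ ∃ z, y = ℓ • z := by
    intro y
    change ((y : J) : J ⧸ (nsmulAddMonoidHom ℓ : J →+ J).range) = 0 ↔ _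
    rw [QuotientAddGroup.eq_zero_iff]
    constructor
    · rintro ⟨z, hz⟩
      exact ⟨z, hz.symm⟩
    · rintro ⟨z, hz⟩
      exact ⟨z, hz.symm⟩
  have hsurj : ∀ q : Q, ∃ y : J, mk y = q := QuotientAddGroup.mk'_surjective _
  choose r hr using hsurj
  choose p hp0 hp using fun q => hper (r q)
  set n := ∏ q : Q, p q with hn
  have hfix : ∀ q, (s ^ n) (r q) = r q := by
    intro q
    obtain ⟨m, hm⟩ : p q ∣ n := Finset.dvd_prod_of_mem _ (Finset.mem_univ q)
    rw [hm]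
    exact pow_fix s (hp q) m
  have hinv : ∀ y, mk ((s ^ n) y) = mk y := by
    intro y
    have h1 : mk (y - r (mk y)) = 0 := by rw [map_sub, hr, sub_self]
    obtain ⟨z, hz⟩ := (hmk _).1 h1
    have h2 : y = r (mk y) + ℓ • z := by rw [← hz]; abel
    have h3 : (s ^ n) y = r (mk y) + ℓ • (s ^ n) z := by
      conv_lhs => rw [h2]
      rw [map_add, hfix, map_nsmul]
    rw [h3, map_add, hr, (hmk (ℓ • (s ^ n) z)).2 ⟨_, rfl⟩, add_zero]
  have hx0 : mk x ≠ 0 := fun h => hx ((hmk x).1 h)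
  obtain ⟨ψ0, hψ0⟩ := AddChar.exists_apply_ne_zero.2 hx0
  refine ⟨n, ψ0.compAddMonoidHom mk, r (mk x), Finset.prod_pos fun q _ => hp0 q, ?_, ?_, hfix _, ?_⟩
  · intro y
    rw [AddChar.compAddMonoidHom_apply, AddChar.compAddMonoidHom_apply, hinv]
  · intro y
    rw [AddChar.compAddMonoidHom_apply, (hmk (ℓ • y)).2 ⟨_, rfl⟩, AddChar.map_zero_eq_one]
  · rw [AddChar.compAddMonoidHom_apply, hr]
    exact hψ0

end Vale.Agent.P019P
end
end

section

section

/-!
# The determinant of `1 - M ^ n`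
-/

namespace Vale.Agent.P019P

open Polynomial

theorem one_sub_pow_eq_prod_roots (n : ℕ) (hn : 0 < n) :
    (1 - X ^ n : ℂ[X]) = ∏ z ∈ nthRootsFinset n (1 : ℂ), (1 - C z * X) := by
  have hζ := Complex.isPrimitiveRoot_exp n hn.ne'
  have hζ' : IsPrimitiveRoot (C (Complex.exp (2 * Real.pi * Complex.I / n))) n :=
    hζ.map_of_injective (f := (C : ℂ →+* ℂ[X])) C_injective
  have h := hζ'.pow_sub_pow_eq_prod_sub_mul (1 : ℂ[X]) X hn
  rw [one_pow] at h
  rw [h]
  symm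
  refine Finset.prod_bij (fun z _ => C z) ?_ ?_ ?_ ?_
  · intro z hz
    rw [mem_nthRootsFinset hn] at hz ⊢
    rw [← C_pow, hz, C_1]
  · intro a _ b _ hab
    exact C_injective hab
  · intro q hq
    rw [mem_nthRootsFinset hn] at hq
    have hdeg : q.natDegree = 0 := by
      have h1 := congrArg natDegree hq
      rw [natDegree_pow, natDegree_one] at h1
      rcases Nat.mul_eq_zero.1 h1 with h2 | h2
      · omega
      · exact h2
    obtain ⟨z, rfl⟩ := natDegree_eq_zero.1 hdeg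
    refine ⟨z, ?_, rfl⟩
    rw [mem_nthRootsFinset hn]
    apply C_injective
    rw [C_pow, hq, C_1]
  · intro z _
    rfl

theorem eval_charpolyRev' {N : ℕ} (M : Matrix (Fin N) (Fin N) ℂ) (z : ℂ) :
    eval z M.charpolyRev = (1 - z • M).det := by
  rw [Matrix.charpolyRev, ← coe_evalRingHom, RingHom.map_det]
  congr 1
  ext i j
  simp [Matrix.one_apply, apply_ite (eval z)]
  exact mul_comm _ _

theorem charpolyRev_map {N : ℕ} (M : Matrix (Fin N) (Fin N) ℤ) :
    M.charpolyRev.map (Int.castRingHom ℂ) = (M.map (Int.castRingHom ℂ)).charpolyRev := by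
  rw [Matrix.charpolyRev, Matrix.charpolyRev, ← coe_mapRingHom, RingHom.map_det]
  congr 1
  ext i j
  simp [Matrix.one_apply, apply_ite (Polynomial.map (Int.castRingHom ℂ))]

theorem det_one_sub_pow {N : ℕ} (M : Matrix (Fin N) (Fin N) ℤ) (A : Multiset ℂ)
    (hA : M.charpolyRev.map (Int.castRingHom ℂ) = (A.map fun a => 1 - C a * X).prod) (n : ℕ)
    (hn : 0 < n) : (((1 - M ^ n).det : ℤ) : ℂ) = (A.map fun a => 1 - a ^ n).prod := by
  set MC := M.map (Int.castRingHom ℂ) with hMC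
  have e1 : (((1 - M ^ n).det : ℤ) : ℂ) = (1 - MC ^ n).det := by
    have := RingHom.map_det (Int.castRingHom ℂ) (1 - M ^ n)
    rw [eq_intCast] at this
    rw [this, map_sub, map_one, map_pow]
    rfl
  have e2 : (1 - MC ^ n) = aeval MC (∏ z ∈ nthRootsFinset n (1 : ℂ), (1 - C z * X)) := by
    rw [← one_sub_pow_eq_prod_roots n hn]
    simp
  let D : ℂ[X] →* ℂ := (Matrix.detMonoidHom : Matrix (Fin N) (Fin N) ℂ →* ℂ).comp
    (aeval MC : ℂ[X] →ₐ[ℂ] Matrix (Fin N) (Fin N) ℂ).toRingHom.toMonoidHom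
  have e3 : (1 - MC ^ n).det = ∏ z ∈ nthRootsFinset n (1 : ℂ), D (1 - C z * X) := by
    rw [e2, ← map_prod]
    rfl
  have e4 : ∀ z : ℂ, D (1 - C z * X) = (A.map fun a => 1 - a * z).prod := by
    intro z
    have h1 : D (1 - C z * X) = (1 - z • MC).det := by
      show (aeval MC (1 - C z * X)).det = _
      congr 1
      simp [Algebra.smul_def]
    rw [h1, ← eval_charpolyRev', ← charpolyRev_map, hA, ← coe_evalRingHom, map_multiset_prod,
      Multiset.map_map]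
    congr 1
    refine Multiset.map_congr rfl fun a _ => ?_
    simp
  have hζ := Complex.isPrimitiveRoot_exp n hn.ne'
  rw [e1, e3]
  simp_rw [e4]
  clear hA e1 e2 e3 e4 D
  induction A using Multiset.induction with
  | empty => simp
  | cons a A ih =>
    simp only [Multiset.map_cons, Multiset.prod_cons, Finset.prod_mul_distrib]
    rw [ih]
    congr 1
    have h := hζ.pow_sub_pow_eq_prod_sub_mul 1 a hn
    rw [one_pow] at h
    rw [h]
    exact Finset.prod_congr rfl fun z _ => by ring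

end Vale.Agent.P019P
end
end

section

section

/-!
# Growth of `det (1 - M ^ n)`
-/

namespace Vale.Agent.P019P

open Polynomial

/-- Two integer matrices with the same image modulo `m` differ by a multiple of `m`. -/
theorem exists_eq_add_smul {N : ℕ} (m : ℕ) (A B : Matrix (Fin N) (Fin N) ℤ)
    (h : (Int.castRingHom (ZMod m)).mapMatrix A = (Int.castRingHom (ZMod m)).mapMatrix B) :
    ∃ Y : Matrix (Fin N) (Fin N) ℤ, A = B + (m : ℤ) • Y := by
  have key : ∀ i j, ∃ y : ℤ, A i j = B i j + (m : ℤ) * y := by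
    intro i j
    have h1 : ((A i j : ℤ) : ZMod m) = ((B i j : ℤ) : ZMod m) := by
      have h2 := congrFun (congrFun h i) j
      simpa [RingHom.mapMatrix_apply, Matrix.map_apply] using h2
    have h3 : ((B i j : ℤ) : ZMod m) = ((A i j : ℤ) : ZMod m) := h1.symm
    rw [ZMod.intCast_eq_intCast_iff_dvd_sub] at h3
    obtain ⟨y, hy⟩ := h3
    exact ⟨y, by linarith⟩
  choose y hy using key
  refine ⟨Matrix.of y, ?_⟩
  ext i j
  simp [hy i j]

/-- If `A` maps to the scalar `c` modulo `ℓ`, with `c` not divisible by `ℓ`, then `ℓ` does not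
divide the determinant. -/
theorem not_dvd_det_of_map {ℓ : ℕ} (hℓ : ℓ.Prime) {N : ℕ} (A : Matrix (Fin N) (Fin N) ℤ) (c : ℕ)
    (hc : ¬ ℓ ∣ c)
    (h : (Int.castRingHom (ZMod ℓ)).mapMatrix A = (c : ZMod ℓ) • (1 : Matrix (Fin N) (Fin N) (ZMod ℓ))) :
    ¬ (ℓ : ℤ) ∣ A.det := by
  have := Fact.mk hℓ
  intro hd
  have h1 : ((A.det : ℤ) : ZMod ℓ) = 0 := (ZMod.intCast_zmod_eq_zero_iff_dvd _ _).2 hd
  have h2 : (Int.castRingHom (ZMod ℓ)) A.det = ((Int.castRingHom (ZMod ℓ)).mapMatrix A).det :=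
    RingHom.map_det _ _
  rw [h, Matrix.det_smul, Matrix.det_one, mul_one] at h2
  have h3 : (c : ZMod ℓ) ^ Fintype.card (Fin N) = 0 := by
    rw [← h2]; simpa using h1
  have h4 : (c : ZMod ℓ) = 0 := eq_zero_of_pow_eq_zero h3
  exact hc ((ZMod.natCast_eq_zero_iff _ _).1 h4)

theorem det_growth {ℓ : ℕ} (hℓ : ℓ.Prime) {N : ℕ} (M : Matrix (Fin N) (Fin N) ℤ)
    (hM : ¬ (ℓ : ℤ) ∣ M.det) :
    ∃ n0 : ℕ, 0 < n0 ∧
      (∀ n, n0 ∣ n → ∃ u : ℤ, ¬ (ℓ : ℤ) ∣ u ∧
        (1 - M ^ (n * ℓ)).det = (1 - M ^ n).det * (ℓ ^ N * u)) ∧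
      (∀ n r : ℕ, n0 ∣ n → ¬ ℓ ∣ r → ∃ u : ℤ, ¬ (ℓ : ℤ) ∣ u ∧
        (1 - M ^ (n * r)).det = (1 - M ^ n).det * u) := by
  classical
  have : NeZero (ℓ ^ 2) := ⟨pow_ne_zero _ hℓ.ne_zero⟩
  set F := (Int.castRingHom (ZMod (ℓ ^ 2))).mapMatrix (m := Fin N) with hF
  -- the reduction of `M` is a unit
  have hunit : IsUnit (F M) := by
    rw [Matrix.isUnit_iff_isUnit_det]
    have h1 : (F M).det = ((M.det : ℤ) : ZMod (ℓ ^ 2)) := by
      rw [hF, ← RingHom.map_det]; rfl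
    rw [h1, ZMod.coe_int_isUnit_iff_isCoprime]
    have h2 : IsCoprime ((ℓ : ℤ)) M.det :=
      (Nat.prime_iff_prime_int.1 hℓ).coprime_iff_not_dvd.2 hM
    have h3 : IsCoprime ((ℓ : ℤ) ^ 2) M.det := IsCoprime.pow_left h2
    simpa using h3
  obtain ⟨U, hU⟩ := hunit
  have hfin : IsOfFinOrder U := isOfFinOrder_of_finite U
  refine ⟨orderOf U, hfin.orderOf_pos, ?_⟩
  have hpow : ∀ n, orderOf U ∣ n → F (M ^ n) = 1 := by
    intro n hn
    rw [map_pow, ← hU, ← Units.val_pow_eq_pow_val, orderOf_dvd_iff_pow_eq_one.1 hn, Units.val_one]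
  -- geometric sums
  have hgeom : ∀ n r : ℕ, orderOf U ∣ n →
      ∃ Y : Matrix (Fin N) (Fin N) ℤ,
        1 - M ^ (n * r) = (1 - M ^ n) * (((r : ℤ) • (1 : Matrix (Fin N) (Fin N) ℤ))
          + ((ℓ ^ 2 : ℕ) : ℤ) • Y) := by
    intro n r hn
    have h1 : F (∑ i ∈ Finset.range r, (M ^ n) ^ i) = F ((r : ℤ) • (1 : Matrix (Fin N) (Fin N) ℤ)) := by
      rw [map_sum]
      have h2 : ∀ i ∈ Finset.range r, F ((M ^ n) ^ i) = 1 := by
        intro i _
        rw [map_pow, hpow n hn, one_pow]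
      rw [Finset.sum_congr rfl h2]
      simp
    obtain ⟨Y, hY⟩ := exists_eq_add_smul (ℓ ^ 2) _ _ h1
    refine ⟨Y, ?_⟩
    rw [← hY, mul_neg_geom_sum, ← pow_mul]
  refine ⟨?_, ?_⟩
  · intro n hn
    obtain ⟨Y, hY⟩ := hgeom n ℓ hn
    refine ⟨(1 + (ℓ : ℤ) • Y).det, ?_, ?_⟩
    · refine not_dvd_det_of_map hℓ _ 1 (by
        intro h; exact hℓ.one_lt.ne' (Nat.dvd_one.1 h)) ?_
      ext i j
      rw [RingHom.mapMatrix_apply, Matrix.map_apply, Matrix.add_apply, Matrix.smul_apply,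
        Matrix.smul_apply, Matrix.one_apply, Matrix.one_apply]
      split_ifs <;> simp
    · rw [hY, Matrix.det_mul]
      congr 1
      have h1 : ((ℓ : ℤ) • (1 : Matrix (Fin N) (Fin N) ℤ)) + ((ℓ ^ 2 : ℕ) : ℤ) • Y
          = (ℓ : ℤ) • (1 + (ℓ : ℤ) • Y) := by
        rw [smul_add, smul_smul]
        congr 2
        push_cast
        ring
      rw [h1, Matrix.det_smul]
      simp
  · intro n r hn hr
    obtain ⟨Y, hY⟩ := hgeom n r hn
    refine ⟨_, ?_, by rw [hY, Matrix.det_mul]⟩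
    refine not_dvd_det_of_map hℓ _ r hr ?_
    ext i j
    rw [RingHom.mapMatrix_apply, Matrix.map_apply, Matrix.add_apply, Matrix.smul_apply,
      Matrix.smul_apply, Matrix.smul_apply, Matrix.one_apply, Matrix.one_apply]
    split_ifs <;> simp

end Vale.Agent.P019P
end
end

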