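import Vale.Agent.P025.R2.H816.J01

/-! Carved out of `Vale.Agent.P019.Bd4` (function fields of one variable); generated file. -/

set_option linter.all false

attribute [local instance] O19.fr O19.tf O19.pj O19.fl

section

section

/-!
# The abstract zeta theorem: data
-/

namespace Vale.Agent.P019P

/-- the data of a curve over (the closure of) a finite field needed for the zeta function:
`P` is the set of places, `σ` the `q`-Frobenius. -/
structure ZDat (P : Type*) where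
  σ : Equiv.Perm P
  q : ℕ
  g : ℕ
  prin : AddSubgroup (P →₀ ℤ)
  l : (P →₀ ℤ) → ℕ
  κ : P →₀ ℤ
  P0 : P
  two_le : 2 ≤ q
  fix0 : σ P0 = P0
  per : ∀ p, ∃ n : ℕ, 0 < n ∧ (σ ^ n) p = p
  fin : ∀ n : ℕ, 0 < n → {p | (σ ^ n) p = p}.Finite
  deg_prin : ∀ D ∈ prin, dg D = 0
  sig_prin : ∀ D, D ∈ prin ↔ D.mapDomain σ ∈ prin
  rr : ∀ D, (l D : ℤ) - l (κ - D) = dg D + 1 - g
  l_neg : ∀ D, dg D < 0 → l D = 0
  l_prin : ∀ D ∈ prin, l D = 1
  l_zero : ∀ D, dg D = 0 → D ∉ prin → l D = 0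
  count : ∀ n : ℕ, 0 < n → ∀ D, D.mapDomain (σ ^ n) - D ∈ prin →
    Nat.card {E : P →₀ ℤ // 0 ≤ E ∧ E.mapDomain (σ ^ n) = E ∧ E - D ∈ prin} * (q ^ n - 1) =
      q ^ (n * l D) - 1

end Vale.Agent.P019P
end
end

section

section

/-!
# Divisor classes
-/

namespace Vale.Agent.P019P

open Finsupp

variable {P : Type*}

theorem dg_single (p : P) (n : ℤ) : dg (single p n) = n := by
  simp [dg]

theorem dg_mapDomain (τ : Equiv.Perm P) (D : P →₀ ℤ) : dg (D.mapDomain τ) = dg D := by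
  induction D using Finsupp.induction_linear with
  | zero => rw [Finsupp.mapDomain_zero]
  | add f g hf hg => rw [Finsupp.mapDomain_add, map_add, map_add, hf, hg]
  | single a b => rw [Finsupp.mapDomain_single, dg_single, dg_single]

namespace ZDat

variable (Z : ZDat P)

/-- divisor classes. -/
abbrev Pic : Type _ := (P →₀ ℤ) ⧸ Z.prin

/-- the class of a divisor. -/
noncomputable def cl : (P →₀ ℤ) →+ Z.Pic := QuotientAddGroup.mk' Z.prin

theorem cl_surj (x : Z.Pic) : ∃ D, Z.cl D = x := QuotientAddGroup.mk'_surjective _ x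

theorem cl_eq {D E : P →₀ ℤ} : Z.cl D = Z.cl E ↔ D - E ∈ Z.prin := by
  rw [cl, QuotientAddGroup.mk'_apply, QuotientAddGroup.mk'_apply, QuotientAddGroup.eq,
    ← neg_mem_iff, neg_add, neg_neg, sub_eq_add_neg]

/-- the degree of a class. -/
noncomputable def deg : Z.Pic →+ ℤ := QuotientAddGroup.lift Z.prin dg (fun D hD => Z.deg_prin D hD)

@[simp] theorem deg_cl (D : P →₀ ℤ) : Z.deg (Z.cl D) = dg D := rfl

/-- the action of the Frobenius on classes. -/
noncomputable def s : AddMonoid.End Z.Pic :=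
  QuotientAddGroup.map Z.prin Z.prin (Finsupp.mapDomain.addMonoidHom Z.σ)
    (fun D hD => (Z.sig_prin D).1 hD)

theorem s_cl (D : P →₀ ℤ) : Z.s (Z.cl D) = Z.cl (D.mapDomain Z.σ) := rfl

theorem s_pow_cl (n : ℕ) (D : P →₀ ℤ) : (Z.s ^ n) (Z.cl D) = Z.cl (D.mapDomain (Z.σ ^ n)) := by
  induction n with
  | zero =>
    rw [pow_zero, pow_zero, Equiv.Perm.coe_one, Finsupp.mapDomain_id]
    rfl
  | succ n ih =>
    have h : (Z.s ^ (n + 1)) (Z.cl D) = Z.s ((Z.s ^ n) (Z.cl D)) := by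
      rw [pow_succ']
      rfl
    rw [h, ih, s_cl, ← Finsupp.mapDomain_comp, pow_succ', Equiv.Perm.coe_mul]

theorem deg_s (x : Z.Pic) : Z.deg (Z.s x) = Z.deg x := by
  obtain ⟨D, rfl⟩ := Z.cl_surj x
  rw [s_cl, deg_cl, deg_cl, dg_mapDomain]

theorem deg_s_pow (n : ℕ) (x : Z.Pic) : Z.deg ((Z.s ^ n) x) = Z.deg x := by
  obtain ⟨D, rfl⟩ := Z.cl_surj x
  rw [s_pow_cl, deg_cl, deg_cl, dg_mapDomain]

/-- every divisor is fixed by a power of the Frobenius. -/
theorem exists_fix (D : P →₀ ℤ) : ∃ n : ℕ, 0 < n ∧ D.mapDomain (Z.σ ^ n) = D := by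
  have h1 : ∀ p : P, ∃ n : ℕ, 0 < n ∧ (Z.σ ^ n) p = p := fun p => Z.per p
  choose f hf0 hf using h1
  refine ⟨∏ p ∈ D.support, f p, Finset.prod_pos fun p _ => hf0 p, ?_⟩
  have h2 : ∀ p ∈ D.support, (Z.σ ^ (∏ p ∈ D.support, f p)) p = p := by
    intro p hp
    obtain ⟨c, hc⟩ := Finset.dvd_prod_of_mem f hp
    rw [hc, pow_mul]
    exact Function.IsFixedPt.perm_pow (hf p) c
  conv_rhs => rw [← Finsupp.mapDomain_id (v := D)]
  exact Finsupp.mapDomain_congr h2

theorem fix_mul {D : P →₀ ℤ} {n : ℕ} (h : D.mapDomain (Z.σ ^ n) = D) (m : ℕ) :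
    D.mapDomain (Z.σ ^ (n * m)) = D := by
  induction m with
  | zero => rw [mul_zero, pow_zero, Equiv.Perm.coe_one, Finsupp.mapDomain_id]
  | succ m ih =>
    rw [Nat.mul_succ, pow_add, Equiv.Perm.coe_mul, Finsupp.mapDomain_comp, h, ih]

/-- `l` depends only on the class. -/
theorem l_congr {D E : P →₀ ℤ} (h : D - E ∈ Z.prin) : Z.l D = Z.l E := by
  obtain ⟨n₁, hn₁, h₁⟩ := Z.exists_fix D
  obtain ⟨n₂, hn₂, h₂⟩ := Z.exists_fix E
  have hn : 0 < n₁ * n₂ := Nat.mul_pos hn₁ hn₂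
  have hD : D.mapDomain (Z.σ ^ (n₁ * n₂)) = D := Z.fix_mul h₁ n₂
  have hE : E.mapDomain (Z.σ ^ (n₁ * n₂)) = E := by
    rw [Nat.mul_comm]
    exact Z.fix_mul h₂ n₁
  have cD := Z.count (n₁ * n₂) hn D (by rw [hD, sub_self]; exact zero_mem _)
  have cE := Z.count (n₁ * n₂) hn E (by rw [hE, sub_self]; exact zero_mem _)
  have hset : ∀ F : P →₀ ℤ, (0 ≤ F ∧ F.mapDomain (Z.σ ^ (n₁ * n₂)) = F ∧ F - D ∈ Z.prin) ↔
      (0 ≤ F ∧ F.mapDomain (Z.σ ^ (n₁ * n₂)) = F ∧ F - E ∈ Z.prin) := by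
    intro F
    refine and_congr_right fun _ => and_congr_right fun _ => ?_
    have e1 : F - E = (F - D) + (D - E) := by abel
    rw [e1]
    exact (AddSubgroup.add_mem_cancel_right _ h).symm
  have hc : Nat.card {F : P →₀ ℤ // 0 ≤ F ∧ F.mapDomain (Z.σ ^ (n₁ * n₂)) = F ∧
      F - D ∈ Z.prin} = Nat.card {F : P →₀ ℤ // 0 ≤ F ∧
        F.mapDomain (Z.σ ^ (n₁ * n₂)) = F ∧ F - E ∈ Z.prin} :=
    Nat.card_congr (Equiv.subtypeEquivRight hset)
  rw [hc, cE] at cD
  have hq : 0 < Z.q := lt_of_lt_of_le two_pos Z.two_le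
  have p1 : 0 < Z.q ^ (n₁ * n₂ * Z.l D) := Nat.pow_pos hq
  have p2 : 0 < Z.q ^ (n₁ * n₂ * Z.l E) := Nat.pow_pos hq
  have e2 : Z.q ^ (n₁ * n₂ * Z.l D) = Z.q ^ (n₁ * n₂ * Z.l E) := by omega
  exact Nat.eq_of_mul_eq_mul_left hn (Nat.pow_right_injective Z.two_le e2)

theorem mapDomain_sig_comm (n : ℕ) (F : P →₀ ℤ) :
    (F.mapDomain Z.σ).mapDomain (Z.σ ^ n) = (F.mapDomain (Z.σ ^ n)).mapDomain Z.σ := by
  rw [← Finsupp.mapDomain_comp, ← Finsupp.mapDomain_comp, ← Equiv.Perm.coe_mul,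
    ← Equiv.Perm.coe_mul, ← pow_succ, ← pow_succ']

theorem mapDomain_sig_inj {F G : P →₀ ℤ} (h : F.mapDomain Z.σ = G.mapDomain Z.σ) : F = G :=
  Finsupp.mapDomain_injective Z.σ.injective h

theorem l_sig (D : P →₀ ℤ) : Z.l (D.mapDomain Z.σ) = Z.l D := by
  obtain ⟨n, hn, hD⟩ := Z.exists_fix D
  have hS : (D.mapDomain Z.σ).mapDomain (Z.σ ^ n) = D.mapDomain Z.σ := by
    rw [Z.mapDomain_sig_comm, hD]
  have cD := Z.count n hn D (by rw [hD, sub_self]; exact zero_mem _)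
  have cS := Z.count n hn (D.mapDomain Z.σ) (by rw [hS, sub_self]; exact zero_mem _)
  have happ : ∀ F : P →₀ ℤ, (Finsupp.domCongr (M := ℤ) Z.σ) F = F.mapDomain Z.σ := fun F => by
    rw [Finsupp.domCongr_apply, Finsupp.equivMapDomain_eq_mapDomain]
  have hc : Nat.card {F : P →₀ ℤ // 0 ≤ F ∧ F.mapDomain (Z.σ ^ n) = F ∧ F - D ∈ Z.prin} =
      Nat.card {F : P →₀ ℤ // 0 ≤ F ∧ F.mapDomain (Z.σ ^ n) = F ∧
        F - D.mapDomain Z.σ ∈ Z.prin} := by
    refine Nat.card_congr (Equiv.subtypeEquiv (Finsupp.domCongr (M := ℤ) Z.σ).toEquiv ?_)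
    intro F
    have e0 : (Finsupp.domCongr (M := ℤ) Z.σ).toEquiv F = F.mapDomain Z.σ := happ F
    rw [e0]
    refine and_congr ?_ (and_congr ?_ ?_)
    · constructor
      · intro h p
        rw [← Finsupp.equivMapDomain_eq_mapDomain, Finsupp.equivMapDomain_apply]
        exact h _
      · intro h p
        have h1 := h (Z.σ p)
        rw [← Finsupp.equivMapDomain_eq_mapDomain, Finsupp.equivMapDomain_apply,
          Equiv.symm_apply_apply] at h1
        exact h1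
    · rw [Z.mapDomain_sig_comm]
      constructor
      · intro h
        rw [h]
      · intro h
        exact Z.mapDomain_sig_inj h
    · have e1 : F.mapDomain Z.σ - D.mapDomain Z.σ = (F - D).mapDomain Z.σ :=
        ((Finsupp.mapDomain.addMonoidHom (M := ℤ) Z.σ).map_sub F D).symm
      rw [e1]
      exact Z.sig_prin _
  rw [hc, cS] at cD
  have hq : 0 < Z.q := lt_of_lt_of_le two_pos Z.two_le
  have p1 : 0 < Z.q ^ (n * Z.l D) := Nat.pow_pos hq
  have p2 : 0 < Z.q ^ (n * Z.l (D.mapDomain Z.σ)) := Nat.pow_pos hq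
  have e2 : Z.q ^ (n * Z.l (D.mapDomain Z.σ)) = Z.q ^ (n * Z.l D) := by omega
  exact Nat.eq_of_mul_eq_mul_left hn (Nat.pow_right_injective Z.two_le e2)

/-- the dimension of a class. -/
noncomputable def ll : Z.Pic → ℕ :=
  Quotient.lift Z.l (fun D E h => Z.l_congr (by
    have h1 : Z.cl D = Z.cl E := Quotient.sound h
    exact (Z.cl_eq).1 h1))

@[simp] theorem ll_cl (D : P →₀ ℤ) : Z.ll (Z.cl D) = Z.l D := rfl

theorem ll_s (x : Z.Pic) : Z.ll (Z.s x) = Z.ll x := by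
  obtain ⟨D, rfl⟩ := Z.cl_surj x
  rw [Z.s_cl, Z.ll_cl, Z.ll_cl, Z.l_sig]

theorem l_zero' : Z.l 0 = 1 := Z.l_prin 0 (zero_mem _)

theorem l_kappa : Z.l Z.κ = Z.g := by
  have h := Z.rr 0
  rw [sub_zero, Z.l_zero', map_zero] at h
  push_cast at h
  omega

theorem dg_kappa : dg Z.κ = 2 * (Z.g : ℤ) - 2 := by
  have h := Z.rr Z.κ
  rw [sub_self, Z.l_zero', Z.l_kappa] at h
  push_cast at h
  omega

/-- Riemann-Roch in large degree. -/
theorem ll_large (x : Z.Pic) (h : 2 * (Z.g : ℤ) - 1 ≤ Z.deg x) :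
    (Z.ll x : ℤ) = Z.deg x + 1 - Z.g := by
  obtain ⟨D, rfl⟩ := Z.cl_surj x
  rw [Z.deg_cl] at h ⊢
  have h1 := Z.rr D
  have h2 : Z.l (Z.κ - D) = 0 := Z.l_neg _ (by
    rw [map_sub, Z.dg_kappa]
    omega)
  rw [h2] at h1
  rw [Z.ll_cl]
  push_cast at h1
  omega

theorem ll_crit_eq : Z.ll (Z.cl Z.κ) = Z.g := by
  rw [Z.ll_cl, Z.l_kappa]

theorem ll_crit_ne (x : Z.Pic) (h : Z.deg x = 2 * (Z.g : ℤ) - 2) (hx : x ≠ Z.cl Z.κ) :
    (Z.ll x : ℤ) = Z.g - 1 := by
  obtain ⟨D, rfl⟩ := Z.cl_surj x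
  rw [Z.deg_cl] at h
  have h1 := Z.rr D
  have h2 : Z.l (Z.κ - D) = 0 := Z.l_zero _ (by
    rw [map_sub, Z.dg_kappa]
    omega) (fun hm => hx (Z.cl_eq.2 hm).symm)
  rw [h2] at h1
  rw [Z.ll_cl]
  push_cast at h1
  omega

theorem ll_pos (x : Z.Pic) (h : (Z.g : ℤ) ≤ Z.deg x) : 0 < Z.ll x := by
  obtain ⟨D, rfl⟩ := Z.cl_surj x
  rw [Z.deg_cl] at h
  have h1 := Z.rr D
  rw [Z.ll_cl]
  omega

theorem s_kappa : Z.s (Z.cl Z.κ) = Z.cl Z.κ := by
  by_contra hne
  have h1 := Z.ll_crit_ne (Z.s (Z.cl Z.κ)) (by rw [Z.deg_s, Z.deg_cl, Z.dg_kappa]) hne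
  rw [Z.ll_s, Z.ll_crit_eq] at h1
  omega

/-- the classes of degree zero. -/
abbrev J : Type _ := Z.deg.ker

/-- the action of the Frobenius on classes of degree zero. -/
noncomputable def sJ : AddMonoid.End Z.J :=
  (Z.s.comp (AddSubgroup.subtype _)).codRestrict _ (fun x => by
    have h := x.2
    rw [AddMonoidHom.mem_ker] at h ⊢
    exact (Z.deg_s _).trans h)

theorem coe_sJ (x : Z.J) : ((Z.sJ x : Z.J) : Z.Pic) = Z.s x := rfl

theorem coe_sJ_pow (n : ℕ) (x : Z.J) : (((Z.sJ ^ n) x : Z.J) : Z.Pic) = (Z.s ^ n) x := by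
  induction n with
  | zero => rfl
  | succ n ih =>
    have h1 : (Z.sJ ^ (n + 1)) x = Z.sJ ((Z.sJ ^ n) x) := by
      rw [pow_succ']
      rfl
    have h2 : (Z.s ^ (n + 1)) (x : Z.Pic) = Z.s ((Z.s ^ n) (x : Z.Pic)) := by
      rw [pow_succ']
      rfl
    rw [h1, h2, coe_sJ, ih]

theorem sJ_per (x : Z.J) : ∃ n : ℕ, 0 < n ∧ (Z.sJ ^ n) x = x := by
  obtain ⟨D, hD⟩ := Z.cl_surj (x : Z.Pic)
  obtain ⟨n, hn, h⟩ := Z.exists_fix D
  refine ⟨n, hn, Subtype.ext ?_⟩
  rw [coe_sJ_pow, ← hD, s_pow_cl, h]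

end ZDat

end Vale.Agent.P019P
end
end

section

section

/-!
# Logarithmic derivatives of power series
-/

namespace Vale.Agent.P019P

open PowerSeries

variable {R : Type*} [CommRing R]

/-- `S` is the logarithmic derivative `X A' / A` of `A`. -/
def LD (A S : R⟦X⟧) : Prop := X * (d⁄dX R A) = A * S

/-- the power series `∑_{m ≥ 1} s m X^m`. -/
noncomputable def pos (s : ℕ → R) : R⟦X⟧ := PowerSeries.mk fun m => if m = 0 then 0 else s m

theorem LD.mul {A B S T : R⟦X⟧} (h1 : LD A S) (h2 : LD B T) : LD (A * B) (S + T) := by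
  unfold LD at *
  rw [Derivation.leibniz, smul_eq_mul, smul_eq_mul]
  calc X * (A * (d⁄dX R) B + B * (d⁄dX R) A)
      = A * (X * (d⁄dX R) B) + B * (X * (d⁄dX R) A) := by ring
    _ = A * B * (S + T) := by rw [h1, h2]; ring

theorem LD_of_rec (a s : ℕ → R)
    (h : ∀ M : ℕ, (M : R) * a M = ∑ m ∈ Finset.Icc 1 M, s m * a (M - m)) :
    LD (PowerSeries.mk a) (pos s) := by
  unfold LD
  ext M
  have hL : coeff M (X * (d⁄dX R) (PowerSeries.mk a)) = (M : R) * a M := by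
    cases M with
    | zero => simp
    | succ k =>
      rw [coeff_succ_X_mul, coeff_derivative, coeff_mk]
      push_cast
      ring
  rw [hL, h M, mul_comm (PowerSeries.mk a), coeff_mul,
    Finset.Nat.sum_antidiagonal_eq_sum_range_succ_mk]
  have hs : Finset.Icc 1 M ⊆ Finset.range (M + 1) := by
    intro m hm
    rw [Finset.mem_Icc] at hm
    rw [Finset.mem_range]
    omega
  rw [← Finset.sum_subset hs]
  · refine Finset.sum_congr rfl fun m hm => ?_
    rw [Finset.mem_Icc] at hm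
    have : m ≠ 0 := by omega
    simp only [pos, coeff_mk, if_neg this]
  · intro m hm1 hm2
    rw [Finset.mem_range] at hm1
    rw [Finset.mem_Icc] at hm2
    have : m = 0 := by omega
    simp only [pos, coeff_mk, if_pos this, zero_mul]

theorem LD_lin (a : R) : LD (1 - C a * X) (pos fun m => -a ^ m) := by
  unfold LD
  have h1 : (d⁄dX R) (1 - C a * X : R⟦X⟧) = - C a := by
    rw [map_sub, Derivation.leibniz, derivative_X, derivative_C, smul_zero, add_zero,
      smul_eq_mul, mul_one, Derivation.map_one_eq_zero, zero_sub]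
  rw [h1, sub_mul, one_mul, mul_assoc]
  ext n
  rw [map_sub, coeff_C_mul]
  rcases n with _ | _ | n
  · simp [pos]
  · rw [coeff_succ_X_mul, coeff_succ_X_mul]
    simp [pos]
  · rw [coeff_succ_X_mul, coeff_succ_X_mul, map_neg, coeff_C, if_neg (Nat.succ_ne_zero n)]
    simp only [pos, coeff_mk, Nat.add_eq_zero_iff, one_ne_zero, and_false, if_false]
    ring

theorem pos_add (s t : ℕ → R) : pos s + pos t = pos fun m => s m + t m := by
  ext n
  simp only [pos, map_add, coeff_mk]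
  split_ifs
  · rw [add_zero]
  · rfl

theorem pos_inj {s t : ℕ → R} (h : pos s = pos t) (m : ℕ) (hm : 0 < m) : s m = t m := by
  have h1 := congrArg (coeff m) h
  simpa only [pos, coeff_mk, if_neg hm.ne'] using h1

theorem pos_congr {s t : ℕ → R} (h : ∀ m, 0 < m → s m = t m) : pos s = pos t := by
  ext n
  simp only [pos, coeff_mk]
  split_ifs with h0
  · rfl
  · exact h n (Nat.pos_of_ne_zero h0)

theorem LD_prod (A : Multiset R) :
    LD ((A.map fun a => (1 : R⟦X⟧) - C a * X).prod) (pos fun m => -(A.map fun a => a ^ m).sum) := by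
  induction A using Multiset.induction_on with
  | empty =>
    unfold LD
    ext n
    simp [pos]
  | cons a A ih =>
    rw [Multiset.map_cons, Multiset.prod_cons]
    have h1 := (LD_lin a).mul ih
    rw [pos_add] at h1
    convert h1 using 2
    funext m
    rw [Multiset.map_cons, Multiset.sum_cons, neg_add]

/-- the logarithmic derivative is unique. -/
theorem LD.right_unique [IsDomain R] {A S T : R⟦X⟧} (h0 : constantCoeff A = 1)
    (h1 : LD A S) (h2 : LD A T) : S = T := by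
  have hA : A ≠ 0 := by
    rintro rfl
    simp at h0
  exact mul_left_cancel₀ hA (h1.symm.trans h2)

/-- a power series with constant coefficient one is determined by its logarithmic derivative. -/
theorem LD.left_unique [IsDomain R] [CharZero R] {A B S : R⟦X⟧} (hA : constantCoeff A = 1)
    (hB : constantCoeff B = 1) (h1 : LD A S) (h2 : LD B S) : A = B := by
  have hS : coeff 0 S = 0 := by
    have h3 := congrArg constantCoeff h1
    rw [map_mul, map_mul, constantCoeff_X, zero_mul, hA, one_mul] at h3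
    rw [coeff_zero_eq_constantCoeff_apply]
    exact h3.symm
  ext n
  induction n using Nat.strong_induction_on with
  | _ n ih =>
    cases n with
    | zero => rw [coeff_zero_eq_constantCoeff_apply, coeff_zero_eq_constantCoeff_apply, hA, hB]
    | succ k =>
      have key : coeff (k + 1) (A * S) = coeff (k + 1) (B * S) := by
        rw [coeff_mul, coeff_mul]
        refine Finset.sum_congr rfl fun p hp => ?_
        have hp' : p.1 + p.2 = k + 1 := Finset.HasAntidiagonal.mem_antidiagonal.1 hp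
        rcases Nat.eq_zero_or_pos p.2 with h0 | h0
        · rw [h0, hS, mul_zero, mul_zero]
        · rw [ih p.1 (by omega)]
      unfold LD at h1 h2
      rw [← h1, ← h2, coeff_succ_X_mul, coeff_succ_X_mul, coeff_derivative,
        coeff_derivative] at key
      exact mul_right_cancel₀ (by exact_mod_cast Nat.succ_ne_zero k) key

end Vale.Agent.P019P
end
end

section

section

/-!
# Effective invariant divisors
-/

namespace Vale.Agent.P019P

open Finsupp

variable {P : Type*}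

/-- effective `τ`-invariant divisors of degree `m`. -/
def Eff (τ : Equiv.Perm P) (m : ℕ) : Set (P →₀ ℤ) :=
  {E | 0 ≤ E ∧ E.mapDomain τ = E ∧ dg E = m}

/-- the coefficients of the zeta function with weights `χ`. -/
noncomputable def ac {R : Type*} [CommRing R] (τ : Equiv.Perm P) (χ : (P →₀ ℤ) → R) (m : ℕ) : R :=
  ∑ᶠ E ∈ Eff τ m, χ E

/-- the coefficients of its logarithmic derivative. -/
noncomputable def sc {R : Type*} [CommRing R] (τ : Equiv.Perm P) (χ : (P →₀ ℤ) → R) (m : ℕ) : R :=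
  ∑ᶠ p ∈ {p | (τ ^ m) p = p}, χ (single p 1) ^ m

private theorem dg_eq_sum' (D : P →₀ ℤ) : dg D = ∑ p ∈ D.support, D p := by
  simp only [dg, liftAddHom_apply, Finsupp.sum, AddMonoidHom.id_apply]

private theorem sum_le_dg (E : P →₀ ℤ) (hE : 0 ≤ E) (s : Finset P) : ∑ p ∈ s, E p ≤ dg E := by
  classical
  rw [dg_eq_sum']
  calc ∑ p ∈ s, E p ≤ ∑ p ∈ s ∪ E.support, E p :=
        Finset.sum_le_sum_of_subset_of_nonneg Finset.subset_union_left fun p _ _ => hE p
    _ = ∑ p ∈ E.support, E p := by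
        refine (Finset.sum_subset Finset.subset_union_right fun p _ hp => ?_).symm
        exact notMem_support_iff.1 hp

private theorem val_pow {τ : Equiv.Perm P} {E : P →₀ ℤ} (h : E.mapDomain τ = E) (i : ℕ) (p : P) :
    E ((τ ^ i) p) = E p := by
  induction i with
  | zero => rfl
  | succ n ih =>
    rw [pow_succ', Equiv.Perm.mul_apply, ← ih]
    have h2 := mapDomain_apply τ.injective E ((τ ^ n) p)
    rw [h] at h2
    exact h2

private theorem per_of_ne {τ : Equiv.Perm P} {E : P →₀ ℤ} {m : ℕ} (hE : E ∈ Eff τ m) {p : P}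
    (hp : E p ≠ 0) : (τ ^ m.factorial) p = p := by
  classical
  obtain ⟨h0, h1, h2⟩ := hE
  have hpos : 1 ≤ E p := Int.add_one_le_iff.2 (lt_of_le_of_ne (h0 p) (Ne.symm hp))
  have hninj : ¬ Set.InjOn (fun i => (τ ^ i) p) (Finset.range (m + 1) : Set ℕ) := by
    intro hinj
    have h3 := sum_le_dg E h0 ((Finset.range (m + 1)).image fun i => (τ ^ i) p)
    rw [Finset.sum_image hinj, Finset.sum_congr rfl fun i _ => val_pow h1 i p, Finset.sum_const,
      Finset.card_range, h2, nsmul_eq_mul] at h3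
    push_cast at h3
    nlinarith only [h3, hpos, Int.natCast_nonneg m]
  have hd : ∃ d, 0 < d ∧ d ≤ m ∧ (τ ^ d) p = p := by
    rw [Set.InjOn] at hninj
    push Not at hninj
    obtain ⟨i, hi, j, hj, hij, hne⟩ := hninj
    have key : ∀ i j : ℕ, i < j → j < m + 1 → (τ ^ i) p = (τ ^ j) p →
        ∃ d, 0 < d ∧ d ≤ m ∧ (τ ^ d) p = p := by
      intro i j hij hj he
      refine ⟨j - i, by omega, by omega, ?_⟩
      apply (τ ^ i).injective
      rw [← Equiv.Perm.mul_apply, ← pow_add, he]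
      congr 2
      omega
    have hi' : i < m + 1 := by simpa using hi
    have hj' : j < m + 1 := by simpa using hj
    rcases lt_or_gt_of_ne hne with h | h
    · exact key i j h hj' hij
    · exact key j i h hi' hij.symm
  obtain ⟨d, hd0, hdm, hd⟩ := hd
  obtain ⟨c, hc⟩ := Nat.dvd_factorial hd0 hdm
  rw [hc, pow_mul]
  clear hc
  induction c with
  | zero => rfl
  | succ n ih => rw [pow_succ, Equiv.Perm.mul_apply, hd, ih]

theorem eff_finite (τ : Equiv.Perm P)
    (hfin : ∀ n : ℕ, 0 < n → {p | (τ ^ n) p = p}.Finite) (m : ℕ) : (Eff τ m).Finite := by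
  classical
  have hF := hfin m.factorial m.factorial_pos
  refine (Set.finite_Icc (0 : P →₀ ℤ) (Finsupp.indicator hF.toFinset fun _ _ => (m : ℤ))).subset ?_
  intro E hE
  refine ⟨hE.1, fun p => ?_⟩
  by_cases hp : (τ ^ m.factorial) p = p
  · rw [Finsupp.indicator_of_mem (hF.mem_toFinset.2 hp)]
    have h := sum_le_dg E hE.1 {p}
    rwa [Finset.sum_singleton, hE.2.2] at h
  · rw [Finsupp.indicator_of_notMem (fun h => hp (hF.mem_toFinset.1 h))]
    by_contra h
    exact hp (per_of_ne hE (fun h0 => h h0.le))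

theorem eff_zero (τ : Equiv.Perm P) : Eff τ 0 = {0} := by
  ext E
  rw [Set.mem_singleton_iff]
  constructor
  · rintro ⟨h0, -, h2⟩
    ext p
    have h := sum_le_dg E h0 {p}
    rw [Finset.sum_singleton, h2] at h
    exact le_antisymm h (h0 p)
  · rintro rfl
    exact ⟨le_rfl, mapDomain_zero, by rw [map_zero]; rfl⟩

theorem ac_zero {R : Type*} [CommRing R] (τ : Equiv.Perm P) (χ : (P →₀ ℤ) → R) :
    ac τ χ 0 = χ 0 := by
  rw [ac, eff_zero, finsum_mem_singleton]

end Vale.Agent.P019P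
end
end

section

section

/-!
# Counting effective divisors in classes
-/

namespace Vale.Agent.P019P

open Finsupp

variable {P : Type*}

namespace ZDat

variable (Z : ZDat P)

theorem fin_pow (n : ℕ) (hn : 0 < n) (m : ℕ) (hm : 0 < m) :
    {p | ((Z.σ ^ n) ^ m) p = p}.Finite := by
  rw [← pow_mul]
  exact Z.fin _ (Nat.mul_pos hn hm)

/-- Frobenius-invariant classes of degree `M`. -/
def PM (n : ℕ) (M : ℤ) : Set Z.Pic := {x | Z.deg x = M ∧ (Z.s ^ n) x = x}

/-- the number of invariant classes of degree zero. -/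
noncomputable def hh (n : ℕ) : ℕ := Nat.card {x : Z.J // (Z.sJ ^ n) x = x}

theorem ZCntA_sigma_pow_P0 (n : ℕ) : (Z.σ ^ n) Z.P0 = Z.P0 := by
  induction n with
  | zero => rfl
  | succ n ih => rw [pow_succ, Equiv.Perm.mul_apply, Z.fix0, ih]

theorem ZCntA_add_mem (n : ℕ) {M : ℤ} {x : Z.Pic} (hx : x ∈ Z.PM n M) (k : ℤ) :
    x + Z.cl (single Z.P0 k) ∈ Z.PM n (M + k) := by
  refine ⟨?_, ?_⟩
  · rw [map_add, hx.1, Z.deg_cl, dg_single]
  · rw [map_add, hx.2, Z.s_pow_cl, Finsupp.mapDomain_single, ZCntA_sigma_pow_P0]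

theorem ZCntA_fibre_set (n : ℕ) (M : ℕ) (D : P →₀ ℤ) (hD : Z.cl D ∈ Z.PM n M) :
    {E | E ∈ Eff (Z.σ ^ n) M ∧ Z.cl E = Z.cl D} =
      {E : P →₀ ℤ | 0 ≤ E ∧ E.mapDomain (Z.σ ^ n) = E ∧ E - D ∈ Z.prin} := by
  ext E
  constructor
  · rintro ⟨⟨h1, h2, _⟩, h4⟩
    exact ⟨h1, h2, Z.cl_eq.1 h4⟩
  · rintro ⟨h1, h2, h3⟩
    have h4 : Z.cl E = Z.cl D := Z.cl_eq.2 h3
    refine ⟨⟨h1, h2, ?_⟩, h4⟩
    rw [← Z.deg_cl, h4]
    exact hD.1

theorem fibre (n : ℕ) (hn : 0 < n) (M : ℕ) (x : Z.Pic) (hx : x ∈ Z.PM n M) :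
    {E | E ∈ Eff (Z.σ ^ n) M ∧ Z.cl E = x}.ncard * (Z.q ^ n - 1) = Z.q ^ (n * Z.ll x) - 1 := by
  obtain ⟨D, rfl⟩ := Z.cl_surj x
  have h1 : D.mapDomain (Z.σ ^ n) - D ∈ Z.prin := by
    have h := hx.2
    rw [Z.s_pow_cl] at h
    exact Z.cl_eq.1 h
  have h2 := Z.count n hn D h1
  rw [Z.ll_cl, ← h2, Z.ZCntA_fibre_set n M D hx]
  rfl

theorem ZCntA_nonempty (n : ℕ) (hn : 0 < n) (M : ℕ) (hM : Z.g ≤ M) (x : Z.Pic)
    (hx : x ∈ Z.PM n M) : ∃ E ∈ Eff (Z.σ ^ n) M, Z.cl E = x := by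
  have h1 := Z.fibre n hn M x hx
  have h2 : 0 < Z.ll x := by
    refine Z.ll_pos x ?_
    rw [hx.1]
    exact_mod_cast hM
  have h3 : 1 < Z.q ^ (n * Z.ll x) :=
    Nat.one_lt_pow (Nat.mul_pos hn h2).ne' (lt_of_lt_of_le one_lt_two Z.two_le)
  have h4 : {E | E ∈ Eff (Z.σ ^ n) M ∧ Z.cl E = x}.ncard ≠ 0 := by
    intro h
    rw [h, zero_mul] at h1
    omega
  obtain ⟨E, hE⟩ := Set.nonempty_of_ncard_ne_zero h4
  exact ⟨E, hE.1, hE.2⟩

theorem ZCntA_PM_finite_nat (n : ℕ) (hn : 0 < n) (M : ℕ) (hM : Z.g ≤ M) :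
    (Z.PM n M).Finite := by
  have h1 : (Eff (Z.σ ^ n) M).Finite := eff_finite _ (Z.fin_pow n hn) M
  refine (h1.image Z.cl).subset ?_
  intro x hx
  obtain ⟨E, hE, h⟩ := Z.ZCntA_nonempty n hn M hM x hx
  exact ⟨E, hE, h⟩

theorem PM_finite (n : ℕ) (hn : 0 < n) (M : ℤ) : (Z.PM n M).Finite := by
  obtain ⟨k, M', hk, hM'⟩ : ∃ (k : ℤ) (M' : ℕ), M + k = M' ∧ Z.g ≤ M' := by
    refine ⟨(Z.g : ℤ) - M, Z.g, ?_, le_rfl⟩
    ring
  have h1 := Z.ZCntA_PM_finite_nat n hn M' hM'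
  rw [← hk] at h1
  refine Set.Finite.of_injOn (f := fun x => x + Z.cl (single Z.P0 k)) ?_ ?_ h1
  · intro x hx
    exact Z.ZCntA_add_mem n hx k
  · intro x _ y _ hxy
    exact add_right_cancel hxy

theorem sJ_fin (n : ℕ) (hn : 0 < n) : {x : Z.J | (Z.sJ ^ n) x = x}.Finite := by
  refine Set.Finite.of_injOn (f := fun x : Z.J => (x : Z.Pic)) ?_ ?_ (Z.PM_finite n hn 0)
  · intro x hx
    refine ⟨x.2, ?_⟩
    have h : (Z.sJ ^ n) x = x := hx
    change (Z.s ^ n) (x : Z.Pic) = x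
    rw [← Z.coe_sJ_pow, h]
  · intro x _ y _ hxy
    exact Subtype.ext hxy

theorem card_PM (n : ℕ) (M : ℤ) : (Z.PM n M).ncard = Z.hh n := by
  unfold hh
  rw [← Nat.card_coe_set_eq]
  symm
  have hmem : ∀ x : {x : Z.J // (Z.sJ ^ n) x = x},
      ((x.1 : Z.J) : Z.Pic) + Z.cl (single Z.P0 M) ∈ Z.PM n M := by
    intro x
    have h0 : ((x.1 : Z.J) : Z.Pic) ∈ Z.PM n 0 := by
      refine ⟨x.1.2, ?_⟩
      rw [← Z.coe_sJ_pow, x.2]
    have h := Z.ZCntA_add_mem n h0 M
    rwa [zero_add] at h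
  refine Nat.card_eq_of_bijective
    (fun x => (⟨((x.1 : Z.J) : Z.Pic) + Z.cl (single Z.P0 M), hmem x⟩ : Z.PM n M)) ⟨?_, ?_⟩
  · intro x y hxy
    have h := congrArg (fun z : Z.PM n M => (z : Z.Pic)) hxy
    exact Subtype.ext (Subtype.ext (add_right_cancel h))
  · rintro ⟨y, hy⟩
    have h0 := Z.ZCntA_add_mem n hy (-M)
    rw [add_neg_cancel] at h0
    have h1 : Z.deg (y + Z.cl (single Z.P0 (-M))) = 0 := h0.1
    refine ⟨⟨⟨y + Z.cl (single Z.P0 (-M)), h1⟩, ?_⟩, ?_⟩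
    · apply Subtype.ext
      rw [Z.coe_sJ_pow]
      exact h0.2
    · apply Subtype.ext
      change y + Z.cl (single Z.P0 (-M)) + Z.cl (single Z.P0 M) = y
      rw [add_assoc, ← map_add, ← single_add, neg_add_cancel, single_zero, map_zero, add_zero]

theorem hh_pos (n : ℕ) (hn : 0 < n) : 0 < Z.hh n := by
  unfold hh
  have : Nonempty {x : Z.J // (Z.sJ ^ n) x = x} := ⟨⟨0, map_zero _⟩⟩
  have : Finite {x : Z.J // (Z.sJ ^ n) x = x} := (Z.sJ_fin n hn).to_subtype
  exact Nat.card_pos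

theorem kappa_mem (n : ℕ) : Z.cl Z.κ ∈ Z.PM n (2 * (Z.g : ℤ) - 2) := by
  refine ⟨?_, ?_⟩
  · rw [Z.deg_cl, Z.dg_kappa]
  · induction n with
    | zero => rfl
    | succ n ih =>
      rw [pow_succ]
      change (Z.s ^ n) (Z.s (Z.cl Z.κ)) = Z.cl Z.κ
      rw [Z.s_kappa, ih]

theorem ac_eq {R : Type*} [CommRing R] (n : ℕ) (hn : 0 < n) (χ : Z.Pic → R) (M : ℕ) :
    ((Z.q : R) ^ n - 1) * ac (Z.σ ^ n) (fun D => χ (Z.cl D)) M =
      ∑ᶠ x ∈ Z.PM n M, χ x * ((Z.q : R) ^ (n * Z.ll x) - 1) := by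
  classical
  have hF : (Eff (Z.σ ^ n) M).Finite := eff_finite _ (Z.fin_pow n hn) M
  have hG : (Z.PM n M).Finite := Z.PM_finite n hn M
  have hq1 : ∀ m : ℕ, 1 ≤ Z.q ^ m := fun m =>
    Nat.one_le_pow _ _ (lt_of_lt_of_le zero_lt_two Z.two_le)
  unfold ac
  rw [finsum_mem_eq_finite_toFinset_sum _ hF, finsum_mem_eq_finite_toFinset_sum _ hG]
  have hmaps : ∀ E ∈ hF.toFinset, Z.cl E ∈ hG.toFinset := by
    intro E hE
    rw [Set.Finite.mem_toFinset] at hE ⊢
    refine ⟨?_, ?_⟩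
    · rw [Z.deg_cl]
      exact hE.2.2
    · rw [Z.s_pow_cl, hE.2.1]
  rw [← Finset.sum_fiberwise_of_maps_to hmaps, Finset.mul_sum]
  refine Finset.sum_congr rfl fun x hx => ?_
  rw [Set.Finite.mem_toFinset] at hx
  have h1 : ∑ E ∈ hF.toFinset with Z.cl E = x, χ (Z.cl E) =
      ((hF.toFinset.filter (fun E => Z.cl E = x)).card : R) * χ x := by
    rw [Finset.sum_congr rfl (g := fun _ => χ x)
      (fun E hE => by rw [(Finset.mem_filter.1 hE).2]), Finset.sum_const, nsmul_eq_mul]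
  have h2 : (hF.toFinset.filter (fun E => Z.cl E = x)).card =
      {E | E ∈ Eff (Z.σ ^ n) M ∧ Z.cl E = x}.ncard := by
    rw [← Set.ncard_coe_finset]
    congr 1
    ext E
    simp
  have h3 := Z.fibre n hn M x hx
  have h4 : (({E | E ∈ Eff (Z.σ ^ n) M ∧ Z.cl E = x}.ncard : ℕ) : R) * ((Z.q : R) ^ n - 1) =
      (Z.q : R) ^ (n * Z.ll x) - 1 := by
    have h5 := congrArg (fun k : ℕ => (k : R)) h3
    rw [Nat.cast_mul, Nat.cast_sub (hq1 _), Nat.cast_sub (hq1 _)] at h5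
    push_cast at h5
    exact h5
  rw [h1, h2, ← h4]
  ring

end ZDat

end Vale.Agent.P019P
end
end

section

section

/-!
# The coefficients of the zeta functions
-/

namespace Vale.Agent.P019P

open Finsupp

variable {P : Type*}

namespace ZDat

variable (Z : ZDat P)

theorem an_large (n : ℕ) (hn : 0 < n) (M : ℕ) (hM : 2 * Z.g ≤ M + 1) :
    ac (Z.σ ^ n) (fun _ => (1 : ℤ)) M * ((Z.q : ℤ) ^ n - 1) =
      Z.hh n * (((Z.q : ℤ) ^ n) ^ (M + 1 - Z.g) - 1) := by
  have h := Z.ac_eq (R := ℤ) n hn (fun _ => 1) M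
  rw [mul_comm, h]
  have hll : ∀ x ∈ Z.PM n M, Z.ll x = M + 1 - Z.g := by
    intro x hx
    have h1 := Z.ll_large x (by rw [hx.1]; omega)
    rw [hx.1] at h1
    omega
  have h2 : ∑ᶠ x ∈ Z.PM n M, (1 : ℤ) * ((Z.q : ℤ) ^ (n * Z.ll x) - 1) =
      ∑ᶠ x ∈ Z.PM n M, (((Z.q : ℤ) ^ n) ^ (M + 1 - Z.g) - 1) := by
    refine finsum_mem_congr rfl fun x hx => ?_
    rw [one_mul, hll x hx, pow_mul]
  rw [h2, finsum_mem_eq_finite_toFinset_sum _ (Z.PM_finite n hn M), Finset.sum_const,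
    nsmul_eq_mul, ← Set.ncard_eq_toFinset_card _ (Z.PM_finite n hn M), Z.card_PM]

theorem an_crit (n : ℕ) (hn : 0 < n) (hg : 0 < Z.g) :
    ac (Z.σ ^ n) (fun _ => (1 : ℤ)) (2 * Z.g - 2) * ((Z.q : ℤ) ^ n - 1) =
      ((Z.hh n : ℤ) - 1) * (((Z.q : ℤ) ^ n) ^ (Z.g - 1) - 1) + (((Z.q : ℤ) ^ n) ^ Z.g - 1) := by
  classical
  have h := Z.ac_eq (R := ℤ) n hn (fun _ => 1) (2 * Z.g - 2)
  rw [mul_comm, h]
  have hc : ((2 * Z.g - 2 : ℕ) : ℤ) = 2 * (Z.g : ℤ) - 2 := by omega
  rw [hc]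
  have hfin := Z.PM_finite n hn (2 * (Z.g : ℤ) - 2)
  have hk : Z.cl Z.κ ∈ hfin.toFinset := by
    rw [Set.Finite.mem_toFinset]
    exact Z.kappa_mem n
  rw [finsum_mem_eq_finite_toFinset_sum _ hfin, ← Finset.add_sum_erase _ _ hk]
  have h2 : ∀ x ∈ hfin.toFinset.erase (Z.cl Z.κ),
      (1 : ℤ) * ((Z.q : ℤ) ^ (n * Z.ll x) - 1) = ((Z.q : ℤ) ^ n) ^ (Z.g - 1) - 1 := by
    intro x hx
    rw [Finset.mem_erase, Set.Finite.mem_toFinset] at hx
    have h3 := Z.ll_crit_ne x hx.2.1 hx.1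
    have h4 : Z.ll x = Z.g - 1 := by omega
    rw [one_mul, h4, pow_mul]
  rw [Finset.sum_congr rfl h2, Finset.sum_const, nsmul_eq_mul, Finset.card_erase_of_mem hk,
    ← Set.ncard_eq_toFinset_card _ hfin, Z.card_PM, Z.ll_crit_eq, one_mul, pow_mul,
    Nat.cast_sub (Z.hh_pos n hn)]
  push_cast
  ring

theorem tw_large (n : ℕ) (hn : 0 < n) (χ : Z.Pic → ℂ) (hχ : ∀ x y, χ (x + y) = χ x * χ y)
    (j : Z.Pic) (hj : j ∈ Z.PM n 0) (hj1 : χ j ≠ 1) (M : ℕ) (hM : 2 * Z.g ≤ M + 1) :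
    ac (Z.σ ^ n) (fun D => χ (Z.cl D)) M = 0 := by
  have h := Z.ac_eq (R := ℂ) n hn χ M
  have hfin := Z.PM_finite n hn M
  have hll : ∀ x ∈ Z.PM n M, Z.ll x = M + 1 - Z.g := by
    intro x hx
    have h1 := Z.ll_large x (by rw [hx.1]; omega)
    rw [hx.1] at h1
    omega
  have h2 : ∑ᶠ x ∈ Z.PM n M, χ x * ((Z.q : ℂ) ^ (n * Z.ll x) - 1) =
      (∑ x ∈ hfin.toFinset, χ x) * ((Z.q : ℂ) ^ (n * (M + 1 - Z.g)) - 1) := by
    rw [finsum_mem_eq_finite_toFinset_sum _ hfin, Finset.sum_mul]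
    refine Finset.sum_congr rfl fun x hx => ?_
    rw [Set.Finite.mem_toFinset] at hx
    rw [hll x hx]
  have h3 : ∑ x ∈ hfin.toFinset, χ x = χ j * ∑ x ∈ hfin.toFinset, χ x := by
    rw [Finset.mul_sum]
    refine (Finset.sum_bij (fun x _ => j + x) ?_ ?_ ?_ ?_).symm
    · intro x hx
      rw [Set.Finite.mem_toFinset] at hx ⊢
      refine ⟨by rw [map_add, hj.1, hx.1, zero_add], by rw [map_add, hj.2, hx.2]⟩
    · intro x _ y _ hxy
      exact add_left_cancel hxy
    · intro x hx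
      rw [Set.Finite.mem_toFinset] at hx
      refine ⟨-j + x, ?_, by abel⟩
      rw [Set.Finite.mem_toFinset]
      refine ⟨by rw [map_add, map_neg, hj.1, hx.1, neg_zero, zero_add],
        by rw [map_add, map_neg, hj.2, hx.2]⟩
    · intro x _
      rw [hχ]
  have h4 : ∑ x ∈ hfin.toFinset, χ x = 0 := by
    have h5 : (1 - χ j) * ∑ x ∈ hfin.toFinset, χ x = 0 := by
      rw [sub_mul, one_mul, ← h3, sub_self]
    exact (mul_eq_zero.1 h5).resolve_left (sub_ne_zero.2 (Ne.symm hj1))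
  rw [h2, h4, zero_mul] at h
  refine (mul_eq_zero.1 h).resolve_left ?_
  have h6 : (1 : ℕ) < Z.q ^ n := Nat.one_lt_pow hn.ne' (lt_of_lt_of_le one_lt_two Z.two_le)
  intro h7
  have h8 : ((Z.q ^ n : ℕ) : ℂ) = ((1 : ℕ) : ℂ) := by
    push_cast
    exact sub_eq_zero.1 h7
  have h9 := Nat.cast_injective h8
  omega

end ZDat

end Vale.Agent.P019P
end
end

section

section

/-!
# The numerator of the zeta function is a polynomial
-/

namespace Vale.Agent.P019P

open Polynomial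

/-- Coefficients of the numerator. -/
def zpB (A : ℕ → ℤ) (Q : ℤ) : ℕ → ℤ
  | 0 => A 0
  | 1 => A 1 - (Q + 1) * A 0
  | m + 2 => A (m + 2) - (Q + 1) * A (m + 1) + Q * A m

theorem zpB_coeff (A : ℕ → ℤ) (Q : ℤ) (m : ℕ) :
    PowerSeries.coeff m ((1 - PowerSeries.C 1 * PowerSeries.X) *
      (1 - PowerSeries.C Q * PowerSeries.X) * PowerSeries.mk A) = zpB A Q m := by
  have h : (1 - PowerSeries.C (1 : ℤ) * PowerSeries.X) *
      (1 - PowerSeries.C Q * PowerSeries.X) * PowerSeries.mk A =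
      PowerSeries.mk A - PowerSeries.C (Q + 1) * (PowerSeries.X * PowerSeries.mk A) +
        PowerSeries.C Q * (PowerSeries.X * (PowerSeries.X * PowerSeries.mk A)) := by
    rw [map_add, map_one]
    ring
  rw [h, map_add, map_sub, PowerSeries.coeff_C_mul, PowerSeries.coeff_C_mul]
  match m with
  | 0 => simp [zpB]
  | 1 =>
    rw [PowerSeries.coeff_succ_X_mul, PowerSeries.coeff_succ_X_mul, PowerSeries.coeff_mk,
      PowerSeries.coeff_mk, PowerSeries.coeff_zero_X_mul]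
    simp [zpB]
  | m + 2 =>
    rw [PowerSeries.coeff_succ_X_mul, PowerSeries.coeff_succ_X_mul,
      PowerSeries.coeff_succ_X_mul, PowerSeries.coeff_mk,
      PowerSeries.coeff_mk, PowerSeries.coeff_mk]
    simp [zpB]

theorem zpB_sum (A : ℕ → ℤ) (Q : ℤ) (K : ℕ) :
    ∑ m ∈ Finset.range (K + 2), zpB A Q m = A (K + 1) - Q * A K := by
  induction K with
  | zero =>
    rw [Finset.sum_range_succ, Finset.sum_range_one]
    simp only [zpB]
    ring
  | succ K ih =>
    rw [Finset.sum_range_succ, ih]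
    simp only [zpB]
    ring

/-- The three facts on the coefficients. -/
theorem zpB_facts (A : ℕ → ℤ) (g : ℕ) (Q h : ℤ) (hQ : 2 ≤ Q) (h0 : A 0 = 1)
    (h1 : ∀ M : ℕ, 2 * g ≤ M + 1 → A M * (Q - 1) = h * (Q ^ (M + 1 - g) - 1))
    (h2 : 0 < g → A (2 * g - 2) * (Q - 1) = (h - 1) * (Q ^ (g - 1) - 1) + (Q ^ g - 1)) :
    (∀ m, 2 * g < m → zpB A Q m = 0) ∧ zpB A Q (2 * g) = Q ^ g ∧
      ∑ m ∈ Finset.range (2 * g + 1), zpB A Q m = h := by
  have hQ1 : Q - 1 ≠ 0 := by omega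
  rcases g with _ | g
  · have e0 := h1 0 (by omega)
    rw [h0] at e0
    simp only [zero_add, Nat.sub_zero, pow_one, one_mul] at e0
    have hh : h = 1 := by
      have : (h - 1) * (Q - 1) = 0 := by linear_combination -e0
      rcases mul_eq_zero.1 this with h3 | h3
      · omega
      · exact absurd h3 hQ1
    subst hh
    refine ⟨fun m hm => ?_, ?_, ?_⟩
    · apply mul_right_cancel₀ hQ1
      match m, hm with
      | 1, _ =>
        have e1 := h1 1 (by omega)
        simp only [zpB]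
        rw [h0]
        norm_num at e1
        linear_combination e1
      | k + 2, _ =>
        have e1 := h1 k (by omega)
        have e2 := h1 (k + 1) (by omega)
        have e3 := h1 (k + 2) (by omega)
        simp only [Nat.sub_zero] at e1 e2 e3
        simp only [zpB]
        rw [zero_mul]
        have p2 : Q ^ (k + 1 + 1) = Q ^ (k + 1) * Q := pow_succ _ _
        have p3 : Q ^ (k + 2 + 1) = Q ^ (k + 1) * Q * Q := by rw [pow_succ, pow_succ]
        rw [p2] at e2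
        rw [p3] at e3
        linear_combination e3 - (Q + 1) * e2 + Q * e1
    · simp only [zpB, pow_zero]
      exact h0
    · simp only [mul_zero, zero_add, Finset.sum_range_one, zpB]
      exact h0
  · have h2' := h2 (by omega)
    have i1 : 2 * (g + 1) - 2 = 2 * g := by omega
    have i2 : g + 1 - 1 = g := by omega
    rw [i1, i2] at h2'
    have e1 := h1 (2 * g + 1) (by omega)
    have e2 := h1 (2 * g + 2) (by omega)
    have i3 : 2 * g + 1 + 1 - (g + 1) = g + 1 := by omega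
    have i4 : 2 * g + 2 + 1 - (g + 1) = g + 2 := by omega
    rw [i3] at e1
    rw [i4] at e2
    have i5 : 2 * (g + 1) = 2 * g + 2 := by ring
    have p1 : Q ^ (g + 1) = Q ^ g * Q := pow_succ _ _
    have p2 : Q ^ (g + 2) = Q ^ g * Q * Q := by rw [pow_succ, pow_succ]
    rw [p1] at e1 h2'
    rw [p2] at e2
    refine ⟨fun m hm => ?_, ?_, ?_⟩
    · apply mul_right_cancel₀ hQ1
      obtain ⟨k, rfl⟩ : ∃ k, m = k + 2 := ⟨m - 2, by omega⟩
      have e1 := h1 k (by omega)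
      have e2 := h1 (k + 1) (by omega)
      have e3 := h1 (k + 2) (by omega)
      obtain ⟨e, he⟩ : ∃ e, k + 1 - (g + 1) = e := ⟨_, rfl⟩
      have j2 : k + 1 + 1 - (g + 1) = e + 1 := by omega
      have j3 : k + 2 + 1 - (g + 1) = e + 2 := by omega
      rw [he] at e1
      rw [j2, pow_succ] at e2
      rw [j3, pow_succ, pow_succ] at e3
      simp only [zpB]
      linear_combination e3 - (Q + 1) * e2 + Q * e1
    · apply mul_right_cancel₀ hQ1
      rw [i5, p1]
      simp only [zpB]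
      linear_combination e2 - (Q + 1) * e1 + Q * h2'
    · have hs := zpB_sum A Q (2 * g + 1)
      have i6 : 2 * (g + 1) + 1 = 2 * g + 1 + 2 := by ring
      rw [i6, hs]
      apply mul_right_cancel₀ hQ1
      linear_combination e2 - Q * e1

theorem poly_L (A : ℕ → ℤ) (g : ℕ) (Q h : ℤ) (hQ : 2 ≤ Q) (h0 : A 0 = 1)
    (h1 : ∀ M : ℕ, 2 * g ≤ M + 1 → A M * (Q - 1) = h * (Q ^ (M + 1 - g) - 1))
    (h2 : 0 < g → A (2 * g - 2) * (Q - 1) = (h - 1) * (Q ^ (g - 1) - 1) + (Q ^ g - 1)) :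
    ∃ L : ℤ[X], L.natDegree ≤ 2 * g ∧ L.coeff 0 = 1 ∧ L.coeff (2 * g) = Q ^ g ∧
      L.eval 1 = h ∧ (L : PowerSeries ℤ) =
        (1 - PowerSeries.C 1 * PowerSeries.X) * (1 - PowerSeries.C Q * PowerSeries.X) *
          PowerSeries.mk A := by
  obtain ⟨f1, f2, f3⟩ := zpB_facts A g Q h hQ h0 h1 h2
  obtain ⟨S, hS⟩ : ∃ S, S = (1 - PowerSeries.C 1 * PowerSeries.X) *
      (1 - PowerSeries.C Q * PowerSeries.X) * PowerSeries.mk A := ⟨_, rfl⟩
  have hc : ∀ m, PowerSeries.coeff m S = zpB A Q m := fun m => by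
    rw [hS]; exact zpB_coeff A Q m
  rw [← hS]
  have hco : ∀ m, (PowerSeries.trunc (2 * g + 1) S).coeff m =
      if m < 2 * g + 1 then zpB A Q m else 0 := fun m => by
    rw [PowerSeries.coeff_trunc, hc]
  have hlt : (PowerSeries.trunc (2 * g + 1) S).natDegree < 2 * g + 1 :=
    PowerSeries.natDegree_trunc_lt _ _
  refine ⟨PowerSeries.trunc (2 * g + 1) S, by omega, ?_, ?_, ?_, ?_⟩
  · rw [hco, if_pos (by omega)]
    exact h0
  · rw [hco, if_pos (by omega)]
    exact f2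
  · rw [Polynomial.eval_eq_sum_range' hlt, ← f3]
    refine Finset.sum_congr rfl fun m hm => ?_
    rw [hco, if_pos (Finset.mem_range.1 hm), one_pow, mul_one]
  · ext m
    rw [Polynomial.coeff_coe, hco, hc]
    split_ifs with hm
    · rfl
    · exact (f1 m (by omega)).symm

end Vale.Agent.P019P
end
end

section

section

/-!
# Reciprocal roots
-/

namespace Vale.Agent.P019P

open Polynomial

theorem exists_roots (f : ℂ[X]) (N : ℕ) (hf : f.natDegree ≤ N) (h0 : f.coeff 0 = 1) :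
    ∃ A : Multiset ℂ, Multiset.card A = N ∧ f = (A.map fun a => 1 - C a * X).prod := by
  induction N generalizing f with
  | zero =>
    refine ⟨0, rfl, ?_⟩
    rw [Multiset.map_zero, Multiset.prod_zero, eq_C_of_natDegree_le_zero hf, h0, C_1]
  | succ N ih =>
    by_cases hN : f.natDegree ≤ N
    · obtain ⟨A, hA, h⟩ := ih f hN h0
      refine ⟨0 ::ₘ A, by simp [hA], ?_⟩
      rw [Multiset.map_cons, Multiset.prod_cons, ← h]
      simp
    · have hd : f.natDegree = N + 1 := by omega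
      have hdeg : f.degree ≠ 0 := by
        intro h
        have h' : f.natDegree = 0 := natDegree_eq_of_degree_eq_some h
        omega
      obtain ⟨r, hr⟩ := IsAlgClosed.exists_root f hdeg
      have hr0 : r ≠ 0 := by
        rintro rfl
        rw [IsRoot.def, ← coeff_zero_eq_eval_zero, h0] at hr
        exact one_ne_zero hr
      obtain ⟨g, hg⟩ := dvd_iff_isRoot.2 hr
      have hf0 : f ≠ 0 := by
        rintro rfl
        simp at h0
      have hg0 : g ≠ 0 := by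
        rintro rfl
        rw [mul_zero] at hg
        exact hf0 hg
      have hgd : g.natDegree = N := by
        rw [hg, natDegree_mul (X_sub_C_ne_zero r) hg0, natDegree_X_sub_C] at hd
        omega
      have e : f = (1 - C r⁻¹ * X) * (C (-r) * g) := by
        rw [hg, ← mul_assoc]
        congr 1
        have h1 : (C r⁻¹ : ℂ[X]) * C r = 1 := by
          rw [← C_mul, inv_mul_cancel₀ hr0, C_1]
        rw [C_neg]
        linear_combination (-X : ℂ[X]) * h1
      have hc : (C (-r) * g).coeff 0 = 1 := by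
        have h2 := h0
        rw [e, mul_coeff_zero] at h2
        simpa using h2
      obtain ⟨A, hA, h⟩ := ih (C (-r) * g) ((natDegree_C_mul_le _ _).trans hgd.le) hc
      refine ⟨r⁻¹ ::ₘ A, by simp [hA], ?_⟩
      rw [Multiset.map_cons, Multiset.prod_cons, ← h]
      exact e

/-- evaluation of a polynomial with known power series. -/
theorem coe_prod_lin (A : Multiset ℂ) :
    (((A.map fun a => 1 - C a * X).prod : ℂ[X]) : PowerSeries ℂ) =
      (A.map fun a => (1 : PowerSeries ℂ) - PowerSeries.C a * PowerSeries.X).prod := by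
  induction A using Multiset.induction_on with
  | empty => simp
  | cons a A ih =>
    rw [Multiset.map_cons, Multiset.prod_cons, Multiset.map_cons, Multiset.prod_cons,
      Polynomial.coe_mul, ih, Polynomial.coe_sub, Polynomial.coe_mul, Polynomial.coe_C,
      Polynomial.coe_X, Polynomial.coe_one]

theorem coe_map_int (f : ℤ[X]) :
    ((f.map (Int.castRingHom ℂ) : ℂ[X]) : PowerSeries ℂ) =
      PowerSeries.map (Int.castRingHom ℂ) (f : PowerSeries ℤ) := by
  ext n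
  rw [Polynomial.coeff_coe, Polynomial.coeff_map, PowerSeries.coeff_map, Polynomial.coeff_coe]

theorem eval_prod_lin (A : Multiset ℂ) :
    ((A.map fun a => 1 - C a * X).prod : ℂ[X]).eval 1 = (A.map fun a => 1 - a).prod := by
  induction A using Multiset.induction_on with
  | empty => simp
  | cons a A ih =>
    rw [Multiset.map_cons, Multiset.prod_cons, Multiset.map_cons, Multiset.prod_cons, eval_mul, ih]
    simp

end Vale.Agent.P019P
end
end

section

section

/-!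
# The Euler product of the zeta function, as a counting identity
-/

namespace Vale.Agent.P019P

open Finsupp

variable {P : Type*}

theorem eulB_dg_eq (D : P →₀ ℤ) {S : Finset P} (h : D.support ⊆ S) : dg D = ∑ p ∈ S, D p := by
  unfold dg
  rw [Finsupp.liftAddHom_apply, Finsupp.sum]
  simp only [AddMonoidHom.id_apply]
  exact Finset.sum_subset h (fun p _ hp => by simpa using hp)

theorem eulB_dg_nonneg {D : P →₀ ℤ} (h : 0 ≤ D) : 0 ≤ dg D := by
  rw [eulB_dg_eq D (Finset.Subset.refl _)]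
  exact Finset.sum_nonneg fun p _ => h p

theorem eulB_inv {τ : Equiv.Perm P} {E : P →₀ ℤ} (h : E.mapDomain τ = E) (q : P) :
    E (τ q) = E q := by
  conv_lhs => rw [← h]
  exact Finsupp.mapDomain_apply τ.injective E q

theorem eulB_inv_pow {τ : Equiv.Perm P} {E : P →₀ ℤ} (h : E.mapDomain τ = E) (q : P) (i : ℕ) :
    E ((τ ^ i) q) = E q := by
  induction i with
  | zero => simp
  | succ i ih => rw [pow_succ', Equiv.Perm.mul_apply, eulB_inv h, ih]

/-- the orbit divisor. -/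
noncomputable def eulB_orb (τ : Equiv.Perm P) (p : P) (r : ℕ) : P →₀ ℤ :=
  ∑ i ∈ Finset.range r, single ((τ ^ i) p) 1

theorem eulB_orb_inv (τ : Equiv.Perm P) (p : P) (r : ℕ) (hr : (τ ^ r) p = p) :
    (eulB_orb τ p r).mapDomain τ = eulB_orb τ p r := by
  unfold eulB_orb
  rw [Finsupp.mapDomain_finsetSum]
  simp only [Finsupp.mapDomain_single]
  have h1 : ∀ i, τ ((τ ^ i) p) = (τ ^ (i + 1)) p := fun i => by
    rw [pow_succ', Equiv.Perm.mul_apply]
  simp only [h1]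
  have h2 := Finset.sum_range_succ (fun i => (single ((τ ^ i) p) (1 : ℤ))) r
  have h3 := Finset.sum_range_succ' (fun i => (single ((τ ^ i) p) (1 : ℤ))) r
  rw [h2, hr] at h3
  simp only [pow_zero, Equiv.Perm.one_apply] at h3
  exact (add_right_cancel h3).symm

theorem eulB_orb_self {τ : Equiv.Perm P} {p : P} {r : ℕ} (hr0 : 0 < r)
    (hmin : ∀ i, 0 < i → i < r → (τ ^ i) p ≠ p) : eulB_orb τ p r p = 1 := by
  classical
  unfold eulB_orb
  rw [Finsupp.finsetSum_apply, Finset.sum_eq_single 0]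
  · simp
  · intro i hi h0
    rw [Finsupp.single_apply, if_neg (hmin i (Nat.pos_of_ne_zero h0) (Finset.mem_range.1 hi))]
  · intro h
    exact absurd (Finset.mem_range.2 hr0) h

theorem eulB_orb_nonneg (τ : Equiv.Perm P) (p : P) (r : ℕ) : 0 ≤ eulB_orb τ p r := by
  classical
  intro q
  unfold eulB_orb
  rw [Finsupp.finsetSum_apply]
  refine Finset.sum_nonneg fun i _ => ?_
  rw [Finsupp.single_apply]
  split_ifs <;> simp

theorem eulB_orb_le {τ : Equiv.Perm P} {p : P} {r : ℕ} (hr0 : 0 < r) (hr : (τ ^ r) p = p)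
    (hmin : ∀ i, 0 < i → i < r → (τ ^ i) p ≠ p) {D : P →₀ ℤ} (hD : 0 ≤ D)
    (hDi : D.mapDomain τ = D) (hp : D p ≠ 0) : eulB_orb τ p r ≤ D := by
  classical
  intro q
  by_cases hq : ∃ i : ℕ, (τ ^ i) p = q
  · obtain ⟨i, rfl⟩ := hq
    rw [eulB_inv_pow (eulB_orb_inv τ p r hr), eulB_inv_pow hDi, eulB_orb_self hr0 hmin]
    have h1 : 0 ≤ D p := hD p
    omega
  · have h0 : eulB_orb τ p r q = 0 := by
      unfold eulB_orb
      rw [Finsupp.finsetSum_apply]
      refine Finset.sum_eq_zero fun i _ => ?_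
      rw [Finsupp.single_apply, if_neg (fun h => hq ⟨i, h⟩)]
    rw [h0]
    exact hD q

theorem eulB_dg_orb (τ : Equiv.Perm P) (p : P) (r : ℕ) : dg (eulB_orb τ p r) = r := by
  unfold eulB_orb dg
  rw [map_sum]
  simp

theorem eulB_chi_pow {R : Type*} [CommRing R] {τ : Equiv.Perm P} {χ : (P →₀ ℤ) → R}
    (hχτ : ∀ p, χ (single (τ p) 1) = χ (single p 1)) (p : P) (i : ℕ) :
    χ (single ((τ ^ i) p) 1) = χ (single p 1) := by
  induction i with
  | zero => simp
  | succ i ih => rw [pow_succ', Equiv.Perm.mul_apply, hχτ, ih]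

theorem eulB_chi_orb {R : Type*} [CommRing R] {τ : Equiv.Perm P} {χ : (P →₀ ℤ) → R}
    (hχ0 : χ 0 = 1) (hχ : ∀ D E, χ (D + E) = χ D * χ E)
    (hχτ : ∀ p, χ (single (τ p) 1) = χ (single p 1)) (p : P) (r : ℕ) :
    χ (eulB_orb τ p r) = χ (single p 1) ^ r := by
  induction r with
  | zero => simp [eulB_orb, hχ0]
  | succ r ih =>
    have e : eulB_orb τ p (r + 1) = eulB_orb τ p r + single ((τ ^ r) p) 1 := by
      unfold eulB_orb
      rw [Finset.sum_range_succ]
    rw [e, hχ, ih, eulB_chi_pow hχτ, pow_succ]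

/-- removing an orbit. -/
theorem eulB_sub {τ : Equiv.Perm P} {p : P} {r : ℕ} (hr0 : 0 < r) (hr : (τ ^ r) p = p)
    (hmin : ∀ i, 0 < i → i < r → (τ ^ i) p ≠ p) {M : ℕ} {D : P →₀ ℤ} (hD : D ∈ Eff τ M)
    (hp : D p ≠ 0) : r ≤ M ∧ D - eulB_orb τ p r ∈ Eff τ (M - r) := by
  obtain ⟨h1, h2, h3⟩ := hD
  have h4 : 0 ≤ D - eulB_orb τ p r := sub_nonneg.2 (eulB_orb_le hr0 hr hmin h1 h2 hp)
  have h5 : dg (D - eulB_orb τ p r) = (M : ℤ) - r := by rw [map_sub, h3, eulB_dg_orb]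
  have h6 := eulB_dg_nonneg h4
  rw [h5] at h6
  have h7 : r ≤ M := by omega
  refine ⟨h7, h4, ?_, ?_⟩
  · have e : D - eulB_orb τ p r = D + -(eulB_orb τ p r) := sub_eq_add_neg _ _
    have e2 : (-(eulB_orb τ p r)).mapDomain τ = -(eulB_orb τ p r) := by
      have := eulB_orb_inv τ p r hr
      have h8 : (eulB_orb τ p r + -(eulB_orb τ p r)).mapDomain τ = 0 := by
        rw [add_neg_cancel, Finsupp.mapDomain_zero]
      rw [Finsupp.mapDomain_add, this] at h8
      exact (neg_eq_of_add_eq_zero_right h8).symm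
    rw [e, Finsupp.mapDomain_add, h2, e2]
  · rw [h5, Nat.cast_sub h7]

/-- adding an orbit. -/
theorem eulB_add {τ : Equiv.Perm P} {p : P} {r : ℕ} (hr : (τ ^ r) p = p) {M : ℕ} (hrM : r ≤ M)
    {D : P →₀ ℤ} (hD : D ∈ Eff τ (M - r)) : D + eulB_orb τ p r ∈ Eff τ M := by
  obtain ⟨h1, h2, h3⟩ := hD
  refine ⟨add_nonneg h1 (eulB_orb_nonneg τ p r), ?_, ?_⟩
  · rw [Finsupp.mapDomain_add, h2, eulB_orb_inv τ p r hr]
  · rw [map_add, h3, eulB_dg_orb, Nat.cast_sub hrM, sub_add_cancel]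

/-- the weighted number of points. -/
theorem eulB_step {R : Type*} [CommRing R] {τ : Equiv.Perm P}
    (hfin : ∀ n : ℕ, 0 < n → {p | (τ ^ n) p = p}.Finite) {χ : (P →₀ ℤ) → R} (hχ0 : χ 0 = 1)
    (hχ : ∀ D E, χ (D + E) = χ D * χ E) (hχτ : ∀ p, χ (single (τ p) 1) = χ (single p 1))
    {p : P} {r : ℕ} (hr0 : 0 < r) (hr : (τ ^ r) p = p)
    (hmin : ∀ i, 0 < i → i < r → (τ ^ i) p ≠ p) {M : ℕ} (hrM : r ≤ M) :
    ∑ D ∈ (eff_finite τ hfin M).toFinset, ((D p : ℤ) : R) * χ D =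
      χ (single p 1) ^ r * ((∑ D ∈ (eff_finite τ hfin (M - r)).toFinset, ((D p : ℤ) : R) * χ D) +
        ac τ χ (M - r)) := by
  have hac : ac τ χ (M - r) = ∑ D ∈ (eff_finite τ hfin (M - r)).toFinset, χ D := by
    unfold ac
    exact finsum_mem_eq_finite_toFinset_sum _ _
  rw [hac, ← Finset.sum_add_distrib, Finset.mul_sum]
  symm
  refine Finset.sum_of_injOn (fun D => D + eulB_orb τ p r) ?_ ?_ ?_ ?_
  · intro D _ E _ h
    exact add_right_cancel h
  · intro D hD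
    rw [Finset.mem_coe, Set.Finite.mem_toFinset] at hD ⊢
    exact eulB_add hr hrM hD
  · intro D hD hn
    rw [Set.Finite.mem_toFinset] at hD
    by_cases hp : D p = 0
    · rw [hp]; simp
    · exfalso
      refine hn ⟨D - eulB_orb τ p r, ?_, sub_add_cancel _ _⟩
      rw [Finset.mem_coe, Set.Finite.mem_toFinset]
      exact (eulB_sub hr0 hr hmin hD hp).2
  · intro D _
    rw [hχ, eulB_chi_orb hχ0 hχ hχτ, Finsupp.add_apply, eulB_orb_self hr0 hmin]
    push_cast
    ring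

theorem eulB_step0 {R : Type*} [CommRing R] {τ : Equiv.Perm P}
    (hfin : ∀ n : ℕ, 0 < n → {p | (τ ^ n) p = p}.Finite) {χ : (P →₀ ℤ) → R}
    {p : P} {r : ℕ} (hr0 : 0 < r) (hr : (τ ^ r) p = p)
    (hmin : ∀ i, 0 < i → i < r → (τ ^ i) p ≠ p) {M : ℕ} (hrM : M < r) :
    ∑ D ∈ (eff_finite τ hfin M).toFinset, ((D p : ℤ) : R) * χ D = 0 := by
  refine Finset.sum_eq_zero fun D hD => ?_
  rw [Set.Finite.mem_toFinset] at hD
  by_cases hp : D p = 0
  · rw [hp]; simp
  · exact absurd (eulB_sub hr0 hr hmin hD hp).1 (not_le.2 hrM)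

theorem eulB_dvd {τ : Equiv.Perm P} {p : P} {r : ℕ} (hr : (τ ^ r) p = p)
    (m : ℕ) : (τ ^ (r + m)) p = p ↔ (τ ^ m) p = p := by
  rw [add_comm, pow_add, Equiv.Perm.mul_apply, hr]

open Classical in
/-- the contribution of one point. -/
theorem eulB_point {R : Type*} [CommRing R] {τ : Equiv.Perm P}
    (hfin : ∀ n : ℕ, 0 < n → {p | (τ ^ n) p = p}.Finite) {χ : (P →₀ ℤ) → R} (hχ0 : χ 0 = 1)
    (hχ : ∀ D E, χ (D + E) = χ D * χ E) (hχτ : ∀ p, χ (single (τ p) 1) = χ (single p 1))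
    {p : P} {r : ℕ} (hr0 : 0 < r) (hr : (τ ^ r) p = p)
    (hmin : ∀ i, 0 < i → i < r → (τ ^ i) p ≠ p) (M : ℕ) :
    ∑ D ∈ (eff_finite τ hfin M).toFinset, ((D p : ℤ) : R) * χ D =
      ∑ m ∈ Finset.Icc 1 M, (if (τ ^ m) p = p then χ (single p 1) ^ m else 0) *
        ac τ χ (M - m) := by
  induction M using Nat.strong_induction_on with
  | _ M ih =>
    rcases Nat.lt_or_ge M r with h | h
    · rw [eulB_step0 hfin hr0 hr hmin h]
      symm
      refine Finset.sum_eq_zero fun m hm => ?_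
      have h1 := Finset.mem_Icc.1 hm
      rw [if_neg (hmin m (by omega) (by omega)), zero_mul]
    · rw [eulB_step hfin hχ0 hχ hχτ hr0 hr hmin h, ih (M - r) (by omega)]
      have e1 : Finset.Icc 1 M = Finset.Ico 1 r ∪ Finset.Icc r M := by
        ext x
        simp only [Finset.mem_union, Finset.mem_Icc, Finset.mem_Ico]
        omega
      have e2 : Finset.Icc r M = insert r ((Finset.Icc 1 (M - r)).map (addLeftEmbedding r)) := by
        ext x
        simp only [Finset.mem_insert, Finset.mem_Icc, Finset.mem_map, addLeftEmbedding_apply]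
        constructor
        · rintro ⟨h1, h2⟩
          rcases Nat.eq_or_lt_of_le h1 with h3 | h3
          · exact Or.inl h3.symm
          · exact Or.inr ⟨x - r, ⟨by omega, by omega⟩, by omega⟩
        · rintro (rfl | ⟨y, ⟨h1, h2⟩, rfl⟩)
          · omega
          · omega
      have hd : Disjoint (Finset.Ico 1 r) (Finset.Icc r M) := by
        rw [Finset.disjoint_left]
        intro x hx hx'
        have := Finset.mem_Ico.1 hx
        have := Finset.mem_Icc.1 hx'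
        omega
      have hni : r ∉ (Finset.Icc 1 (M - r)).map (addLeftEmbedding r) := by
        simp only [Finset.mem_map, Finset.mem_Icc, addLeftEmbedding_apply, not_exists]
        omega
      rw [e1, Finset.sum_union hd, e2, Finset.sum_insert hni, Finset.sum_map]
      have z1 : ∑ x ∈ Finset.Ico 1 r, (if (τ ^ x) p = p then χ (single p 1) ^ x else 0) *
          ac τ χ (M - x) = 0 := by
        refine Finset.sum_eq_zero fun m hm => ?_
        have h1 := Finset.mem_Ico.1 hm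
        rw [if_neg (hmin m (by omega) (by omega)), zero_mul]
      rw [z1, zero_add, if_pos hr, mul_add, add_comm, Finset.mul_sum]
      congr 1
      refine Finset.sum_congr rfl fun m _ => ?_
      have e3 : M - (addLeftEmbedding r) m = M - r - m := by
        rw [addLeftEmbedding_apply]; omega
      rw [e3, addLeftEmbedding_apply, eulB_dvd hr, pow_add]
      split_ifs <;> ring

theorem eulB_period {τ : Equiv.Perm P} {M : ℕ} {D : P →₀ ℤ} (hD : D ∈ Eff τ M) {p : P}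
    (hp : p ∈ D.support) : ∃ m : ℕ, 0 < m ∧ (τ ^ m) p = p := by
  have h1 : ∀ i : ℕ, (τ ^ i) p ∈ D.support := by
    intro i
    rw [Finsupp.mem_support_iff, eulB_inv_pow hD.2.1]
    exact Finsupp.mem_support_iff.1 hp
  obtain ⟨i, j, hij, h⟩ := Finite.exists_ne_map_eq_of_infinite
    (fun i : ℕ => (⟨(τ ^ i) p, h1 i⟩ : D.support))
  have h2 : (τ ^ i) p = (τ ^ j) p := congrArg Subtype.val h
  have key : ∀ {i j : ℕ}, i < j → (τ ^ i) p = (τ ^ j) p → ∃ m : ℕ, 0 < m ∧ (τ ^ m) p = p := by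
    intro i j hij h
    refine ⟨j - i, by omega, ?_⟩
    have e : j = i + (j - i) := by omega
    rw [e, pow_add, Equiv.Perm.mul_apply] at h
    exact ((τ ^ i).injective h).symm
  rcases Nat.lt_or_gt_of_ne hij with h3 | h3
  · exact key h3 h2
  · exact key h3 h2.symm

theorem euler {R : Type*} [CommRing R] (τ : Equiv.Perm P)
    (hfin : ∀ n : ℕ, 0 < n → {p | (τ ^ n) p = p}.Finite) (χ : (P →₀ ℤ) → R) (hχ0 : χ 0 = 1)
    (hχ : ∀ D E, χ (D + E) = χ D * χ E) (hχτ : ∀ p, χ (single (τ p) 1) = χ (single p 1)) (M : ℕ) :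
    (M : R) * ac τ χ M = ∑ m ∈ Finset.Icc 1 M, sc τ χ m * ac τ χ (M - m) := by
  classical
  set T : ℕ → Finset P := fun m => if h : 0 < m then (hfin m h).toFinset else ∅ with hT
  set S : Finset P := (eff_finite τ hfin M).toFinset.biUnion (fun D => D.support) ∪
    (Finset.Icc 1 M).biUnion T with hS
  have hac : ac τ χ M = ∑ D ∈ (eff_finite τ hfin M).toFinset, χ D := by
    unfold ac
    exact finsum_mem_eq_finite_toFinset_sum _ _
  have hper : ∀ p ∈ S, ∃ m : ℕ, 0 < m ∧ (τ ^ m) p = p := by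
    intro p hp
    rw [hS, Finset.mem_union, Finset.mem_biUnion, Finset.mem_biUnion] at hp
    rcases hp with ⟨D, hD, hp⟩ | ⟨m, hm, hp⟩
    · rw [Set.Finite.mem_toFinset] at hD
      exact eulB_period hD hp
    · have hm0 : 0 < m := (Finset.mem_Icc.1 hm).1
      simp only [hT, dif_pos hm0, Set.Finite.mem_toFinset, Set.mem_ofPred_eq] at hp
      exact ⟨m, hm0, hp⟩
  have hpt : ∀ p ∈ S, ∑ D ∈ (eff_finite τ hfin M).toFinset, ((D p : ℤ) : R) * χ D =
      ∑ m ∈ Finset.Icc 1 M, (if (τ ^ m) p = p then χ (single p 1) ^ m else 0) *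
        ac τ χ (M - m) := by
    intro p hp
    have hex := hper p hp
    exact eulB_point hfin hχ0 hχ hχτ (Nat.find_spec hex).1 (Nat.find_spec hex).2
      (fun i hi0 hi h => Nat.find_min hex hi ⟨hi0, h⟩) M
  have hsc : ∀ m ∈ Finset.Icc 1 M, sc τ χ m =
      ∑ p ∈ S, if (τ ^ m) p = p then χ (single p 1) ^ m else 0 := by
    intro m hm
    have hm0 : 0 < m := (Finset.mem_Icc.1 hm).1
    have e1 : sc τ χ m = ∑ p ∈ (hfin m hm0).toFinset, χ (single p 1) ^ m := by
      unfold sc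
      exact finsum_mem_eq_finite_toFinset_sum _ _
    rw [e1, ← Finset.sum_filter]
    refine Finset.sum_congr ?_ fun _ _ => rfl
    ext p
    rw [Set.Finite.mem_toFinset, Finset.mem_filter, Set.mem_ofPred_eq]
    constructor
    · intro h
      refine ⟨?_, h⟩
      rw [hS, Finset.mem_union]
      refine Or.inr (Finset.mem_biUnion.2 ⟨m, hm, ?_⟩)
      simp only [hT, dif_pos hm0, Set.Finite.mem_toFinset, Set.mem_ofPred_eq]
      exact h
    · exact fun h => h.2
  calc (M : R) * ac τ χ M = ∑ D ∈ (eff_finite τ hfin M).toFinset, ∑ p ∈ S,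
        ((D p : ℤ) : R) * χ D := by
        rw [hac, Finset.mul_sum]
        refine Finset.sum_congr rfl fun D hD => ?_
        have hDS : D.support ⊆ S := by
          intro p hp
          rw [hS, Finset.mem_union]
          exact Or.inl (Finset.mem_biUnion.2 ⟨D, hD, hp⟩)
        have h1 := eulB_dg_eq D hDS
        rw [Set.Finite.mem_toFinset] at hD
        rw [hD.2.2] at h1
        rw [← Finset.sum_mul]
        congr 1
        have h2 := congrArg (fun z : ℤ => (z : R)) h1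
        simpa using h2
    _ = ∑ p ∈ S, ∑ D ∈ (eff_finite τ hfin M).toFinset, ((D p : ℤ) : R) * χ D :=
        Finset.sum_comm
    _ = ∑ p ∈ S, ∑ m ∈ Finset.Icc 1 M, (if (τ ^ m) p = p then χ (single p 1) ^ m else 0) *
        ac τ χ (M - m) := Finset.sum_congr rfl hpt
    _ = ∑ m ∈ Finset.Icc 1 M, ∑ p ∈ S, (if (τ ^ m) p = p then χ (single p 1) ^ m else 0) *
        ac τ χ (M - m) := Finset.sum_comm
    _ = ∑ m ∈ Finset.Icc 1 M, sc τ χ m * ac τ χ (M - m) := by
        refine Finset.sum_congr rfl fun m hm => ?_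
        rw [hsc m hm, Finset.sum_mul]

theorem LD_ac {R : Type*} [CommRing R] (τ : Equiv.Perm P)
    (hfin : ∀ n : ℕ, 0 < n → {p | (τ ^ n) p = p}.Finite) (χ : (P →₀ ℤ) → R) (hχ0 : χ 0 = 1)
    (hχ : ∀ D E, χ (D + E) = χ D * χ E) (hχτ : ∀ p, χ (single (τ p) 1) = χ (single p 1)) :
    LD (PowerSeries.mk (ac τ χ)) (pos (sc τ χ)) :=
  LD_of_rec _ _ (euler τ hfin χ hχ0 hχ hχτ)

end Vale.Agent.P019P
end
end

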