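import Vale.Agent.P025.R2.H816.J13
import Vale.Agent.P025.R2.H816.J14

/-! Carved out of `Vale.Agent.P019.Bd4` (function fields of one variable); generated file. -/

set_option linter.all false

attribute [local instance] O19.fr O19.tf O19.pj O19.fl

section

section

/-!
# The class numbers as products over reciprocal roots
-/

namespace Vale.Agent.P019P

open Polynomial

variable {P : Type*}

theorem zhn_ac_cast (τ : Equiv.Perm P)
    (hfin : ∀ n : ℕ, 0 < n → {p | (τ ^ n) p = p}.Finite) (m : ℕ) :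
    ((ac τ (fun _ => (1 : ℤ)) m : ℤ) : ℂ) = ac τ (fun _ => (1 : ℂ)) m := by
  have h := (Int.castAddHom ℂ).map_finsum_mem (fun _ : P →₀ ℤ => (1 : ℤ)) (eff_finite τ hfin m)
  simp only [Int.coe_castAddHom, Int.cast_one] at h
  exact h

theorem zhn_sc_pow (σ : Equiv.Perm P) (n m : ℕ) :
    sc (σ ^ n) (fun _ => (1 : ℂ)) m = sc σ (fun _ => (1 : ℂ)) (n * m) := by
  unfold sc
  rw [pow_mul]
  simp only [one_pow]

/-- the numerator of the zeta function over the extension of degree `n`. -/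
theorem ZDat.zhn_L (Z : ZDat P) (n : ℕ) (hn : 0 < n) : ∃ L : ℤ[X], L.natDegree ≤ 2 * Z.g ∧
    L.coeff 0 = 1 ∧ L.coeff (2 * Z.g) = ((Z.q : ℤ) ^ n) ^ Z.g ∧ L.eval 1 = Z.hh n ∧
    LD (((L.map (Int.castRingHom ℂ) : ℂ[X])) : PowerSeries ℂ)
      (pos fun m => -(1 : ℂ) ^ m + -((Z.q : ℂ) ^ n) ^ m + sc (Z.σ ^ n) (fun _ => (1 : ℂ)) m) := by
  have hQ : (2 : ℤ) ≤ (Z.q : ℤ) ^ n := by
    have h2 : (2 : ℤ) ≤ Z.q := by exact_mod_cast Z.two_le
    calc (2 : ℤ) ≤ (Z.q : ℤ) ^ 1 := by simpa using h2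
      _ ≤ (Z.q : ℤ) ^ n := pow_le_pow_right₀ (by linarith) hn
  obtain ⟨L, hd, h0, h1, he, hL⟩ := poly_L (fun m => ac (Z.σ ^ n) (fun _ => (1 : ℤ)) m) Z.g
    ((Z.q : ℤ) ^ n) (Z.hh n) hQ (ac_zero _ _) (fun M hM => Z.an_large n hn M hM)
    (fun hg => Z.an_crit n hn hg)
  refine ⟨L, hd, h0, h1, he, ?_⟩
  have hmk : PowerSeries.map (Int.castRingHom ℂ)
      (PowerSeries.mk (fun m => ac (Z.σ ^ n) (fun _ => (1 : ℤ)) m)) =
      PowerSeries.mk (ac (Z.σ ^ n) (fun _ => (1 : ℂ))) := by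
    ext m
    rw [PowerSeries.coeff_map, PowerSeries.coeff_mk, PowerSeries.coeff_mk]
    exact zhn_ac_cast _ (Z.fin_pow n hn) m
  have e : (((L.map (Int.castRingHom ℂ) : ℂ[X])) : PowerSeries ℂ) =
      (1 - PowerSeries.C (1 : ℂ) * PowerSeries.X) *
        (1 - PowerSeries.C ((Z.q : ℂ) ^ n) * PowerSeries.X) *
        PowerSeries.mk (ac (Z.σ ^ n) (fun _ => (1 : ℂ))) := by
    rw [coe_map_int, hL, map_mul, map_mul, hmk]
    congr 1
    congr 1
    · simp
    · simp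
  rw [e, ← pos_add, ← pos_add]
  exact ((LD_lin (1 : ℂ)).mul (LD_lin ((Z.q : ℂ) ^ n))).mul
    (LD_ac (Z.σ ^ n) (Z.fin_pow n hn) (fun _ => (1 : ℂ)) rfl (fun _ _ => by simp) (fun _ => rfl))

theorem zhn_const (L : ℤ[X]) (h0 : L.coeff 0 = 1) :
    PowerSeries.constantCoeff (((L.map (Int.castRingHom ℂ) : ℂ[X])) : PowerSeries ℂ) = 1 := by
  rw [← PowerSeries.coeff_zero_eq_constantCoeff_apply, Polynomial.coeff_coe, coeff_map, h0]
  simp

theorem ZDat.zeta (Z : ZDat P) : ∃ (A : Multiset ℂ) (f : ℤ[X]), f.natDegree ≤ 2 * Z.g ∧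
    f.coeff 0 = 1 ∧ f.coeff (2 * Z.g) = (Z.q : ℤ) ^ Z.g ∧
    f.map (Int.castRingHom ℂ) = (A.map fun a => 1 - C a * X).prod ∧
    (∀ n, 0 < n → (Z.hh n : ℂ) = (A.map fun a => 1 - a ^ n).prod) ∧
    ∀ m, 0 < m → sc Z.σ (fun _ => (1 : ℂ)) m = 1 + (Z.q : ℂ) ^ m - (A.map fun a => a ^ m).sum := by
  obtain ⟨f, hd, h0, h1, -, hLD⟩ := Z.zhn_L 1 one_pos
  obtain ⟨A, -, hA⟩ := exists_roots (f.map (Int.castRingHom ℂ)) (2 * Z.g)
    ((natDegree_map_le).trans hd) (by rw [coeff_map, h0]; simp)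
  have hsc : ∀ m, 0 < m →
      sc Z.σ (fun _ => (1 : ℂ)) m = 1 + (Z.q : ℂ) ^ m - (A.map fun a => a ^ m).sum := by
    intro m hm
    have hP := LD_prod (R := ℂ) A
    rw [← coe_prod_lin, ← hA] at hP
    have h := LD.right_unique (zhn_const f h0) hP hLD
    have h2 := pos_inj h m hm
    simp only [pow_one, one_pow] at h2
    linear_combination (-1 : ℂ) * h2
  refine ⟨A, f, hd, h0, ?_, hA, ?_, hsc⟩
  · rw [h1, pow_one]
  · intro n hn
    obtain ⟨L, -, k0, -, ke, kLD⟩ := Z.zhn_L n hn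
    have hpos : (pos fun m => -(1 : ℂ) ^ m + -((Z.q : ℂ) ^ n) ^ m +
        sc (Z.σ ^ n) (fun _ => (1 : ℂ)) m) =
        pos fun m => -((A.map fun a => a ^ n).map fun a => a ^ m).sum := by
      apply pos_congr
      intro m hm
      rw [zhn_sc_pow, hsc (n * m) (Nat.mul_pos hn hm), Multiset.map_map]
      have e1 : (A.map fun a => a ^ (n * m)) = A.map ((fun a => a ^ m) ∘ fun a => a ^ n) := by
        apply Multiset.map_congr rfl
        intro a _
        simp only [Function.comp_apply, pow_mul]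
      rw [e1, pow_mul, one_pow]
      ring
    rw [hpos] at kLD
    have hP := LD_prod (R := ℂ) (A.map fun a => a ^ n)
    rw [← coe_prod_lin] at hP
    have hc : PowerSeries.constantCoeff
        (((((A.map fun a => a ^ n).map fun a => 1 - C a * X).prod : ℂ[X])) : PowerSeries ℂ) = 1 := by
      rw [coe_prod_lin, map_multiset_prod, Multiset.map_map]
      apply Multiset.prod_eq_one
      intro x hx
      obtain ⟨a, -, rfl⟩ := Multiset.mem_map.mp hx
      simp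
    have heq := LD.left_unique (zhn_const L k0) hc kLD hP
    have heq2 := Polynomial.coe_injective ℂ heq
    have h3 := congrArg (Polynomial.eval (1 : ℂ)) heq2
    rw [eval_prod_lin, Multiset.map_map] at h3
    have h4 : (L.map (Int.castRingHom ℂ)).eval (1 : ℂ) = (Z.hh n : ℂ) := by
      have h5 : (L.map (Int.castRingHom ℂ)).eval ((Int.castRingHom ℂ) 1) =
          (Int.castRingHom ℂ) (L.eval 1) := by
        rw [eval_map, eval₂_at_apply]
      rw [ke, map_one] at h5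
      rw [h5]
      simp
    rw [h4] at h3
    rw [h3]
    rfl

end Vale.Agent.P019P
end
end

section

section

/-!
# Twisted zeta functions
-/

namespace Vale.Agent.P019P

variable {P : Type*}

open Finsupp

theorem ZTw.constantCoeff_prod_lin (A : Multiset ℂ) :
    PowerSeries.constantCoeff
      ((A.map fun a => (1 : PowerSeries ℂ) - PowerSeries.C a * PowerSeries.X).prod) = 1 := by
  rw [map_multiset_prod, Multiset.map_map]
  apply Multiset.prod_eq_one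
  intro x hx
  obtain ⟨a, -, rfl⟩ := Multiset.mem_map.1 hx
  simp

/-- Equality of multisets of reciprocal roots from equality of power sums. -/
theorem ZTw.prod_eq {A B : Multiset ℂ}
    (h : ∀ m, 0 < m → (A.map fun a => a ^ m).sum = (B.map fun a => a ^ m).sum) :
    (A.map fun a => 1 - a).prod = (B.map fun a => 1 - a).prod := by
  have h1 := LD_prod A
  have h2 := LD_prod B
  have h3 : pos (fun m => -(A.map fun a => a ^ m).sum) = pos (fun m => -(B.map fun a => a ^ m).sum)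
      := pos_congr fun m hm => by rw [h m hm]
  rw [h3] at h1
  have h4 := LD.left_unique (ZTw.constantCoeff_prod_lin A) (ZTw.constantCoeff_prod_lin B) h1 h2
  rw [← coe_prod_lin, ← coe_prod_lin] at h4
  have h5 := Polynomial.coe_injective ℂ h4
  rw [← eval_prod_lin, ← eval_prod_lin, h5]

theorem ZDat.no_char (Z : ZDat P) {ℓ : ℕ} (hℓ : 0 < ℓ) (n : ℕ) (hn : 0 < n) (ψ : AddChar Z.J ℂ)
    (hs : ∀ y, ψ ((Z.sJ ^ n) y) = ψ y) (hl : ∀ y, ψ (ℓ • y) = 1) (x : Z.J)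
    (hx : (Z.sJ ^ n) x = x) : ψ x = 1 := by
  by_contra hne
  -- the projection
  have hc0 : Z.deg (Z.cl (single Z.P0 1)) = 1 := by rw [ZDat.deg_cl, dg_single]
  have hP0 : (Z.σ ^ n) Z.P0 = Z.P0 := Equiv.Perm.pow_apply_eq_self_of_apply_eq_self Z.fix0 n
  have hsc0 : (Z.s ^ n) (Z.cl (single Z.P0 1)) = Z.cl (single Z.P0 1) := by
    rw [ZDat.s_pow_cl, mapDomain_single, hP0]
  have hker : ∀ y : Z.Pic, y - Z.deg y • Z.cl (single Z.P0 1) ∈ Z.deg.ker := by
    intro y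
    rw [AddMonoidHom.mem_ker, map_sub, map_zsmul, hc0, smul_eq_mul, mul_one, sub_self]
  let pr : Z.Pic → Z.J := fun y => ⟨y - Z.deg y • Z.cl (single Z.P0 1), hker y⟩
  have pr_add : ∀ y z, pr (y + z) = pr y + pr z := by
    intro y z
    apply Subtype.ext
    change y + z - Z.deg (y + z) • Z.cl (single Z.P0 1) =
      (y - Z.deg y • Z.cl (single Z.P0 1)) + (z - Z.deg z • Z.cl (single Z.P0 1))
    rw [map_add, add_zsmul]
    abel
  have pr_coe : ∀ j : Z.J, pr (j : Z.Pic) = j := by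
    intro j
    apply Subtype.ext
    change (j : Z.Pic) - Z.deg (j : Z.Pic) • Z.cl (single Z.P0 1) = j
    have : Z.deg (j : Z.Pic) = 0 := j.2
    rw [this, zero_zsmul, sub_zero]
  have pr_s : ∀ y, pr ((Z.s ^ n) y) = (Z.sJ ^ n) (pr y) := by
    intro y
    apply Subtype.ext
    rw [ZDat.coe_sJ_pow]
    change (Z.s ^ n) y - Z.deg ((Z.s ^ n) y) • Z.cl (single Z.P0 1) =
      (Z.s ^ n) (y - Z.deg y • Z.cl (single Z.P0 1))
    rw [map_sub, map_zsmul, hsc0, ZDat.deg_s_pow]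
  let χ : Z.Pic → ℂ := fun y => ψ (pr y)
  have χ_mul : ∀ y z, χ (y + z) = χ y * χ z := by
    intro y z
    change ψ (pr (y + z)) = _
    rw [pr_add, AddChar.map_add_eq_mul]
  have χ_zero : χ 0 = 1 := by
    have h0 : pr 0 = 0 := by
      have := pr_add 0 0
      rw [add_zero] at this
      exact left_eq_add.1 this
    change ψ (pr 0) = 1
    rw [h0, AddChar.map_zero_eq_one]
  have χ_s : ∀ y, χ ((Z.s ^ n) y) = χ y := by
    intro y
    change ψ (pr ((Z.s ^ n) y)) = ψ (pr y)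
    rw [pr_s, hs]
  have χ_pow : ∀ y, χ y ^ ℓ = 1 := by
    intro y
    change ψ (pr y) ^ ℓ = 1
    rw [← AddChar.map_nsmul_eq_pow, hl]
  have χ_x : χ (x : Z.Pic) ≠ 1 := by
    change ψ (pr (x : Z.Pic)) ≠ 1
    rw [pr_coe]; exact hne
  have hxPM : (x : Z.Pic) ∈ Z.PM n 0 := by
    refine ⟨x.2, ?_⟩
    rw [← ZDat.coe_sJ_pow, hx]
  have hfin : ∀ m : ℕ, 0 < m → {p | ((Z.σ ^ n) ^ m) p = p}.Finite := Z.fin_pow n hn
  -- the coefficients
  have hlarge := fun M (hM : 2 * Z.g ≤ M + 1) => Z.tw_large n hn χ χ_mul (x : Z.Pic) hxPM χ_x M hM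
  have hLD : LD (PowerSeries.mk (ac (Z.σ ^ n) fun D => χ (Z.cl D)))
      (pos (sc (Z.σ ^ n) fun D => χ (Z.cl D))) := by
    apply LD_ac (Z.σ ^ n) hfin
    · rw [map_zero, χ_zero]
    · intro D E
      rw [map_add, χ_mul]
    · intro p
      have : Z.cl (single ((Z.σ ^ n) p) 1) = (Z.s ^ n) (Z.cl (single p 1)) := by
        rw [ZDat.s_pow_cl, mapDomain_single]
      rw [this, χ_s]
  set a : ℕ → ℂ := ac (Z.σ ^ n) (fun D => χ (Z.cl D)) with ha
  have ha0 : a 0 = 1 := by rw [ha, ac_zero, map_zero, χ_zero]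
  let F : Polynomial ℂ := PowerSeries.trunc (2 * Z.g + 1) (PowerSeries.mk a)
  have hFc : ((F : Polynomial ℂ) : PowerSeries ℂ) = PowerSeries.mk a := by
    ext m
    rw [Polynomial.coeff_coe, PowerSeries.coeff_trunc, PowerSeries.coeff_mk]
    split_ifs with h
    · rfl
    · exact (hlarge m (by omega)).symm
  have hF0 : F.coeff 0 = 1 := by
    rw [PowerSeries.coeff_trunc, if_pos (by omega), PowerSeries.coeff_mk, ha0]
  have hFd : F.natDegree ≤ 2 * Z.g :=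
    Nat.lt_succ_iff.1 (PowerSeries.natDegree_trunc_lt (PowerSeries.mk a) (2 * Z.g))
  obtain ⟨B, -, hB⟩ := exists_roots F (2 * Z.g) hFd hF0
  have hB' : PowerSeries.mk a =
      (B.map fun a => (1 : PowerSeries ℂ) - PowerSeries.C a * PowerSeries.X).prod := by
    rw [← hFc, hB, coe_prod_lin]
  have hsum : ∀ m, 0 < m → sc (Z.σ ^ n) (fun D => χ (Z.cl D)) m = -(B.map fun b => b ^ m).sum := by
    intro m hm
    rw [hB'] at hLD
    exact pos_inj (LD.right_unique (ZTw.constantCoeff_prod_lin B) hLD (LD_prod B)) m hm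
  -- the untwisted zeta function
  obtain ⟨A, f, -, -, -, -, hA1, hA2⟩ := Z.zeta
  have hsc : ∀ m, 0 < m → sc (Z.σ ^ n) (fun D => χ (Z.cl D)) (ℓ * m) =
      sc Z.σ (fun _ => (1 : ℂ)) (n * ℓ * m) := by
    intro m _
    unfold sc
    rw [← pow_mul, ← mul_assoc]
    refine finsum_congr fun p => finsum_congr fun _ => ?_
    rw [pow_mul, χ_pow, one_pow, one_pow]
  have key : ∀ m, 0 < m → (((1 : ℂ) ::ₘ ((Z.q : ℂ) ^ (n * ℓ)) ::ₘ (B.map fun b => b ^ ℓ)).map
      fun a => a ^ m).sum = ((A.map fun a => a ^ (n * ℓ)).map fun a => a ^ m).sum := by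
    intro m hm
    have h1 := hsum (ℓ * m) (Nat.mul_pos hℓ hm)
    rw [hsc m hm, hA2 _ (Nat.mul_pos (Nat.mul_pos hn hℓ) hm)] at h1
    rw [Multiset.map_cons, Multiset.map_cons, Multiset.sum_cons, Multiset.sum_cons,
      Multiset.map_map, Multiset.map_map]
    simp only [Function.comp_def, ← pow_mul, one_pow]
    linear_combination h1
  have h2 := ZTw.prod_eq key
  rw [Multiset.map_cons, Multiset.prod_cons, sub_self, zero_mul, Multiset.map_map] at h2
  have h3 := hA1 (n * ℓ) (Nat.mul_pos hn hℓ)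
  have h4 : (Z.hh (n * ℓ) : ℂ) = 0 := by
    rw [h3, h2]
    rfl
  have h5 := Z.hh_pos (n * ℓ) (Nat.mul_pos hn hℓ)
  rw [Nat.cast_eq_zero] at h4
  omega

end Vale.Agent.P019P
end
end

section

section

/-!
# The abstract zeta theorem
-/

namespace Vale.Agent.P019P

open Polynomial

variable {P : Type*}

theorem pv_aux {ℓ : ℕ} (hℓ : ℓ.Prime) {N a b : ℕ} {u : ℤ} (ha : 0 < a)
    (hu : ¬ (ℓ : ℤ) ∣ u) (h : (b : ℤ) = a * (ℓ ^ N * u)) :
    padicValNat ℓ b = padicValNat ℓ a + N := by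
  have := Fact.mk hℓ
  have hu0 : u ≠ 0 := by
    rintro rfl
    exact hu (dvd_zero _)
  have h1 : b = a * (ℓ ^ N * u.natAbs) := by
    have h2 := congrArg Int.natAbs h
    rw [Int.natAbs_natCast, Int.natAbs_mul, Int.natAbs_mul, Int.natAbs_natCast, Int.natAbs_pow,
      Int.natAbs_natCast] at h2
    exact h2
  have h3 : u.natAbs ≠ 0 := Int.natAbs_ne_zero.2 hu0
  have h4 : ℓ ^ N ≠ 0 := pow_ne_zero _ hℓ.pos.ne'
  have h5 : padicValNat ℓ u.natAbs = 0 := by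
    apply padicValNat.eq_zero_of_not_dvd
    intro h6
    exact hu (Int.natCast_dvd.2 h6)
  rw [h1, padicValNat.mul ha.ne' (mul_ne_zero h4 h3), padicValNat.mul h4 h3,
    padicValNat.prime_pow, h5, Nat.add_zero]

theorem ZDat.grow (Z : ZDat P) {ℓ : ℕ} (hℓ : ℓ.Prime) (hq : ¬ ℓ ∣ Z.q) :
    Grow ℓ (2 * Z.g) Z.hh := by
  obtain ⟨A, f, hf, h0, h2g, hA, hh, -⟩ := Z.zeta
  obtain ⟨M, hM, hdet⟩ := zm_exists_matrix (2 * Z.g) f hf h0
  have hMd : ¬ (ℓ : ℤ) ∣ M.det := by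
    rw [hdet, h2g, pow_mul, neg_one_sq, one_pow, one_mul]
    intro h
    have h1 := (Nat.prime_iff_prime_int.1 hℓ).dvd_of_dvd_pow h
    exact hq (Int.natCast_dvd_natCast.1 h1)
  have hd : ∀ n, 0 < n → (Z.hh n : ℤ) = (1 - M ^ n).det := by
    intro n hn
    have h1 := det_one_sub_pow M A (by rw [hM]; exact hA) n hn
    have h2 : (((Z.hh n : ℤ)) : ℂ) = (((1 - M ^ n).det : ℤ) : ℂ) := by
      rw [h1, ← hh n hn]
      push_cast
      rfl
    exact_mod_cast h2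
  obtain ⟨n0, hn0, h1, h2⟩ := det_growth hℓ M hMd
  refine ⟨fun n hn => Z.hh_pos n hn, n0, hn0, ?_, ?_⟩
  · intro n hn hd0
    obtain ⟨u, hu, h3⟩ := h1 n hd0
    rw [← hd _ (Nat.mul_pos hn hℓ.pos), ← hd n hn] at h3
    exact pv_aux hℓ (Z.hh_pos n hn) hu h3
  · intro n r hn hd0 hr
    obtain ⟨u, hu, h3⟩ := h2 n r hd0 hr
    have hr0 : 0 < r := by
      rcases Nat.eq_zero_or_pos r with h | h
      · rw [h] at hr
        exact absurd (dvd_zero _) hr
      · exact h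
    rw [← hd _ (Nat.mul_pos hn hr0), ← hd n hn] at h3
    have h4 := pv_aux (N := 0) hℓ (Z.hh_pos n hn) hu (by rw [pow_zero, one_mul]; exact h3)
    rw [h4, Nat.add_zero]

theorem ZDat.exists_tower (Z : ZDat P) {ℓ : ℕ} (hℓ : ℓ.Prime) (hq : ¬ ℓ ∣ Z.q) :
    ∃ n0 c : ℕ, Tower (Z.sJ ^ n0) ℓ (2 * Z.g) c :=
  Vale.Agent.P019P.exists_tower Z.sJ hℓ Z.sJ_per Z.sJ_fin (Z.grow hℓ hq)

theorem ZDat.torsion (Z : ZDat P) (x : Z.J) : ∃ n : ℕ, 0 < n ∧ n • x = 0 := by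
  obtain ⟨n, hn, hx⟩ := Z.sJ_per x
  have hfin := Z.sJ_fin n hn
  -- the multiples of `x` are all fixed, hence not pairwise distinct
  have hfix : ∀ k : ℕ, k • x ∈ {y : Z.J | (Z.sJ ^ n) y = y} := by
    intro k
    change (Z.sJ ^ n) (k • x) = k • x
    rw [map_nsmul, hx]
  have hni : ¬ Function.Injective (fun k : ℕ => k • x) := by
    intro hinj
    have h1 : (Set.range (fun k : ℕ => k • x)).Infinite := Set.infinite_range_of_injective hinj
    exact h1 (hfin.subset (by rintro _ ⟨k, rfl⟩; exact hfix k))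
  rw [Function.Injective] at hni
  push Not at hni
  obtain ⟨a, b, hab, hne⟩ := hni
  rcases lt_or_gt_of_ne hne with h | h
  · refine ⟨b - a, Nat.sub_pos_of_lt h, ?_⟩
    have h2 : (b - a) • x + a • x = 0 + a • x := by
      rw [← add_nsmul, Nat.sub_add_cancel h.le, zero_add]
      exact hab.symm
    exact add_right_cancel h2
  · refine ⟨a - b, Nat.sub_pos_of_lt h, ?_⟩
    have h2 : (a - b) • x + b • x = 0 + b • x := by
      rw [← add_nsmul, Nat.sub_add_cancel h.le, zero_add]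
      exact hab
    exact add_right_cancel h2

theorem ZDat.divJ (Z : ZDat P) {ℓ : ℕ} (hℓ : ℓ.Prime) (hq : ¬ ℓ ∣ Z.q) (x : Z.J) :
    ∃ y, x = ℓ • y := by
  by_contra hx
  obtain ⟨n0, c, ht⟩ := Z.exists_tower hℓ hq
  obtain ⟨n, ψ, x', hn, h1, h2, h3, h4⟩ :=
    exists_char Z.sJ ℓ Z.sJ_per (ht.finite_quot hℓ Z.torsion) x hx
  exact h4 (Z.no_char hℓ.pos n hn ψ h1 h2 x' h3)

/-- every class of degree zero is divisible by `ℓ`. -/
theorem ZDat.divisible (Z : ZDat P) {ℓ : ℕ} (hℓ : ℓ.Prime) (hq : ¬ ℓ ∣ Z.q) (D : P →₀ ℤ)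
    (hD : dg D = 0) : ∃ E : P →₀ ℤ, dg E = 0 ∧ D - ℓ • E ∈ Z.prin := by
  have hx : Z.cl D ∈ Z.deg.ker := by
    rw [AddMonoidHom.mem_ker, Z.deg_cl, hD]
  obtain ⟨y, hy⟩ := Z.divJ hℓ hq ⟨Z.cl D, hx⟩
  obtain ⟨E, hE⟩ := Z.cl_surj y.1
  refine ⟨E, ?_, ?_⟩
  · rw [← Z.deg_cl, hE]
    exact y.2
  · rw [← Z.cl_eq, map_nsmul, hE]
    have h1 := congrArg (fun z : Z.J => (z : Z.Pic)) hy
    exact h1

/-- the number of `ℓ`-torsion classes. -/
theorem ZDat.card_tors (Z : ZDat P) {ℓ : ℕ} (hℓ : ℓ.Prime) (hq : ¬ ℓ ∣ Z.q) :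
    Nat.card {x : (P →₀ ℤ) ⧸ Z.prin // ℓ • x = 0} = ℓ ^ (2 * Z.g) := by
  obtain ⟨n0, c, ht⟩ := Z.exists_tower hℓ hq
  rw [← ht.card_tors hℓ (Z.divJ hℓ hq)]
  have key : ∀ x : Z.Pic, ℓ • x = 0 → x ∈ Z.deg.ker := by
    intro x hx
    rw [AddMonoidHom.mem_ker]
    have h1 := congrArg Z.deg hx
    rw [map_nsmul, map_zero, nsmul_eq_mul] at h1
    exact (mul_eq_zero.1 h1).resolve_left (by exact_mod_cast hℓ.pos.ne')
  exact Nat.card_congr
    { toFun := fun x => ⟨⟨x.1, key x.1 x.2⟩, Subtype.ext x.2⟩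
      invFun := fun x => ⟨x.1.1, congrArg (fun z : Z.J => (z : Z.Pic)) x.2⟩
      left_inv := fun _ => rfl
      right_inv := fun _ => rfl }

end Vale.Agent.P019P
end
end

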