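import Vale.Agent.P025.R2.H816.J04
import Vale.Agent.P025.R2.H816.J18
import Vale.Agent.P025.R2.H816.HK

/-! Everything of the library of function fields of one variable: places, orders, divisors,
Riemann-Roch, genus, Riemann-Hurwitz over `k(x)`, class group. -/
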